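import Mathlib

/-! KS-D, part 1: Hahn–Banach lemmas. -/

set_option autoImplicit false
open scoped InnerProductSpace ComplexOrder ComplexStarModule

namespace Crest.Agent.H9.KD

/-- Hahn–Banach for a cone of constraints `r ≤ g x`. -/
theorem hb_cone {E : Type*} [AddCommGroup E] [Module ℝ E] (T : Set (E × ℝ))
    (h0 : ((0 : E), (0 : ℝ)) ∈ T)
    (hadd : ∀ p ∈ T, ∀ q ∈ T, p + q ∈ T)
    (hsmul : ∀ c : ℝ, 0 < c → ∀ p ∈ T, c • p ∈ T)
    (hz : ∀ r : ℝ, ((0 : E), r) ∈ T → r ≤ 0)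
    (hneg : ∀ x r, (x, r) ∈ T → ∃ r', (-x, r') ∈ T) :
    ∃ g : E →ₗ[ℝ] ℝ, ∀ x r, (x, r) ∈ T → r ≤ g x := by
  let V : Submodule ℝ E :=
    { carrier := {x | ∃ r, (x, r) ∈ T}
      zero_mem' := ⟨0, h0⟩
      add_mem' := by
        rintro x y ⟨r, hr⟩ ⟨s, hs⟩
        exact ⟨r + s, hadd _ hr _ hs⟩
      smul_mem' := by
        rintro c x ⟨r, hr⟩
        rcases lt_trichotomy c 0 with hc | rfl | hc
        · obtain ⟨r', hr'⟩ := hneg x r hr
          refine ⟨(-c) * r', ?_⟩
          have := hsmul (-c) (by linarith) _ hr'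
          simpa using this
        · exact ⟨0, by simpa using h0⟩
        · exact ⟨c * r, by simpa using hsmul c hc _ hr⟩ }
  let s : PointedCone ℝ (V × ℝ) :=
    { carrier := {p | ((p.1 : E), -p.2) ∈ T}
      zero_mem' := by simpa using h0
      add_mem' := by
        intro p q hp hq
        have := hadd _ hp _ hq
        simpa [add_comm] using this
      smul_mem' := by
        rintro ⟨c, hc⟩ p hp
        rcases eq_or_lt_of_le hc with rfl | hc'
        · simpa using h0
        · have := hsmul c hc' _ hp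
          simpa using this }
  let f : (V × ℝ) →ₗ.[ℝ] ℝ :=
    ⟨LinearMap.ker (LinearMap.fst ℝ V ℝ), (LinearMap.snd ℝ V ℝ).domRestrict _⟩
  obtain ⟨G, hG, hGs⟩ := riesz_extension s f (by
      rintro ⟨⟨x, t⟩, hx⟩ hxs
      have hx0 : x = 0 := hx
      subst hx0
      have : ((0 : E), -t) ∈ T := hxs
      have := hz _ this
      show 0 ≤ t
      linarith) (by
      rintro ⟨⟨x, r, hr⟩, t⟩
      refine ⟨⟨(0, -r - t), rfl⟩, ?_⟩
      show ((((0 : V) + ⟨x, r, hr⟩ : V) : E), -(-r - t + t)) ∈ T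
      simpa using hr)
  obtain ⟨g, hg⟩ := LinearMap.exists_extend (G.comp (LinearMap.inl ℝ V ℝ))
  refine ⟨g, fun x r hr => ?_⟩
  have h1 : g x = G (⟨x, r, hr⟩, 0) := by
    have := LinearMap.congr_fun hg ⟨x, r, hr⟩
    simpa using this
  have h2 : G (0, -r) = -r := hG ⟨(0, -r), rfl⟩
  have h3 : 0 ≤ G (⟨x, r, hr⟩, -r) := hGs _ (by show (x, - -r) ∈ T; simpa using hr)
  have h4 : G (⟨x, r, hr⟩, -r) = G (⟨x, r, hr⟩, 0) + G (0, -r) := by
    rw [← map_add]; simp
  linarith

/-- Complexification of a real functional on a star module. -/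
theorem complexify {E : Type*} [AddCommGroup E] [Module ℂ E] [StarAddMonoid E] [StarModule ℂ E]
    (g : E →ₗ[ℝ] ℝ) : ∃ f : E →ₗ[ℂ] ℂ, ∀ x, IsSelfAdjoint x → f x = g x := by
  refine ⟨{ toFun := fun x => (g (ℜ x : E) : ℂ) + Complex.I * (g (ℑ x : E) : ℂ)
            map_add' := ?_, map_smul' := ?_ }, ?_⟩
  · intro x y
    simp only [map_add, AddSubgroup.coe_add, Complex.ofReal_add]
    ring
  · intro z x
    simp only [realPart_smul, imaginaryPart_smul, AddSubgroupClass.coe_sub, selfAdjoint.val_smul,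
      map_sub, map_smul, smul_eq_mul, AddSubgroup.coe_add, map_add, RingHom.id_apply]
    apply Complex.ext <;> simp
  · intro x hx
    simp [hx.coe_realPart, hx.imaginaryPart]

/-- A positive functional dominating finitely many column-bounded maps. -/
theorem exists_pos_functional {A : Type*} [CStarAlgebra A] [PartialOrder A] [StarOrderedRing A]
    {H : Type*} [NormedAddCommGroup H] [InnerProductSpace ℂ H]
    (u : A →ₗ[ℂ] H) (c : ℝ) (hc : 0 ≤ c)
    (hu : ∀ (ι : Type) [Fintype ι] (v : ι → A),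
      ∑ i, ‖u (v i)‖ ^ 2 ≤ c * ‖∑ i, star (v i) * v i‖) :
    ∃ f : A →ₗ[ℂ] ℂ, ∀ a, ∃ t : ℝ, f (star a * a) = t ∧ ‖u a‖ ^ 2 ≤ t := by
  let T' : Set (A × ℝ) := {p | ∃ (ι : Type) (_ : Fintype ι) (v : ι → A) (y : A),
    p.1 = ∑ i, star (v i) * v i - y ∧ p.2 ≤ ∑ i, ‖u (v i)‖ ^ 2 - c * ‖y‖}
  obtain ⟨g, hg⟩ := hb_cone T' ⟨Empty, inferInstance, Empty.elim, 0, by simp, by simp⟩ (by
      rintro p ⟨ι, _, v, y, h1, h2⟩ q ⟨ι', _, v', y', h1', h2'⟩
      refine ⟨ι ⊕ ι', inferInstance, Sum.elim v v', y + y', ?_, ?_⟩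
      · simp only [Prod.fst_add, h1, h1', Fintype.sum_sum_type, Sum.elim_inl, Sum.elim_inr]
        abel
      · simp only [Prod.snd_add, Fintype.sum_sum_type, Sum.elim_inl, Sum.elim_inr]
        have := mul_le_mul_of_nonneg_left (norm_add_le y y') hc
        linarith) (by
      rintro t ht p ⟨ι, _, v, y, h1, h2⟩
      refine ⟨ι, inferInstance, fun i => ((√t : ℝ) : ℂ) • v i, t • y, ?_, ?_⟩
      · simp only [Prod.smul_fst, h1, smul_sub, Finset.smul_sum, star_smul, smul_mul_smul_comm]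
        congr 1
        refine Finset.sum_congr rfl fun i _ => ?_
        rw [RCLike.star_def, Complex.conj_ofReal, ← Complex.ofReal_mul, Real.mul_self_sqrt ht.le,
          Complex.coe_smul]
      · simp only [Prod.smul_snd, map_smul, norm_smul, mul_pow, smul_eq_mul, Complex.norm_real,
          Real.norm_eq_abs, sq_abs, Real.sq_sqrt ht.le, abs_of_pos ht, ← Finset.mul_sum]
        nlinarith) (by
      rintro r ⟨ι, _, v, y, h1, h2⟩
      have hy : y = ∑ i, star (v i) * v i := (sub_eq_zero.mp h1.symm).symm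
      have := hu ι v
      rw [← hy] at this
      simp only at h2
      linarith) (by
      rintro x r -
      exact ⟨-(c * ‖x‖), Empty, inferInstance, Empty.elim, x, by simp, by simp⟩)
  obtain ⟨f, hf⟩ := complexify g
  refine ⟨f, fun a => ⟨g (star a * a), hf _ (IsSelfAdjoint.star_mul_self a), ?_⟩⟩
  exact hg _ _ ⟨Unit, inferInstance, fun _ => a, 0, by simp, by simp⟩

end Crest.Agent.H9.KD
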