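import Crest.Agent.H9.ZC6

/-! First moment, part 7: the union bound; `T5`. -/

namespace Crest.Agent.H9.ZD

open Finset Crest.Agent.H6.SC Real Filter

set_option linter.unusedSectionVars false

theorem ev_poly (C : ℝ) (p : ℕ) {ε : ℝ} (hε : 0 < ε) :
    ∀ᶠ g : ℕ in atTop, C * ((g : ℝ) + 1) ^ p ≤ exp (ε * g) := by
  have h1 := (isLittleO_pow_exp_pos_mul_atTop p hε).def (c := 1 / ((|C| + 1) * exp ε))
    (by positivity)
  have h2 : Tendsto (fun g : ℕ => (g : ℝ) + 1) atTop atTop :=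
    tendsto_atTop_add_const_right _ _ tendsto_natCast_atTop_atTop
  filter_upwards [h2.eventually h1] with g hg
  have h3 : (0 : ℝ) ≤ ((g : ℝ) + 1) ^ p := by positivity
  rw [Real.norm_of_nonneg h3, Real.norm_of_nonneg (exp_pos _).le, mul_add, exp_add, mul_one] at hg
  have h4 : C * ((g : ℝ) + 1) ^ p ≤ (|C| + 1) * ((g : ℝ) + 1) ^ p :=
    mul_le_mul_of_nonneg_right (by have := le_abs_self C; linarith) h3
  refine h4.trans ((mul_le_mul_of_nonneg_left hg (by positivity)).trans (le_of_eq ?_))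
  have := exp_pos ε
  field_simp

/-- the finite set of codes -/
def Codes (Y : Type) [Fintype Y] [DecidableEq Y] (K ℓ B : ℕ) :
    Finset (((Fin K → ℕ) × (Fin K → Bool × Bool × Bool × Y)) ×
      Finset ((Fin K × ℕ) × ℕ) × Finset ((Fin K × ℕ) × ℕ)) :=
  (Fintype.piFinset (fun _ => range (ℓ + 1)) ×ˢ univ) ×ˢ
    ((((sides fun _ : Fin K => ℓ + 1) ×ˢ range (K * (ℓ + 2))).powerset.filter fun X => X.card ≤ B) ×ˢ
      (((sides fun _ : Fin K => ℓ + 1) ×ˢ range (K * (ℓ + 2))).powerset.filter fun X => X.card ≤ B))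

theorem card_Codes (Y : Type) [Fintype Y] [DecidableEq Y] (K L B : ℕ) : ∃ C p : ℕ, ∀ g,
    (Codes Y K (2 * L * g) B).card ≤ C * (g + 1) ^ p := by
  refine ⟨(2 * L + 1) ^ K * Fintype.card (Fin K → Bool × Bool × Bool × Y) *
    ((B + 1) * ((K * (2 * L + 2)) ^ 2 + 1) ^ B) ^ 2, K + 2 * B * 2, fun g => ?_⟩
  have h1 := card_small ((sides fun _ : Fin K => 2 * L * g + 1) ×ˢ range (K * (2 * L * g + 2))) B
  have h2 : ((sides fun _ : Fin K => 2 * L * g + 1) ×ˢ range (K * (2 * L * g + 2))).card + 1 ≤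
      ((K * (2 * L + 2)) ^ 2 + 1) * (g + 1) ^ 2 := by
    rw [card_product, card_sides, card_range, sum_const, card_univ, Fintype.card_fin, smul_eq_mul]
    have a1 : K * (2 * L * g + 2) ≤ K * (2 * L + 2) * (g + 1) := by
      rw [mul_assoc K]; exact Nat.mul_le_mul_left _ (by nlinarith)
    have a2 : K * (2 * L * g + 1) ≤ K * (2 * L + 2) * (g + 1) :=
      le_trans (Nat.mul_le_mul_left _ (by omega)) a1
    have a3 := Nat.mul_le_mul a2 a1
    have a4 : 1 ≤ (g + 1) ^ 2 := Nat.one_le_pow _ _ (by omega)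
    calc _ ≤ K * (2 * L + 2) * (g + 1) * (K * (2 * L + 2) * (g + 1)) + (g + 1) ^ 2 := by omega
      _ = _ := by ring
  have h3 := h1.trans (Nat.mul_le_mul_left _ (Nat.pow_le_pow_left h2 B))
  have h4 : (2 * L * g + 1) ^ K ≤ ((2 * L + 1) * (g + 1)) ^ K :=
    Nat.pow_le_pow_left (by nlinarith) K
  unfold Codes
  rw [card_product, card_product, card_product, Fintype.card_piFinset, prod_const, card_range,
    card_univ, card_univ, Fintype.card_fin]
  refine (Nat.mul_le_mul (Nat.mul_le_mul_right _ h4) (Nat.mul_le_mul h3 h3)).trans (le_of_eq ?_)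
  generalize (K * (2 * L + 2)) ^ 2 + 1 = c
  generalize 2 * L + 1 = d
  generalize g + 1 = e
  ring

theorem Piece.code_mem {I V Y : Type} [Fintype I] [DecidableEq I] [Fintype V] [DecidableEq V]
    [Fintype Y] [DecidableEq Y] {E : Finset (V × I × V)} {r : V} {g L K B : ℕ} {η : ℝ}
    (Q : Piece E r g L K B η) (lay : V → Y) (hF : Fold E) (hG : Gir E g) (hg : 10 ≤ g) :
    Q.code lay ∈ Codes Y K (2 * L * g) (2 * K + 2 * B +
      3 * (2 * K * (K * (5 * L + 1)) + 2 * (K * (5 * L + 1)) ^ 2)) := by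
  have hk : ∀ u : Fin K × ℕ, u.2 ≤ 2 * L * g → Piece.key g L u < K * (2 * L * g + 2) := by
    intro u hu
    have := Nat.mul_le_mul_right (2 * L * g + 2) (Nat.succ_le_of_lt u.1.2)
    unfold Piece.key
    rw [Nat.succ_mul] at this
    omega
  have h1 := Q.card_Irr hF hG hg
  refine mem_product.2 ⟨mem_product.2 ⟨Fintype.mem_piFinset.2 fun k => mem_range.2
    (Nat.lt_succ_of_le (Q.len_le k)), mem_univ _⟩, mem_product.2 ⟨mem_filter.2 ⟨mem_powerset.2
      fun y hy => ?_, Q.card_pcode_a.trans (by omega)⟩, mem_filter.2 ⟨mem_powerset.2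
      fun y hy => ?_, (Q.card_pcode_ρ hG hF hg).trans (by omega)⟩⟩⟩
  · obtain ⟨t, ht, rfl⟩ := mem_image.1 hy
    have ht := mem_sides.1 (mem_filter.1 ht).1
    have a1 := Q.len_le t.1
    have a2 := Q.a_mem t ht
    have a3 := Q.len_le (Q.a t).1
    exact mem_product.2 ⟨mem_sides.2 (by simp only; omega), mem_range.2 (hk _ (by omega))⟩
  · obtain ⟨t, ht, rfl⟩ := mem_image.1 hy
    have ht' := mem_sides.1 (mem_filter.1 ht).1
    have a1 := Q.len_le t.1
    exact mem_product.2 ⟨mem_sides.2 (by simp only; omega), mem_range.2 (hk _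
      (Q.Cn_le (Q.ρ_spec (mem_filter.1 ht).1).1))⟩

theorem t5 : T5 := by
  intro I Y _ _ _ _ s w c₀ Adm hs hAdm
  classical
  obtain ⟨NA, hNA, hNA1, hNA2⟩ : ∃ NA : ℕ, Adm.card ≤ NA ∧ 1 ≤ NA ∧ NA < (s + 1) ^ 2 :=
    ⟨max 1 Adm.card, le_max_right _ _, le_max_left _ _, max_lt (by nlinarith) hAdm⟩
  have hNA1' : (1 : ℝ) ≤ NA := by exact_mod_cast hNA1
  have l2 := log_nonneg hNA1'
  have l5 : 0 ≤ log ((s : ℝ) + 1) := log_nonneg (by have : (0 : ℝ) ≤ s := Nat.cast_nonneg s; linarith)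
  obtain ⟨γ, hγ, hγ'⟩ : ∃ γ : ℝ, 0 < γ ∧ log NA = 2 * log (s + 1) - γ := by
    refine ⟨2 * log (s + 1) - log NA, ?_, by ring⟩
    have : log (NA : ℝ) < log ((s + 1) ^ 2) :=
      log_lt_log (by linarith) (by exact_mod_cast hNA2)
    rw [log_pow] at this
    push_cast at this
    linarith
  set C₀ : ℝ := 1 + log (w + 1) with hC₀
  have hC₀pos : 0 < C₀ := by
    have : 0 ≤ log ((w : ℝ) + 1) :=
      log_nonneg (by have : (0 : ℝ) ≤ w := Nat.cast_nonneg w; linarith)
    linarith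
  obtain ⟨L, hL⟩ := exists_nat_ge (40 * C₀ / γ + 1)
  have hL0 : 40 * C₀ / γ > 0 := by positivity
  have hL1 : 1 ≤ L := by exact_mod_cast (by linarith : (1 : ℝ) ≤ L)
  obtain ⟨A, hA⟩ := exists_nat_ge (40 / γ + 2)
  have hA0 : 40 / γ > 0 := by positivity
  have hA2 : 2 ≤ A := by exact_mod_cast (by linarith : (2 : ℝ) ≤ A)
  refine ⟨L, γ / (10 * (log NA + 1)), hL1, by positivity, fun K B => ?_⟩
  set S := K * (5 * L + 1) with hS
  set Ir := 2 * K * S + 2 * S ^ 2 with hIr
  set nI := Fintype.card I + 1 with hnI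
  obtain ⟨C, p, hC⟩ := card_Codes Y K L (2 * K + 2 * B + 3 * Ir)
  set D : ℝ := (S + 1 : ℕ) * (2 * (Ir + B) : ℕ) * (log nI + log (s + 1)) + log (s + 1) with hD
  have hJ : (0 : ℝ) < (S + 1 : ℕ) := by positivity
  obtain ⟨g, ⟨hg1, hg2⟩, hg⟩ := (((ev_poly (exp (D / (S + 1 : ℕ)) * (2 * (C + 1))) p
    (ε := 7 * γ / (40 * (S + 1 : ℕ))) (by positivity)).and
      (ev_poly (((s + 1) * (A + 1) * (c₀ + 2 + 2 * K * L) : ℕ)) 1 (ε := 1) one_pos)).and
        (eventually_ge_atTop 10)).exists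
  set X := c₀ + 2 * (w + 1) ^ g + K * (2 * L * g) with hX
  refine ⟨g, A * X, hg, fun n V _ _ link lay side r hn1 hn2 hside hr hw hbal hlo hhi h2 hadm => ?_⟩
  have hw1 : 1 ≤ (w + 1) ^ g := Nat.one_le_pow _ _ (by omega)
  have hX1 : 1 ≤ X := by omega
  have hR1 : A * X ≤ (s + 1) * n := hn1.trans (Nat.le_mul_of_pos_left _ (by omega))
  have hAX : 2 * X ≤ A * X := Nat.mul_le_mul_right _ hA2
  obtain ⟨m, hm⟩ : ∃ m, (s + 1) * n = m + X := ⟨(s + 1) * n - X, by omega⟩
  have hm1 : 1 ≤ m := by omega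
  have hn : 1 ≤ n := by omega
  have hlo' : ∀ y d, 2 * (w + 1) ^ g + K * (2 * L * g) + m ≤ (slot link lay y d).card := by
    intro y d; have := hlo y d; omega
  -- logarithmic estimates
  have hm' : (0 : ℝ) < m := by exact_mod_cast hm1
  have hRm : log (((s : ℝ) + 1) * n) - log m ≤ γ / 40 := by
    have e1 : ((s : ℝ) + 1) * n = m + X := by exact_mod_cast hm
    have e2 : (A : ℝ) * X ≤ m + X := by exact_mod_cast hm ▸ hR1
    have e3 : (0 : ℝ) ≤ X := Nat.cast_nonneg X
    rw [e1, ← log_div (by positivity) hm'.ne']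
    refine (log_le_sub_one_of_pos (by positivity)).trans ?_
    rw [add_div, div_self hm'.ne', add_sub_cancel_left, div_le_div_iff₀ hm' (by norm_num)]
    have e4 : 40 / γ * X ≤ m := by nlinarith
    rw [div_mul_eq_mul_div, div_le_iff₀ hγ] at e4
    linarith
  have hRg : log (((s : ℝ) + 1) * n) ≤ C₀ * g := by
    have e1 : (s + 1) * n ≤ (s + 1) * (A + 1) * (c₀ + 2 + 2 * K * L) * (g + 1) * (w + 1) ^ g := by
      have a1 : n ≤ (A + 1) * X := by rw [add_mul, one_mul]; omega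
      have a2 : X ≤ (c₀ + 2 + 2 * K * L) * (g + 1) * (w + 1) ^ g := by
        have b1 : c₀ + 2 + K * (2 * L * g) ≤ (c₀ + 2 + 2 * K * L) * (g + 1) := by nlinarith
        refine le_trans ?_ (Nat.mul_le_mul_right _ b1)
        have b2 := Nat.le_mul_of_pos_right c₀ hw1
        have b3 := Nat.le_mul_of_pos_right (K * (2 * L * g)) hw1
        rw [add_mul, add_mul]
        omega
      calc (s + 1) * n ≤ (s + 1) * ((A + 1) * ((c₀ + 2 + 2 * K * L) * (g + 1) * (w + 1) ^ g)) :=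
            Nat.mul_le_mul_left _ (a1.trans (Nat.mul_le_mul_left _ a2))
        _ = _ := by ring
    have e2 : ((s : ℝ) + 1) * n ≤ exp (1 * g) * (w + 1) ^ g := by
      refine le_trans ?_ (mul_le_mul_of_nonneg_right hg2 (by positivity))
      rw [pow_one]
      exact_mod_cast e1
    have hn' : (0 : ℝ) < n := by exact_mod_cast hn
    refine (log_le_log (by positivity) e2).trans (le_of_eq ?_)
    rw [log_mul (exp_pos _).ne' (by positivity), log_exp, log_pow, hC₀]; ring
  set Cd := Codes Y K (2 * L * g) (2 * K + 2 * B + 3 * Ir) with hCd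
  set δ : ℝ := 1 / (2 * (Cd.card + 1)) with hδ
  have hδ0 : 0 < δ := by positivity
  have hδ1 : D - 7 / 40 * γ * g ≤ (S + 1 : ℕ) * log δ := by
    have e1 : (2 : ℝ) * (Cd.card + 1) ≤ 2 * (C + 1) * (g + 1) ^ p := by
      have a1 : (Cd.card : ℝ) ≤ C * (g + 1) ^ p := by exact_mod_cast hC g
      have a2 : (1 : ℝ) ≤ (g + 1) ^ p := one_le_pow₀ (by have : (0 : ℝ) ≤ g := Nat.cast_nonneg g; linarith)
      nlinarith
    have e2 : exp (D / (S + 1 : ℕ)) * (2 * (Cd.card + 1)) ≤ exp (7 * γ / (40 * (S + 1 : ℕ)) * g) := by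
      refine le_trans ?_ hg1
      rw [mul_assoc (exp _)]
      exact mul_le_mul_of_nonneg_left e1 (exp_pos _).le
    have e3 := log_le_log (by positivity) e2
    rw [log_mul (exp_pos _).ne' (by positivity), log_exp, log_exp] at e3
    rw [hδ, one_div, log_inv]
    have e4 := mul_le_mul_of_nonneg_left e3 hJ.le
    have e5 : ((S + 1 : ℕ) : ℝ) * (D / (S + 1 : ℕ)) = D := by field_simp
    have e6 : ((S + 1 : ℕ) : ℝ) * (7 * γ / (40 * (S + 1 : ℕ)) * g) = 7 / 40 * γ * g := by field_simp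
    rw [mul_add, e5, e6] at e4
    linarith
  by_contra hcon
  push Not at hcon
  obtain ⟨E₀, hE₀⟩ := exists_full (g := g) hw hbal (fun y d => by have := hlo' y d; omega)
  have hpos : (0 : ℝ) < (Om link lay g).card := by
    exact_mod_cast card_pos.2 ⟨E₀, mem_Om.2 hE₀⟩
  have hsub : Om link lay g ⊆ Cd.biUnion fun c => (Om link lay g).filter fun E =>
      ∃ Q : Piece E r g L K B (γ / (10 * (log NA + 1))), Q.code lay = c := by
    intro E hE
    obtain ⟨k1, k2⟩ := mem_Om.1 hE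
    obtain ⟨Q⟩ := hcon E k1 k2
    exact mem_biUnion.2 ⟨_, Q.code_mem lay k1.fold k1.gir hg, mem_filter.2 ⟨hE, Q, rfl⟩⟩
  have hone : ∀ c ∈ Cd, (((Om link lay g).filter fun E =>
      ∃ Q : Piece E r g L K B (γ / (10 * (log NA + 1))), Q.code lay = c).card : ℝ) ≤
      δ * (Om link lay g).card := by
    intro c _
    rcases ((Om link lay g).filter fun E =>
      ∃ Q : Piece E r g L K B (γ / (10 * (log NA + 1))), Q.code lay = c).eq_empty_or_nonempty
      with h0 | ⟨E, hE⟩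
    · rw [h0]; simp only [card_empty, Nat.cast_zero]; positivity
    obtain ⟨hE1, Q, rfl⟩ := mem_filter.1 hE
    have k1 := (mem_Om.1 hE1).1
    have hT : (Q.ab lay).T.card = ∑ k, Q.len k := card_sides _
    have hIrr : Q.Irr.card ≤ Ir := Q.card_Irr k1.fold k1.gir hg
    refine le_trans ?_ (Ab.pattern_bound (r := r) (Q.wf k1 hg hside) (by omega) hw hlo' hhi h2 hadm
      hNA hNA1 (Nat.le_succ _) (by omega) hm1 ?_ (Ab.exists_layer (J := S + 1) (B := 2 * (Ir + B))
        (pa := Q.pa) (Q.wf k1 hg hside) (by omega) hNA1 hn hm1 (by omega)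
        (fun t ht => (Q.mu_le k1 hg ht).trans (Nat.le_succ _)) (Q.card_Z.trans (by omega))
        (Q.card_Z'.trans (by omega)) (Q.card_corners k1 hside hr) (Q.card_T_le k1 hg) Q.card_rt
        hδ0 ?_))
    · refine Nat.cast_le.2 (card_le_card fun E' hE' => ?_)
      obtain ⟨hE', Q', e⟩ := mem_filter.1 hE'
      exact mem_filter.2 ⟨hE', _, _, Q.real_of_code Q' k1 (mem_Om.1 hE').1 hside e.symm⟩
    · rw [hT]
      exact (sum_le_card_nsmul _ _ _ fun k _ => Q.len_le k).trans (by simp)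
    · refine le_trans ?_ hδ1
      have hb := Q.bdry
      have hM : (g : ℝ) ≤ (Q.ab lay).T.card := by rw [hT]; exact_mod_cast Q.big
      have hpa : (Q.pa : ℝ) * (L * g) ≤ (Q.ab lay).T.card := by rw [hT]; exact_mod_cast Q.pa_le
      rw [← Nat.cast_sum, ← hT] at hb
      change (((Q.ab lay).T.filter fun t => (Q.ab lay).a t = t).card : ℝ) ≤ _ at hb
      set M : ℝ := ((Q.ab lay).T.card : ℝ)
      set b : ℝ := (((Q.ab lay).T.filter fun t => (Q.ab lay).a t = t).card : ℝ)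
      have hM0 : 0 ≤ M := Nat.cast_nonneg _
      have f1 : b * log NA ≤ γ * M / 10 := by
        refine (mul_le_mul_of_nonneg_right hb l2).trans ?_
        rw [div_mul_eq_mul_div, div_mul_eq_mul_div, div_le_div_iff₀ (by positivity) (by norm_num)]
        have : 0 ≤ γ * M := by positivity
        nlinarith
      have f2 : Q.pa * log (((s : ℝ) + 1) * n) ≤ γ * M / 40 := by
        have a0 : (0 : ℝ) ≤ Q.pa := Nat.cast_nonneg _
        have a1 : 40 * C₀ ≤ γ * L := by
          have : 40 * C₀ / γ ≤ L := by linarith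
          rwa [div_le_iff₀ hγ, mul_comm (L : ℝ)] at this
        have a2 : (0 : ℝ) ≤ g := Nat.cast_nonneg _
        have a3 := mul_le_mul_of_nonneg_left hRg a0
        have a4 := mul_le_mul_of_nonneg_left hpa hγ.le
        have a5 := mul_le_mul_of_nonneg_right a1 (mul_nonneg a0 a2)
        nlinarith
      have f3 := mul_le_mul_of_nonneg_left hRm hM0
      have f4 := mul_le_mul_of_nonneg_left hM hγ.le
      have f5 : M * log NA = M * (2 * log (s + 1) - γ) := by rw [hγ']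
      rw [hD]
      nlinarith
  have h1 : ((Om link lay g).card : ℝ) ≤ Cd.card * (δ * (Om link lay g).card) := by
    refine le_trans (Nat.cast_le.2 ((card_le_card hsub).trans card_biUnion_le)) ?_
    rw [Nat.cast_sum]
    exact (sum_le_card_nsmul _ _ _ hone).trans (by rw [nsmul_eq_mul])
  have h3 : (Cd.card : ℝ) * δ < 1 := by
    rw [hδ, mul_one_div, div_lt_one (by positivity)]
    have : (0 : ℝ) ≤ Cd.card := Nat.cast_nonneg _
    linarith
  nlinarith

end Crest.Agent.H9.ZD
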