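import Mathlib

set_option autoImplicit false

namespace Crest.Agent.H9.Cz

open Filter Topology

/-- Division of a holomorphic function by a product of linear factors. -/
lemma div_multiset {U : Set ℂ} (hU : IsOpen U) (s : Multiset ℂ) :
    ∀ h : ℂ → ℂ, DifferentiableOn ℂ h U →
      (∀ μ ∈ s, μ ∈ U ∧ ((s.count μ : ℕ) : ℕ∞) ≤ analyticOrderAt h μ) →
      ∃ e : ℂ → ℂ, DifferentiableOn ℂ e U ∧
        ∀ z, h z = (s.map (fun μ => z - μ)).prod * e z := by
  classical
  induction s using Multiset.induction_on with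
  | empty => intro h hh _; exact ⟨h, hh, fun z => by simp⟩
  | cons a t ih =>
    intro h hh hs
    have haU : a ∈ U := (hs a (Multiset.mem_cons_self a t)).1
    have ha0 : h a = 0 := by
      apply apply_eq_zero_of_analyticOrderAt_ne_zero
      intro h0
      have := (hs a (Multiset.mem_cons_self a t)).2
      rw [h0] at this
      simp at this
    have hd : DifferentiableOn ℂ (dslope h a) U :=
      (Complex.differentiableOn_dslope (hU.mem_nhds haU)).2 hh
    have hfac : h = (fun z => z - a) * dslope h a := by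
      funext z
      have := sub_smul_dslope h a z
      simp only [smul_eq_mul, ha0, sub_zero] at this
      simp [this]
    obtain ⟨e, he, hE⟩ := ih (dslope h a) hd (by
      intro μ hμ
      have hμ' := hs μ (Multiset.mem_cons_of_mem hμ)
      refine ⟨hμ'.1, ?_⟩
      have h1 : AnalyticAt ℂ (fun z : ℂ => z - a) μ := by fun_prop
      have h2 : AnalyticAt ℂ (dslope h a) μ := hd.analyticAt (hU.mem_nhds hμ'.1)
      have hmul := analyticOrderAt_mul h1 h2
      rw [← hfac] at hmul
      have h3 := hμ'.2
      rw [hmul] at h3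
      by_cases hμa : μ = a
      · subst hμa
        have h4 : analyticOrderAt (fun z : ℂ => z - μ) μ = 1 := by
          have : analyticOrderAt (fun z : ℂ => z - μ) μ = (1 : ℕ) :=
            h1.analyticOrderAt_eq_natCast.2 ⟨fun _ => 1, analyticAt_const, one_ne_zero, by simp⟩
          simpa using this
        rw [h4, Multiset.count_cons_self, Nat.cast_add, Nat.cast_one, add_comm] at h3
        exact (ENat.add_le_add_iff_left (by simp)).1 h3
      · have h4 : analyticOrderAt (fun z : ℂ => z - a) μ = 0 :=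
          h1.analyticOrderAt_eq_zero.2 (sub_ne_zero.2 hμa)
        rw [h4, zero_add, Multiset.count_cons_of_ne hμa] at h3
        exact h3)
    refine ⟨e, he, fun z => ?_⟩
    have := congrFun hfac z
    simp only [Pi.mul_apply] at this
    rw [this, hE z, Multiset.map_cons, Multiset.prod_cons, mul_assoc]

/-- A smaller convex open set on which `f` is uniformly inside the disc. -/
lemma exists_shrink {Ω K : Set ℂ} (hΩ₁ : IsOpen Ω) (hΩ₂ : Bornology.IsBounded Ω)
    (hΩ₃ : Convex ℝ Ω) (hK : IsCompact K) (hKΩ : K ⊆ Ω) (f : ℂ → ℂ) (hf : ContinuousOn f Ω)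
    (hf1 : ∀ z ∈ Ω, ‖f z‖ < 1) :
    ∃ V : Set ℂ, IsOpen V ∧ Convex ℝ V ∧ K ⊆ V ∧ V ⊆ Ω ∧
      ∃ ρ : ℝ, 0 ≤ ρ ∧ ρ < 1 ∧ ∀ z ∈ V, ‖f z‖ ≤ ρ := by
  obtain ⟨δ, hδ, hδK⟩ := hK.exists_thickening_subset_open hΩ₁ hKΩ
  set C : Set ℂ := {z | Metric.ball z (δ / 2) ⊆ Ω} with hC
  have hCΩ : C ⊆ Ω := fun z hz => hz (Metric.mem_ball_self (by positivity))
  have hCc : IsClosed C := by
    have : C = (Metric.thickening (δ / 2) Ωᶜ)ᶜ := by
      ext z
      simp only [hC, Set.mem_setOf_eq, Set.mem_compl_iff, Metric.mem_thickening_iff, not_exists,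
        not_and]
      constructor
      · intro h w hw hd
        exact hw (h (by rwa [Metric.mem_ball, dist_comm]))
      · intro h w hw
        by_contra hw'
        exact h w hw' (by rwa [Metric.mem_ball, dist_comm] at hw)
    rw [this]
    exact Metric.isOpen_thickening.isClosed_compl
  have hCk : IsCompact C := Metric.isCompact_of_isClosed_isBounded hCc (hΩ₂.subset hCΩ)
  have hCv : Convex ℝ C := by
    intro x hx y hy a b ha hb hab w hw
    have h1 : x + (w - (a • x + b • y)) ∈ Ω := hx (by
      rw [Metric.mem_ball, dist_eq_norm] at hw ⊢; simpa using hw)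
    have h2 : y + (w - (a • x + b • y)) ∈ Ω := hy (by
      rw [Metric.mem_ball, dist_eq_norm] at hw ⊢; simpa using hw)
    have := hΩ₃ h1 h2 ha hb hab
    have e : a • (x + (w - (a • x + b • y))) + b • (y + (w - (a • x + b • y))) = w := by
      have : a • (x + (w - (a • x + b • y))) + b • (y + (w - (a • x + b • y)))
          = a • x + b • y + (a + b) • (w - (a • x + b • y)) := by
        rw [smul_add, smul_add, add_smul]; abel
      rw [this, hab, one_smul]; abel
    rwa [e] at this
  have hKC : K ⊆ interior C := by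
    intro z hz
    rw [mem_interior_iff_mem_nhds]
    refine mem_of_superset (Metric.ball_mem_nhds z (half_pos hδ)) ?_
    intro y hy w hw
    apply hδK
    rw [Metric.mem_thickening_iff]
    refine ⟨z, hz, ?_⟩
    rw [Metric.mem_ball] at hy hw
    linarith [dist_triangle w y z]
  refine ⟨interior C, isOpen_interior, hCv.interior, hKC, interior_subset.trans hCΩ, ?_⟩
  rcases C.eq_empty_or_nonempty with h | h
  · exact ⟨0, le_rfl, one_pos, by simp [h]⟩
  · obtain ⟨z₀, hz₀, hmax⟩ := hCk.exists_isMaxOn h ((hf.mono hCΩ).norm)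
    exact ⟨‖f z₀‖, norm_nonneg _, hf1 z₀ (hCΩ hz₀), fun z hz => hmax (interior_subset hz)⟩

end Crest.Agent.H9.Cz
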