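import Mathlib

set_option autoImplicit false

namespace Crest.Agent.H9.Cz

open Filter Topology Finset Matrix

/-- Two linear maps with the same norms differ by an isometry. -/
lemma exists_isometry {F E : Type*} [AddCommGroup F] [Module ℂ F] [NormedAddCommGroup E]
    [InnerProductSpace ℂ E] [FiniteDimensional ℂ E] (LP LQ : F →ₗ[ℂ] E)
    (h : ∀ v, ‖LP v‖ = ‖LQ v‖) : ∃ V : E →ₗᵢ[ℂ] E, ∀ v, V (LQ v) = LP v := by
  have hker : LinearMap.ker LQ ≤ LinearMap.ker LP := by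
    intro v hv
    rw [LinearMap.mem_ker] at hv ⊢
    rw [← norm_eq_zero, h, hv, norm_zero]
  let L₀ : LinearMap.range LQ →ₗ[ℂ] E :=
    ((LinearMap.ker LQ).liftQ LP hker).comp (LQ.quotKerEquivRange.symm : _ →ₗ[ℂ] _)
  have hL₀ : ∀ v, L₀ ⟨LQ v, LinearMap.mem_range_self LQ v⟩ = LP v := by
    intro v
    simp only [L₀, LinearMap.comp_apply, LinearEquiv.coe_coe]
    rw [LinearMap.quotKerEquivRange_symm_apply_image]
    simp
  let L : LinearMap.range LQ →ₗᵢ[ℂ] E :=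
    { toLinearMap := L₀
      norm_map' := by
        rintro ⟨_, v, rfl⟩
        rw [hL₀, h]; rfl }
  refine ⟨L.extend, fun v => ?_⟩
  have := L.extend_apply ⟨LQ v, LinearMap.mem_range_self LQ v⟩
  rw [this]
  exact hL₀ v

/-- Bound for the truncated transfer function of a contractive colligation. -/
lemma transfer_bound {E : Type*} [NormedAddCommGroup E] [NormedSpace ℂ E]
    (a b c d : E →L[ℂ] E)
    (h : ∀ s v, ‖a s + b v‖ ^ 2 + ‖c s + d v‖ ^ 2 ≤ ‖s‖ ^ 2 + ‖v‖ ^ 2)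
    (ρ : ℝ) (hρ1 : ρ < 1) (w : ℂ) (hw : ‖w‖ ≤ ρ) (N : ℕ) :
    ‖d + ∑ k ∈ range N, w ^ (k + 1) • (c * a ^ k * b)‖ ≤
      Real.sqrt (1 + (ρ ^ N) ^ 2 / (1 - ρ ^ 2)) := by
  have hρ0 : 0 ≤ ρ := (norm_nonneg w).trans hw
  have hρ2 : 0 < 1 - ρ ^ 2 := by nlinarith
  have ha : ∀ s, ‖a s‖ ≤ ‖s‖ := by
    intro s
    have := h s 0
    simp only [map_zero, add_zero, norm_zero] at this
    exact abs_le_abs (by nlinarith [sq_nonneg ‖c s‖, norm_nonneg s, norm_nonneg (a s)])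
      (by linarith [norm_nonneg s, norm_nonneg (a s)]) |>.trans' (le_abs_self _) |>.trans
      (le_of_eq (abs_of_nonneg (norm_nonneg s)))
  have hb : ∀ v, ‖b v‖ ≤ ‖v‖ := by
    intro v
    have := h 0 v
    simp only [map_zero, zero_add, norm_zero] at this
    nlinarith [sq_nonneg ‖d v‖, norm_nonneg v, norm_nonneg (b v)]
  have hak : ∀ k : ℕ, ∀ s, ‖(a ^ k) s‖ ≤ ‖s‖ := by
    intro k
    induction k with
    | zero => intro s; simp
    | succ k ih => intro s; rw [pow_succ']; exact (ha _).trans (ih s)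
  refine ContinuousLinearMap.opNorm_le_bound _ (Real.sqrt_nonneg _) fun v => ?_
  set s : E := ∑ k ∈ range N, w ^ k • (a ^ k) (b v) with hs
  have h1 : a (w • s) + b v = s + w ^ N • (a ^ N) (b v) := by
    rw [hs, ← Finset.sum_range_succ (fun k => w ^ k • (a ^ k) (b v)), Finset.sum_range_succ']
    simp only [pow_zero, one_smul, one_apply_eq_self, map_smul, map_sum, Finset.smul_sum]
    congr 1
    refine Finset.sum_congr rfl fun k _ => ?_
    rw [smul_smul, pow_succ' a, pow_succ' w]; rfl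
  have h2 : (d + ∑ k ∈ range N, w ^ (k + 1) • (c * a ^ k * b)) v = c (w • s) + d v := by
    rw [hs, add_comm (c _)]
    simp only [_root_.add_apply, _root_.sum_apply,
      _root_.smul_apply, map_smul, map_sum, Finset.smul_sum]
    congr 1
    refine Finset.sum_congr rfl fun k _ => ?_
    rw [smul_smul, pow_succ' w]; rfl
  have h3 := h (w • s) v
  rw [h1, ← h2] at h3
  set u := ‖s + w ^ N • (a ^ N) (b v)‖ with hu
  set t := ρ ^ N * ‖v‖ with ht
  have h4 : ‖w ^ N • (a ^ N) (b v)‖ ≤ t := by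
    rw [norm_smul, norm_pow]
    exact mul_le_mul (pow_le_pow_left₀ (norm_nonneg _) hw N) ((hak N _).trans (hb v))
      (norm_nonneg _) (pow_nonneg hρ0 N)
  have h5 : ‖s‖ ≤ u + t := by
    have : s = (s + w ^ N • (a ^ N) (b v)) - w ^ N • (a ^ N) (b v) := by abel
    calc ‖s‖ = ‖(s + w ^ N • (a ^ N) (b v)) - w ^ N • (a ^ N) (b v)‖ := by rw [← this]
      _ ≤ u + ‖w ^ N • (a ^ N) (b v)‖ := norm_sub_le _ _
      _ ≤ u + t := by linarith
  have h6 : ‖w • s‖ ≤ ρ * (u + t) := by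
    rw [norm_smul]
    exact mul_le_mul hw h5 (norm_nonneg _) hρ0
  have hu0 : 0 ≤ u := norm_nonneg _
  have ht0 : 0 ≤ t := by positivity
  have h7 : ‖w • s‖ ^ 2 ≤ (ρ * (u + t)) ^ 2 := pow_le_pow_left₀ (norm_nonneg _) h6 2
  have h8 : (ρ * (u + t)) ^ 2 - u ^ 2 ≤ t ^ 2 / (1 - ρ ^ 2) := by
    rw [le_div_iff₀ hρ2]
    nlinarith [sq_nonneg ((1 - ρ ^ 2) * u - ρ ^ 2 * t), mul_nonneg hρ2.le (sq_nonneg t)]
  have h9 : (Real.sqrt (1 + (ρ ^ N) ^ 2 / (1 - ρ ^ 2)) * ‖v‖) ^ 2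
      = ‖v‖ ^ 2 + t ^ 2 / (1 - ρ ^ 2) := by
    rw [mul_pow, Real.sq_sqrt (by positivity), ht]; ring
  refine (pow_le_pow_iff_left₀ (norm_nonneg _) (by positivity) two_ne_zero).1 ?_
  rw [h9]; linarith

end Crest.Agent.H9.Cz
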