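import Mathlib
import Crest.Agent.H9.Cz2

set_option autoImplicit false

namespace Crest.Agent.H9.Cz

open Filter Topology Finset Matrix

variable {n m : Type} [Fintype n] [DecidableEq n] [Fintype m] [DecidableEq m]

/-- Frobenius norm. -/
noncomputable def fn (X : Matrix n m ℂ) : ℝ :=
  ‖(WithLp.toLp 2 (fun ij : n × m => X ij.1 ij.2) : EuclideanSpace ℂ (n × m))‖

omit [DecidableEq n] [DecidableEq m] in
lemma fn_nonneg (X : Matrix n m ℂ) : 0 ≤ fn X := norm_nonneg _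

omit [DecidableEq n] [DecidableEq m] in
lemma fn_sq (X : Matrix n m ℂ) : fn X ^ 2 = ∑ a, ∑ c, ‖X a c‖ ^ 2 := by
  rw [fn, EuclideanSpace.norm_sq_eq, Fintype.sum_prod_type]

omit [DecidableEq n] [DecidableEq m] in
lemma fn_add_le (X Y : Matrix n m ℂ) : fn (X + Y) ≤ fn X + fn Y := by
  unfold fn
  refine le_trans (le_of_eq ?_) (norm_add_le _ _)
  congr 1

omit [DecidableEq n] [DecidableEq m] in
lemma trace_mul_conjTranspose (X : Matrix n m ℂ) : (X * Xᴴ).trace = ((fn X ^ 2 : ℝ) : ℂ) := by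
  rw [fn_sq]
  simp only [Matrix.trace, Matrix.diag_apply, Matrix.mul_apply, Matrix.conjTranspose_apply]
  push_cast
  refine Finset.sum_congr rfl fun a _ => Finset.sum_congr rfl fun c _ => ?_
  rw [RCLike.star_def, Complex.mul_conj, Complex.normSq_eq_norm_sq]; push_cast; rfl

omit [DecidableEq m] in
lemma norm_eq_of_gram (M N : Matrix m n ℂ) (h : Mᴴ * M = Nᴴ * N) (v : EuclideanSpace ℂ n) :
    ‖Matrix.toEuclideanLin M v‖ = ‖Matrix.toEuclideanLin N v‖ := by
  have key : ∀ M : Matrix m n ℂ, inner ℂ (Matrix.toEuclideanLin M v) (Matrix.toEuclideanLin M v)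
      = ((Mᴴ * M) *ᵥ v.ofLp) ⬝ᵥ star v.ofLp := by
    intro M
    rw [EuclideanSpace.inner_eq_star_dotProduct]
    simp only [Matrix.toLpLin_apply, Matrix.star_mulVec]
    rw [dotProduct_comm, ← Matrix.dotProduct_mulVec, Matrix.mulVec_mulVec, dotProduct_comm]
  have h1 := key M
  rw [h, ← key N, inner_self_eq_norm_sq_to_K, inner_self_eq_norm_sq_to_K] at h1
  have h2 : ‖Matrix.toEuclideanLin M v‖ ^ 2 = ‖Matrix.toEuclideanLin N v‖ ^ 2 := by
    exact_mod_cast h1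
  exact (pow_left_inj₀ (norm_nonneg _) (norm_nonneg _) two_ne_zero).1 h2

/-- The lurking isometry. -/
lemma exists_colligation (W x y S : Matrix n n ℂ)
    (h : W * Wᴴ + x * xᴴ = S * Sᴴ + y * yᴴ) :
    ∃ α β γ δ : Matrix n n ℂ, W = S * αᵀ + y * βᵀ ∧ x = S * γᵀ + y * δᵀ ∧
      ∀ s v : EuclideanSpace ℂ n,
        ‖Matrix.toEuclideanCLM (n := n) (𝕜 := ℂ) α s + Matrix.toEuclideanCLM (n := n) (𝕜 := ℂ) β v‖ ^ 2
        + ‖Matrix.toEuclideanCLM (n := n) (𝕜 := ℂ) γ s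
            + Matrix.toEuclideanCLM (n := n) (𝕜 := ℂ) δ v‖ ^ 2 ≤ ‖s‖ ^ 2 + ‖v‖ ^ 2 := by
  set P : Matrix (n ⊕ n) n ℂ := Matrix.fromRows Wᵀ xᵀ with hP
  set Q : Matrix (n ⊕ n) n ℂ := Matrix.fromRows Sᵀ yᵀ with hQ
  have hg : Pᴴ * P = Qᴴ * Q := by
    have e : ∀ X : Matrix n n ℂ, Xᵀᴴ * Xᵀ = (X * Xᴴ)ᵀ := by
      intro X; rw [Matrix.transpose_mul]; rfl
    rw [hP, hQ, Matrix.conjTranspose_fromRows_eq_fromCols_conjTranspose,
      Matrix.conjTranspose_fromRows_eq_fromCols_conjTranspose, Matrix.fromCols_mul_fromRows,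
      Matrix.fromCols_mul_fromRows, e, e, e, e, ← Matrix.transpose_add, ← Matrix.transpose_add, h]
  obtain ⟨V, hV⟩ := exists_isometry (Matrix.toEuclideanLin P) (Matrix.toEuclideanLin Q)
    (norm_eq_of_gram P Q hg)
  set Vm : Matrix (n ⊕ n) (n ⊕ n) ℂ := Matrix.toEuclideanLin.symm V.toLinearMap with hVm
  have hVm' : ∀ z, Matrix.toEuclideanLin Vm z = V z := by
    intro z; rw [hVm, LinearEquiv.apply_symm_apply]; rfl
  have hmul : Vm * Q = P := by
    apply Matrix.toEuclideanLin.injective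
    ext1 v
    rw [← hV v, ← hVm']
    simp only [Matrix.toLpLin_apply, Matrix.mulVec_mulVec]
  rw [← Matrix.fromBlocks_toBlocks Vm, hQ, hP, Matrix.fromBlocks_mul_fromRows,
    Matrix.fromRows_ext_iff] at hmul
  refine ⟨Vm.toBlocks₁₁, Vm.toBlocks₁₂, Vm.toBlocks₂₁, Vm.toBlocks₂₂, ?_, ?_, ?_⟩
  · have := congrArg Matrix.transpose hmul.1
    simpa [Matrix.transpose_add, Matrix.transpose_mul] using this.symm
  · have := congrArg Matrix.transpose hmul.2
    simpa [Matrix.transpose_add, Matrix.transpose_mul] using this.symm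
  · intro s v
    have hsum : ∀ s v : EuclideanSpace ℂ n,
        ‖(WithLp.toLp 2 (Sum.elim s.ofLp v.ofLp) : EuclideanSpace ℂ (n ⊕ n))‖ ^ 2
          = ‖s‖ ^ 2 + ‖v‖ ^ 2 := by
      intro s v
      simp only [EuclideanSpace.norm_sq_eq, Fintype.sum_sum_type, Sum.elim_inl, Sum.elim_inr]
    rw [← hsum, ← hsum s v, ← V.norm_map (WithLp.toLp 2 (Sum.elim s.ofLp v.ofLp)), ← hVm']
    apply le_of_eq
    congr 2
    conv_rhs => rw [← Matrix.fromBlocks_toBlocks Vm]
    simp only [Matrix.toLpLin_apply, Matrix.fromBlocks_mulVec]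
    congr 1

/-- Complete polynomial boundedness (constant 2) relative to the disc of radius `ρ`. -/
def CB (T : Matrix n n ℂ) (ρ : ℝ) : Prop :=
  ∀ (N : ℕ) (B : ℕ → Matrix n n ℂ) (M : ℝ),
    (∀ w : ℂ, ‖w‖ ≤ ρ →
      ‖Matrix.toEuclideanCLM (n := n) (𝕜 := ℂ) (∑ k ∈ range N, w ^ k • B k)‖ ≤ M) →
    ∀ x : Matrix n n ℂ, fn (∑ k ∈ range N, T ^ k * x * (B k)ᵀ) ≤ 2 * M * fn x

lemma fn_le_of_CB (T : Matrix n n ℂ) (ρ : ℝ) (hρ0 : 0 ≤ ρ) (hρ1 : ρ < 1) (hT : CB T ρ)
    (W x y : Matrix n n ℂ) (h : W * Wᴴ + x * xᴴ = (T * W) * (T * W)ᴴ + y * yᴴ) :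
    fn x ≤ 2 * fn y := by
  obtain ⟨α, β, γ, δ, hW, hx, hc⟩ := exists_colligation W x y (T * W) h
  set Φ := Matrix.toEuclideanCLM (n := n) (𝕜 := ℂ) with hΦ
  have ha : ‖Φ α‖ ≤ 1 := by
    refine ContinuousLinearMap.opNorm_le_bound _ zero_le_one fun s => ?_
    have := hc s 0
    simp only [map_zero, add_zero, norm_zero] at this
    rw [one_mul]
    exact (pow_le_pow_iff_left₀ (norm_nonneg _) (norm_nonneg _) two_ne_zero).1
      (by nlinarith [sq_nonneg ‖Φ γ s‖])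
  have hγ : ‖Φ γ‖ ≤ 1 := by
    refine ContinuousLinearMap.opNorm_le_bound _ zero_le_one fun s => ?_
    have := hc s 0
    simp only [map_zero, add_zero, norm_zero] at this
    rw [one_mul]
    exact (pow_le_pow_iff_left₀ (norm_nonneg _) (norm_nonneg _) two_ne_zero).1
      (by nlinarith [sq_nonneg ‖Φ α s‖])
  -- unrolling
  have hWN : ∀ N : ℕ, W = ∑ k ∈ range N, T ^ k * y * (α ^ k * β)ᵀ + T ^ N * W * (α ^ N)ᵀ := by
    intro N
    induction N with
    | zero => simp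
    | succ N ih =>
      rw [Finset.sum_range_succ, add_assoc]
      have : T ^ N * W * (α ^ N)ᵀ
          = T ^ N * y * (α ^ N * β)ᵀ + T ^ (N + 1) * W * (α ^ (N + 1))ᵀ := by
        conv_lhs => rw [hW]
        rw [pow_succ T, pow_succ α, Matrix.transpose_mul, Matrix.transpose_mul]
        simp only [Matrix.mul_add, Matrix.add_mul, Matrix.mul_assoc]
        rw [add_comm]
      rw [← this]; exact ih
  have key : ∀ N : ℕ, fn x ≤ 2 * Real.sqrt (1 + (ρ ^ N) ^ 2 / (1 - ρ ^ 2)) * fn y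
      + 2 * ρ ^ (N + 1) * fn W := by
    intro N
    let B : ℕ → Matrix n n ℂ := fun k => match k with
      | 0 => δ
      | k + 1 => γ * α ^ k * β
    let B' : ℕ → Matrix n n ℂ := fun k => if k = N + 1 then γ * α ^ N else 0
    have h1 := hT (N + 1) B _ (fun w hw => by
      have := transfer_bound (Φ α) (Φ β) (Φ γ) (Φ δ) hc ρ hρ1 w hw N
      refine le_trans (le_of_eq ?_) this
      congr 1
      rw [Finset.sum_range_succ', map_add, map_sum, add_comm]
      simp only [B, pow_zero, one_smul, map_smul, map_mul, map_pow, hΦ]) y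
    have h2 := hT (N + 2) B' (ρ ^ (N + 1)) (fun w hw => by
      rw [Finset.sum_eq_single (N + 1) (fun k _ hk => by simp [B', hk]) (by simp)]
      simp only [B', if_true, map_smul, map_mul, map_pow, norm_smul, norm_pow]
      have h3 : ‖Φ γ * Φ α ^ N‖ ≤ 1 := by
        refine (norm_mul_le _ _).trans (mul_le_one₀ hγ (norm_nonneg _) ?_)
        rcases N.eq_zero_or_pos with h0 | h0
        · subst h0; rw [pow_zero]; exact ContinuousLinearMap.norm_id_le
        · exact (norm_pow_le' _ h0).trans (pow_le_one₀ (norm_nonneg _) ha)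
      calc ‖w‖ ^ (N + 1) * ‖Φ γ * Φ α ^ N‖ ≤ ρ ^ (N + 1) * 1 :=
            mul_le_mul (pow_le_pow_left₀ (norm_nonneg _) hw _) h3 (norm_nonneg _) (by positivity)
        _ = ρ ^ (N + 1) := mul_one _) W
    rw [Finset.sum_eq_single (N + 1) (fun k _ hk => by simp [B', hk]) (by simp)] at h2
    have h4 : x = ∑ k ∈ range (N + 1), T ^ k * y * (B k)ᵀ + T ^ (N + 1) * W * (B' (N + 1))ᵀ := by
      conv_lhs => rw [hx, hWN N]
      rw [Finset.sum_range_succ']
      simp only [B, B', if_true, pow_zero, Matrix.one_mul, Matrix.mul_add, Matrix.add_mul,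
        Finset.mul_sum, Finset.sum_mul, Matrix.transpose_mul, pow_succ' T, Matrix.mul_assoc]
      abel
    rw [h4]
    exact (fn_add_le _ _).trans (add_le_add h1 h2)
  have hlim : Tendsto (fun N : ℕ => 2 * Real.sqrt (1 + (ρ ^ N) ^ 2 / (1 - ρ ^ 2)) * fn y
      + 2 * ρ ^ (N + 1) * fn W) atTop
      (𝓝 (2 * Real.sqrt (1 + (0 : ℝ) ^ 2 / (1 - ρ ^ 2)) * fn y + 2 * 0 * fn W)) := by
    have h0 := tendsto_pow_atTop_nhds_zero_of_lt_one hρ0 hρ1
    have h1 : Tendsto (fun N : ℕ => ρ ^ (N + 1)) atTop (𝓝 0) := h0.comp (tendsto_add_atTop_nat 1)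
    refine Tendsto.add (Tendsto.mul_const _ (Tendsto.const_mul _ (Tendsto.sqrt ?_)))
      (Tendsto.mul_const _ (Tendsto.const_mul _ h1))
    exact Tendsto.const_add _ (Tendsto.div_const (h0.pow 2) _)
  have := ge_of_tendsto' hlim key
  simpa using this

end Crest.Agent.H9.Cz
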