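import Mathlib
import Crest.Agent.H9.Cz3

set_option autoImplicit false

namespace Crest.Agent.H9.Cz

open Filter Topology Finset Matrix
open scoped ComplexOrder MatrixOrder Matrix.Norms.L2Operator

variable {n : Type} [Fintype n] [DecidableEq n]

lemma isClosed_psd : IsClosed {H : Matrix n n ℂ | H.PosSemidef} := by
  have : {H : Matrix n n ℂ | H.PosSemidef} = Set.Ici 0 := by
    ext H; simp [Matrix.nonneg_iff_posSemidef]
  rw [this]; exact isClosed_Ici

lemma isCompact_box (τ : ℝ) :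
    IsCompact {H : Matrix n n ℂ | (H - 1).PosSemidef ∧ ((τ : ℂ) • (1 : Matrix n n ℂ) - H).PosSemidef} := by
  have : ProperSpace (Matrix n n ℂ) := FiniteDimensional.proper ℂ _
  have : {H : Matrix n n ℂ | (H - 1).PosSemidef ∧ ((τ : ℂ) • (1 : Matrix n n ℂ) - H).PosSemidef}
      = Set.Icc 1 ((τ : ℂ) • (1 : Matrix n n ℂ)) := by
    ext H; simp [Matrix.le_iff]
  rw [this]
  refine Metric.isCompact_of_isClosed_isBounded isClosed_Icc ?_
  refine (Metric.isBounded_closedBall (x := (0 : Matrix n n ℂ))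
    (r := ‖(τ : ℂ) • (1 : Matrix n n ℂ)‖)).subset ?_
  intro H hH
  rw [mem_closedBall_zero_iff]
  exact CStarAlgebra.norm_le_norm_of_nonneg_of_le (zero_le_one.trans hH.1) hH.2

/-- Splitting of a Hermitian matrix adapted to the box `1 ≤ H ≤ 4`. -/
lemma exists_split (D : Matrix n n ℂ) (hD : D.IsHermitian) :
    ∃ x y H : Matrix n n ℂ, D = y * yᴴ - x * xᴴ ∧ (H - 1).PosSemidef ∧
      (((4 : ℝ) : ℂ) • (1 : Matrix n n ℂ) - H).PosSemidef ∧ H * y = (4 : ℂ) • y ∧ H * x = x := by
  set U : Matrix n n ℂ := (hD.eigenvectorUnitary : Matrix n n ℂ) with hU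
  set l : n → ℝ := hD.eigenvalues with hl
  have hUU : Uᴴ * U = 1 := by
    have := hD.eigenvectorUnitary.2
    rw [Matrix.mem_unitaryGroup_iff'] at this
    exact this
  have hUU' : U * Uᴴ = 1 := by
    have := hD.eigenvectorUnitary.2
    rw [Matrix.mem_unitaryGroup_iff] at this
    exact this
  have hspec : D = U * Matrix.diagonal (fun i => (l i : ℂ)) * Uᴴ := by
    have := hD.spectral_theorem
    rw [Unitary.conjStarAlgAut_apply] at this
    exact this
  let h : n → ℝ := fun i => if 0 ≤ l i then 4 else 1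
  have psd : ∀ g : n → ℝ, (∀ i, 0 ≤ g i) →
      (U * Matrix.diagonal (fun i => (g i : ℂ)) * Uᴴ).PosSemidef := by
    intro g hg
    apply Matrix.PosSemidef.mul_mul_conjTranspose_same
    rw [Matrix.posSemidef_diagonal_iff]
    intro i; exact_mod_cast hg i
  have sq : ∀ g : n → ℝ, (U * Matrix.diagonal (fun i => (g i : ℂ))) *
      (U * Matrix.diagonal (fun i => (g i : ℂ)))ᴴ
      = U * Matrix.diagonal (fun i => ((g i * g i : ℝ) : ℂ)) * Uᴴ := by
    intro g
    rw [Matrix.conjTranspose_mul, Matrix.diagonal_conjTranspose, Matrix.mul_assoc, Matrix.mul_assoc,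
      ← Matrix.mul_assoc (Matrix.diagonal _), Matrix.diagonal_mul_diagonal]
    congr 3
    funext i; simp
  have mul : ∀ g : n → ℝ, (U * Matrix.diagonal (fun i => (h i : ℂ)) * Uᴴ) *
      (U * Matrix.diagonal (fun i => (g i : ℂ)))
      = U * Matrix.diagonal (fun i => ((h i * g i : ℝ) : ℂ)) := by
    intro g
    rw [Matrix.mul_assoc, ← Matrix.mul_assoc Uᴴ, hUU, Matrix.one_mul, Matrix.mul_assoc,
      Matrix.diagonal_mul_diagonal]
    congr 2
    funext i; simp
  refine ⟨U * Matrix.diagonal (fun i => ((Real.sqrt (max (-l i) 0) : ℝ) : ℂ)),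
    U * Matrix.diagonal (fun i => ((Real.sqrt (max (l i) 0) : ℝ) : ℂ)),
    U * Matrix.diagonal (fun i => (h i : ℂ)) * Uᴴ, ?_, ?_, ?_, ?_, ?_⟩
  · rw [sq, sq, ← Matrix.sub_mul, ← Matrix.mul_sub, Matrix.diagonal_sub]
    conv_lhs => rw [hspec]
    congr 3
    funext i
    rw [Real.mul_self_sqrt (le_max_right _ _), Real.mul_self_sqrt (le_max_right _ _),
      ← Complex.ofReal_sub, max_zero_sub_max_neg_zero_eq_self]
  · have : U * Matrix.diagonal (fun i => (h i : ℂ)) * Uᴴ - 1
        = U * Matrix.diagonal (fun i => ((h i - 1 : ℝ) : ℂ)) * Uᴴ := by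
      have e : Matrix.diagonal (fun i => ((h i - 1 : ℝ) : ℂ))
          = Matrix.diagonal (fun i => (h i : ℂ)) - 1 := by
        rw [← Matrix.diagonal_one, Matrix.diagonal_sub]; congr 1; funext i; simp
      rw [e, Matrix.mul_sub, Matrix.sub_mul, Matrix.mul_one, hUU']
    rw [this]
    exact psd _ fun i => by simp only [h]; split_ifs <;> norm_num
  · have : ((4 : ℝ) : ℂ) • (1 : Matrix n n ℂ) - U * Matrix.diagonal (fun i => (h i : ℂ)) * Uᴴ
        = U * Matrix.diagonal (fun i => ((4 - h i : ℝ) : ℂ)) * Uᴴ := by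
      have e : Matrix.diagonal (fun i => ((4 - h i : ℝ) : ℂ))
          = ((4 : ℝ) : ℂ) • (1 : Matrix n n ℂ) - Matrix.diagonal (fun i => (h i : ℂ)) := by
        rw [← Matrix.diagonal_one, ← Matrix.diagonal_smul, Matrix.diagonal_sub]
        congr 1; funext i; simp
      rw [e, Matrix.mul_sub, Matrix.sub_mul, Matrix.mul_smul, Matrix.mul_one, Matrix.smul_mul, hUU']
    rw [this]
    exact psd _ fun i => by simp only [h]; split_ifs <;> norm_num
  · rw [mul, ← Matrix.mul_smul, ← Matrix.diagonal_smul]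
    congr 2
    funext i
    simp only [h, Pi.smul_apply, smul_eq_mul]
    split_ifs with h0
    · simp
    · rw [max_eq_right (le_of_not_ge h0)]; simp
  · rw [mul]
    congr 2
    funext i
    simp only [h]
    split_ifs with h0
    · rw [max_eq_right (neg_nonpos.2 h0)]; simp
    · simp

theorem paulsen (T : Matrix n n ℂ) (ρ : ℝ) (hρ0 : 0 ≤ ρ) (hρ1 : ρ < 1) (hT : CB T ρ) :
    ∃ H : Matrix n n ℂ, (H - 1).PosSemidef ∧ (((4 : ℝ) : ℂ) • (1 : Matrix n n ℂ) - H).PosSemidef ∧
      (H - Tᴴ * H * T).PosSemidef := by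
  by_contra hcon
  push Not at hcon
  set I := {H : Matrix n n ℂ | (H - 1).PosSemidef ∧
    (((4 : ℝ) : ℂ) • (1 : Matrix n n ℂ) - H).PosSemidef} with hI
  let L : Matrix n n ℂ →ₗ[ℝ] Matrix n n ℂ :=
    { toFun := fun H => H - Tᴴ * H * T
      map_add' := fun a b => by simp only [Matrix.mul_add, Matrix.add_mul]; abel
      map_smul' := fun c a => by simp [smul_sub] }
  have hIv : Convex ℝ I := by
    have : I = Set.Icc 1 (((4 : ℝ) : ℂ) • (1 : Matrix n n ℂ)) := by
      ext H; simp [hI, Matrix.le_iff]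
    rw [this]; exact convex_Icc _ _
  have hKv : Convex ℝ (L '' I) := hIv.linear_image L
  have hKc : IsCompact (L '' I) := (isCompact_box 4).image (by
    change Continuous fun H : Matrix n n ℂ => H - Tᴴ * H * T
    fun_prop)
  have hPv : Convex ℝ {H : Matrix n n ℂ | H.PosSemidef} := by
    intro a ha b hb s t hs ht _
    exact (Matrix.PosSemidef.smul ha hs).add (Matrix.PosSemidef.smul hb ht)
  obtain ⟨φ, u, v, hu, huv, hv⟩ := RCLike.geometric_hahn_banach_compact_closed (𝕜 := ℂ) hKv hKc hPv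
    isClosed_psd (by
      rw [Set.disjoint_left]
      rintro _ ⟨H, hH, rfl⟩ hP
      exact hcon H hH.1 hH.2 hP)
  have hv0 : v < 0 := by simpa using hv 0 Matrix.PosSemidef.zero
  have hpos : ∀ S : Matrix n n ℂ, S.PosSemidef → 0 ≤ (φ S).re := by
    intro S hS
    by_contra hneg
    push Not at hneg
    have h1 := hv ((v / (φ S).re) • S) (Matrix.PosSemidef.smul hS (div_pos_of_neg_of_neg hv0 hneg).le)
    rw [← Complex.coe_smul, map_smul] at h1
    simp only [smul_eq_mul, RCLike.re_to_complex, Complex.re_ofReal_mul] at h1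
    rw [div_mul_cancel₀ _ hneg.ne] at h1
    exact lt_irrefl _ h1
  set G : Matrix n n ℂ := Matrix.of fun j i => φ (Matrix.single i j 1) with hG
  have hφ : ∀ M : Matrix n n ℂ, φ M = (G * M).trace := by
    intro M
    conv_lhs => rw [Matrix.matrix_eq_sum_single M]
    simp only [map_sum, Matrix.trace, Matrix.diag_apply, Matrix.mul_apply, hG, Matrix.of_apply]
    rw [Finset.sum_comm]
    refine Finset.sum_congr rfl fun j _ => Finset.sum_congr rfl fun i _ => ?_
    rw [mul_comm, ← smul_eq_mul, ← map_smul, Matrix.smul_single, smul_eq_mul, mul_one]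
  set Z : Matrix n n ℂ := G + Gᴴ with hZ
  have hZh : Z.IsHermitian := Matrix.isHermitian_add_transpose_self G
  have hZtr : ∀ M : Matrix n n ℂ, M.IsHermitian → (Z * M).trace = ((2 * (φ M).re : ℝ) : ℂ) := by
    intro M hM
    have h1 : (Gᴴ * M).trace = star (G * M).trace := by
      rw [← Matrix.trace_conjTranspose, Matrix.conjTranspose_mul, hM.eq, Matrix.trace_mul_comm]
    rw [hZ, Matrix.add_mul, Matrix.trace_add, h1, ← hφ, RCLike.star_def, Complex.add_conj]
  have hZp : Z.PosSemidef := by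
    refine Matrix.PosSemidef.of_dotProduct_mulVec_nonneg hZh fun w => ?_
    have h1 := Matrix.posSemidef_vecMulVec_self_star w
    have h2 := hZtr _ h1.isHermitian
    rw [Matrix.mul_vecMulVec, Matrix.trace_vecMulVec, dotProduct_comm] at h2
    rw [h2]
    exact_mod_cast mul_nonneg zero_le_two (hpos _ h1)
  obtain ⟨W, hW⟩ : ∃ W : Matrix n n ℂ, Z = W * Wᴴ := by
    obtain ⟨B, hB⟩ := CStarAlgebra.nonneg_iff_eq_mul_star_self.1 hZp.nonneg
    exact ⟨B, hB⟩
  have hDh : (Z - T * Z * Tᴴ).IsHermitian :=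
    hZh.sub (Matrix.isHermitian_mul_mul_conjTranspose T hZh)
  obtain ⟨x, y, H, hD, hH1, hH4, hHy, hHx⟩ := exists_split _ hDh
  have hxy := fn_le_of_CB T ρ hρ0 hρ1 hT W x y (by
    rw [Matrix.conjTranspose_mul, Matrix.mul_assoc, ← Matrix.mul_assoc W, ← hW, ← Matrix.mul_assoc,
      ← sub_eq_iff_eq_add', add_sub_right_comm, hD]
    abel)
  have hHh : H.IsHermitian := by
    have := hH1.isHermitian.add (Matrix.isHermitian_one (n := n) (α := ℂ))
    simpa using this
  have h1 := hu (L H) ⟨H, ⟨hH1, hH4⟩, rfl⟩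
  have h2 := hZtr (L H) (hHh.sub (Matrix.isHermitian_conjTranspose_mul_mul T hHh))
  have h3 : (Z * L H).trace = (H * (Z - T * Z * Tᴴ)).trace := by
    change (Z * (H - Tᴴ * H * T)).trace = _
    rw [Matrix.mul_sub, Matrix.mul_sub, Matrix.trace_sub, Matrix.trace_sub, Matrix.trace_mul_comm Z H]
    congr 1
    rw [← Matrix.mul_assoc, Matrix.trace_mul_comm, ← Matrix.mul_assoc, ← Matrix.mul_assoc,
      Matrix.trace_mul_comm]
  rw [h3, hD, Matrix.mul_sub, ← Matrix.mul_assoc, ← Matrix.mul_assoc, hHy, hHx, Matrix.smul_mul,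
    Matrix.trace_sub, Matrix.trace_smul, trace_mul_conjTranspose, trace_mul_conjTranspose] at h2
  have h4 : 4 * fn y ^ 2 - fn x ^ 2 = 2 * (φ (L H)).re := by
    simp only [smul_eq_mul] at h2
    exact_mod_cast h2
  simp only [RCLike.re_to_complex] at h1
  nlinarith [fn_nonneg x, fn_nonneg y]

end Crest.Agent.H9.Cz
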