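import Mathlib
import Crest.Prelude.Def_NumRangeMetric
import Crest.Agent.H9.Cz1
import Crest.Agent.H9.Cz4

set_option autoImplicit false

namespace Crest.Agent.H9.Cz

open Filter Topology Finset Matrix
open scoped ComplexOrder MatrixOrder Matrix.Norms.L2Operator
open Crest.AnalysisR.NumRange

/-- The core complete Crouzeix inequality for square coefficient blocks. -/
def Core (n : Type) [Fintype n] [DecidableEq n] : Prop :=
  ∀ (A : Matrix n n ℂ) (V : Set ℂ) (_hV : IsOpen V) (_hVc : Convex ℝ V)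
    (_hAV : ∀ x : EuclideanSpace ℂ n, ‖x‖ = 1 → inner ℂ x (Matrix.toEuclideanLin A x) ∈ V)
    (χ : Polynomial ℂ) (_hχ : Polynomial.aeval A χ = 0) (F : ℂ → Matrix n n ℂ)
    (q : n → n → Polynomial ℂ) (e : n → n → ℂ → ℂ) (_he : ∀ c d, DifferentiableOn ℂ (e c d) V)
    (_hF : ∀ z ∈ V, ∀ c d, F z c d = (q c d).eval z + χ.eval z * e c d z) (M : ℝ)
    (_hM : ∀ z ∈ V, ‖Matrix.toEuclideanCLM (n := n) (𝕜 := ℂ) (F z)‖ ≤ M) (x : Matrix n n ℂ),
    ∑ a, ∑ c, ‖∑ b, ∑ d, Polynomial.aeval A (q c d) a b * x b d‖ ^ 2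
      ≤ 4 * M ^ 2 * ∑ b, ∑ d, ‖x b d‖ ^ 2

lemma CB_of_core {n : Type} [Fintype n] [DecidableEq n] (hcore : Core n)
    (A : Matrix n n ℂ) (V : Set ℂ) (hV : IsOpen V) (hVc : Convex ℝ V)
    (hAV : ∀ x : EuclideanSpace ℂ n, ‖x‖ = 1 → inner ℂ x (Matrix.toEuclideanLin A x) ∈ V)
    (χ : Polynomial ℂ) (hχ : Polynomial.aeval A χ = 0) (p : Polynomial ℂ) (e : ℂ → ℂ)
    (he : DifferentiableOn ℂ e V) (ρ : ℝ) (hρ : 0 ≤ ρ)
    (hg : ∀ z ∈ V, ‖p.eval z + χ.eval z * e z‖ ≤ ρ) :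
    CB (Polynomial.aeval A p) ρ := by
  have hk : ∀ k : ℕ, ∃ ek : ℂ → ℂ, DifferentiableOn ℂ ek V ∧
      ∀ z, (p.eval z + χ.eval z * e z) ^ k = (p ^ k).eval z + χ.eval z * ek z := by
    intro k
    induction k with
    | zero => exact ⟨fun _ => 0, differentiableOn_const _, fun z => by simp⟩
    | succ k ih =>
      obtain ⟨ek, h1, h2⟩ := ih
      refine ⟨fun z => ek z * (p.eval z + χ.eval z * e z) + (p ^ k).eval z * e z, ?_, fun z => ?_⟩
      · exact (h1.mul (p.differentiable.differentiableOn.add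
          (χ.differentiable.differentiableOn.mul he))).add
          ((p ^ k).differentiable.differentiableOn.mul he)
      · rw [pow_succ, h2, pow_succ, Polynomial.eval_mul]; ring
  choose ek hek1 hek2 using hk
  intro N B M hM x
  have hM0 : 0 ≤ M := (norm_nonneg _).trans (hM 0 (by simpa using hρ))
  have key := hcore A V hV hVc hAV χ hχ
    (fun z => ∑ k ∈ range N, (p.eval z + χ.eval z * e z) ^ k • B k)
    (fun c d => ∑ k ∈ range N, Polynomial.C (B k c d) * p ^ k)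
    (fun c d z => ∑ k ∈ range N, B k c d * ek k z)
    (fun c d => DifferentiableOn.fun_sum fun k _ => (hek1 k).const_mul _)
    (fun z _ c d => by
      simp only [Matrix.sum_apply, Matrix.smul_apply, smul_eq_mul, hek2, Polynomial.eval_finset_sum,
        Polynomial.eval_mul, Polynomial.eval_C, Finset.mul_sum, ← Finset.sum_add_distrib]
      refine Finset.sum_congr rfl fun k _ => by ring)
    M (fun z hz => hM _ (hg z hz)) x
  refine (pow_le_pow_iff_left₀ (fn_nonneg _) (by have := fn_nonneg x; positivity) two_ne_zero).1 ?_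
  rw [mul_pow, mul_pow, fn_sq, fn_sq]
  refine le_trans (le_of_eq ?_) (key.trans (le_of_eq (by norm_num)))
  refine Finset.sum_congr rfl fun a _ => Finset.sum_congr rfl fun c _ => ?_
  congr 2
  simp only [map_sum, map_mul, Polynomial.aeval_C, map_pow, Matrix.sum_apply, Matrix.mul_apply,
    Matrix.transpose_apply, Finset.sum_mul, ← Algebra.smul_def, Matrix.smul_apply, smul_eq_mul]
  rw [Finset.sum_comm]
  conv_rhs => rw [Finset.sum_comm]
  refine Finset.sum_congr rfl fun d _ => ?_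
  rw [Finset.sum_comm]
  refine Finset.sum_congr rfl fun b _ => Finset.sum_congr rfl fun k _ => by ring

lemma exists_optimal {n : ℕ} (hn : 1 ≤ n) (T H₀ : Matrix (Fin n) (Fin n) ℂ)
    (h : MetricFeasible T H₀ 4) :
    ∃ (H : Matrix (Fin n) (Fin n) ℂ) (κsq : ℝ), IsOptimalMetric T H κsq ∧ 1 ≤ κsq ∧ κsq ≤ 4 := by
  have hge : ∀ (H : Matrix (Fin n) (Fin n) ℂ) (τ : ℝ), MetricFeasible T H τ → 1 ≤ τ := by
    intro H τ hH
    have h1 := (hH.1.add hH.2.1).diag_nonneg (i := ⟨0, hn⟩)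
    simp only [Matrix.add_apply, Matrix.sub_apply, Matrix.smul_apply, Matrix.one_apply_eq,
      smul_eq_mul, mul_one] at h1
    have h2 : (0 : ℂ) ≤ ((τ - 1 : ℝ) : ℂ) := by
      convert h1 using 1; push_cast; ring
    have h3 : (0 : ℝ) ≤ τ - 1 := by exact_mod_cast h2
    linarith
  have hmono : ∀ (H : Matrix (Fin n) (Fin n) ℂ) (τ τ' : ℝ), τ ≤ τ' →
      ((τ : ℂ) • (1 : Matrix (Fin n) (Fin n) ℂ) - H).PosSemidef →
      ((τ' : ℂ) • (1 : Matrix (Fin n) (Fin n) ℂ) - H).PosSemidef := by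
    intro H τ τ' hτ hH
    have h1 : ((τ' - τ : ℝ) • (1 : Matrix (Fin n) (Fin n) ℂ)).PosSemidef :=
      Matrix.PosSemidef.smul Matrix.PosSemidef.one (sub_nonneg.2 hτ)
    have := h1.add hH
    convert this using 1
    rw [← Complex.coe_smul]; push_cast; rw [sub_smul]; abel
  set S : Set (Matrix (Fin n) (Fin n) ℂ × ℝ) := {z | MetricFeasible T z.1 z.2 ∧ z.2 ≤ 4} with hS
  have hSc : IsClosed S := by
    refine IsClosed.inter (IsClosed.inter ?_ (IsClosed.inter ?_ ?_)) (isClosed_le continuous_snd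
      continuous_const)
    · exact isClosed_psd.preimage (f := fun z : Matrix (Fin n) (Fin n) ℂ × ℝ => z.1 - 1) (by fun_prop)
    · exact isClosed_psd.preimage (f := fun z : Matrix (Fin n) (Fin n) ℂ × ℝ =>
        (z.2 : ℂ) • (1 : Matrix (Fin n) (Fin n) ℂ) - z.1) (by fun_prop)
    · exact isClosed_psd.preimage (f := fun z : Matrix (Fin n) (Fin n) ℂ × ℝ =>
        z.1 - Tᴴ * z.1 * T) (by fun_prop)
  have hSk : IsCompact S := by
    refine ((isCompact_box (n := Fin n) 4).prod (isCompact_Icc (a := (1 : ℝ)) (b := 4))).of_isClosed_subset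
      hSc ?_
    rintro ⟨H, τ⟩ ⟨hH, hτ⟩
    exact ⟨⟨hH.1, hmono H τ 4 hτ hH.2.1⟩, hge H τ hH, hτ⟩
  obtain ⟨⟨H, κ⟩, ⟨hH, hκ⟩, hmin⟩ := hSk.exists_isMinOn ⟨(H₀, 4), h, le_rfl⟩
    continuous_snd.continuousOn
  refine ⟨H, κ, ⟨hH, fun H' τ' h' => ?_⟩, hge H κ hH, hκ⟩
  rcases le_total τ' 4 with h4 | h4
  · exact hmin (a := (H', τ')) ⟨h', h4⟩
  · exact le_trans hκ h4

theorem s0180_of_core (n : ℕ) (hcore : Core (Fin n)) (hn : 1 ≤ n) (A : Matrix (Fin n) (Fin n) ℂ)
    (Ω U : Set ℂ) (hΩ₁ : IsOpen Ω) (hΩ₂ : Bornology.IsBounded Ω) (hΩ₃ : Convex ℝ Ω)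
    (hΩU : closure Ω ⊆ U)
    (f : ℂ → ℂ) (hf₁ : DifferentiableOn ℂ f U)
    (hf₃ : f '' Ω = Metric.ball 0 1)
    (hA : numRange A ⊆ Ω) (p : Polynomial ℂ) (hp : AgreesOnSpectrum A f p) :
    (∃ (H : Matrix (Fin n) (Fin n) ℂ) (τ : ℝ), MetricStrictlyFeasible (Polynomial.aeval A p) H τ) ∧
    ∃ (H : Matrix (Fin n) (Fin n) ℂ) (κsq : ℝ),
      IsOptimalMetric (Polynomial.aeval A p) H κsq ∧ 1 ≤ κsq ∧ κsq ≤ 4 := by
  have hfΩ : DifferentiableOn ℂ f Ω := hf₁.mono (subset_closure.trans hΩU)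
  have hK : IsCompact (numRange A) := by
    have : numRange A = (fun x : EuclideanSpace ℂ (Fin n) =>
        inner ℂ x (Matrix.toEuclideanCLM (n := Fin n) (𝕜 := ℂ) A x)) '' Metric.sphere 0 1 := by
      ext z
      simp only [numRange, Set.mem_ofPred_eq, Set.mem_image, mem_sphere_iff_norm, sub_zero]
      constructor
      · rintro ⟨x, hx, rfl⟩; exact ⟨x, hx, rfl⟩
      · rintro ⟨x, hx, rfl⟩; exact ⟨x, hx, rfl⟩
    rw [this]
    exact (isCompact_sphere _ _).image (by fun_prop)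
  obtain ⟨V, hV, hVc, hKV, hVΩ, ρ, hρ0, hρ1, hρ⟩ := exists_shrink hΩ₁ hΩ₂ hΩ₃ hK hA f
    hfΩ.continuousOn (fun z hz => by
      have : f z ∈ Metric.ball (0 : ℂ) 1 := hf₃ ▸ Set.mem_image_of_mem f hz
      simpa using this)
  -- spectrum inside the numerical range
  have hspec : spectrum ℂ A ⊆ numRange A := by
    intro μ hμ
    rw [← Matrix.spectrum_toEuclideanLin] at hμ
    obtain ⟨v, hv⟩ := (Module.End.hasEigenvalue_iff_mem_spectrum.2 hμ).exists_hasEigenvector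
    have hv0 : v ≠ 0 := hv.2
    have hvn : ‖v‖ ≠ 0 := norm_ne_zero_iff.2 hv0
    refine ⟨((‖v‖⁻¹ : ℝ) : ℂ) • v, by simp [norm_smul, hvn], ?_⟩
    rw [map_smul, hv.apply_eq_smul, inner_smul_left, inner_smul_right, inner_smul_right,
      inner_self_eq_norm_sq_to_K]
    have : ((‖v‖ : ℝ) : ℂ) ≠ 0 := by exact_mod_cast hvn
    simp only [Complex.ofReal_inv, map_inv₀, Complex.conj_ofReal, Complex.coe_algebraMap]
    field_simp
  obtain ⟨e, he, hE⟩ := div_multiset hΩ₁ A.charpoly.roots (fun z => f z - p.eval z)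
    (hfΩ.sub p.differentiable.differentiableOn) (by
      intro μ hμ
      have hμs : μ ∈ spectrum ℂ A := by
        rw [Matrix.mem_spectrum_iff_isRoot_charpoly]
        exact (Polynomial.mem_roots A.charpoly_monic.ne_zero).1 hμ
      have hμΩ : μ ∈ Ω := hA (hspec hμs)
      refine ⟨hμΩ, ?_⟩
      have h1 : AnalyticAt ℂ f μ := hfΩ.analyticAt (hΩ₁.mem_nhds hμΩ)
      have h2 : AnalyticAt ℂ (fun z => p.eval z) μ := p.differentiable.analyticAt μ
      rw [natCast_le_analyticOrderAt_iff_iteratedDeriv_eq_zero (h1.fun_sub h2)]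
      intro i hi
      have hin : i < n := by
        refine hi.trans_le ((Multiset.count_le_card _ _).trans ((Polynomial.card_roots' _).trans ?_))
        simp
      rw [iteratedDeriv_fun_sub h1.contDiffAt h2.contDiffAt, hp μ hμs i hin, sub_self])
  have hχ : ∀ z, (A.charpoly.roots.map (fun μ => z - μ)).prod = A.charpoly.eval z := by
    intro z
    have h1 : A.charpoly.Splits := IsAlgClosed.splits _
    conv_rhs => rw [h1.eq_prod_roots_of_monic A.charpoly_monic]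
    simp [Polynomial.eval_multiset_prod]
  set r : ℝ := (1 + ρ) / 2 with hr
  have hr0 : 0 < r := by positivity
  have hr1 : r < 1 := by linarith
  have hρr : ρ < r := by linarith
  have hCB := CB_of_core hcore A V hV hVc (fun x hx => hKV ⟨x, hx, rfl⟩) A.charpoly
    (Matrix.aeval_self_charpoly A) (Polynomial.C ((r⁻¹ : ℝ) : ℂ) * p)
    (fun z => ((r⁻¹ : ℝ) : ℂ) * e z) ((he.mono hVΩ).const_mul _) (ρ / r) (by positivity)
    (fun z hz => by
      have h1 := hE z
      rw [hχ] at h1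
      have h2 : (Polynomial.C ((r⁻¹ : ℝ) : ℂ) * p).eval z
          + A.charpoly.eval z * (((r⁻¹ : ℝ) : ℂ) * e z) = ((r⁻¹ : ℝ) : ℂ) * f z := by
        rw [Polynomial.eval_mul, Polynomial.eval_C]
        linear_combination -((r⁻¹ : ℝ) : ℂ) * h1
      rw [h2, norm_mul, Complex.norm_real, Real.norm_of_nonneg (by positivity), div_eq_inv_mul]
      exact mul_le_mul_of_nonneg_left (hρ z hz) (by positivity))
  obtain ⟨H, hH1, hH4, hHT⟩ := paulsen _ (ρ / r) (by positivity) ((div_lt_one hr0).2 hρr) hCB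
  set T := Polynomial.aeval A p with hT
  have hT' : Polynomial.aeval A (Polynomial.C ((r⁻¹ : ℝ) : ℂ) * p) = ((r⁻¹ : ℝ) : ℂ) • T := by
    rw [map_mul, Polynomial.aeval_C, ← Algebra.smul_def]
  rw [hT'] at hHT
  have hpd : (H - Tᴴ * H * T).PosDef := by
    have h1 : ((1 - r ^ 2 : ℝ) • (1 : Matrix (Fin n) (Fin n) ℂ)).PosDef :=
      Matrix.PosDef.smul Matrix.PosDef.one (by nlinarith)
    have h2 := Matrix.PosSemidef.smul hH1 (show (0 : ℝ) ≤ 1 - r ^ 2 by nlinarith)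
    have h3 := Matrix.PosSemidef.smul hHT (show (0 : ℝ) ≤ r ^ 2 by positivity)
    have h4 := h1.add_posSemidef (h2.add h3)
    convert h4 using 1
    have hr' : (r : ℂ) ≠ 0 := by exact_mod_cast hr0.ne'
    simp only [← Complex.coe_smul, Matrix.conjTranspose_smul, Matrix.smul_mul, Matrix.mul_smul,
      smul_sub, smul_smul, RCLike.star_def, Complex.conj_ofReal]
    push_cast
    have : (r : ℂ) ^ 2 * ((r : ℂ)⁻¹ * (r : ℂ)⁻¹) = 1 := by field_simp
    rw [this, sub_smul, sub_smul, one_smul, one_smul, one_smul]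
    abel
  refine ⟨⟨(2 : ℝ) • H, 9, ?_, ?_, ?_⟩, exists_optimal hn T H ⟨hH1, hH4, hpd.posSemidef⟩⟩
  · have h4 := Matrix.PosDef.one.add_posSemidef
      (Matrix.PosSemidef.smul hH1 (show (0 : ℝ) ≤ 2 by norm_num))
    convert h4 using 1
    rw [smul_sub, two_smul ℝ (1 : Matrix (Fin n) (Fin n) ℂ)]; abel
  · have h4 := Matrix.PosDef.one.add_posSemidef
      (Matrix.PosSemidef.smul hH4 (show (0 : ℝ) ≤ 2 by norm_num))
    convert h4 using 1
    ext i j
    simp only [Matrix.sub_apply, Matrix.add_apply, Matrix.smul_apply, smul_eq_mul, Complex.real_smul]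
    push_cast; ring
  · have h4 := Matrix.PosDef.smul hpd (show (0 : ℝ) < 2 by norm_num)
    convert h4 using 1
    rw [smul_sub, Matrix.mul_smul, Matrix.smul_mul]

end Crest.Agent.H9.Cz
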