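import Mathlib

set_option autoImplicit false

namespace Crest.Agent.H9PTF

open Finset Matrix

section Abstract

variable {X ι : Type*} [Fintype X] [Fintype ι] [DecidableEq X] [DecidableEq ι]

/-- squared Hilbert-Schmidt norm -/
def hs {α β : Type*} [Fintype α] [Fintype β] (A : Matrix α β ℝ) : ℝ := ∑ a, ∑ b, A a b ^ 2

lemma hs_eq_trace {α β : Type*} [Fintype α] [Fintype β] (A : Matrix α β ℝ) :
    hs A = (A * Aᵀ).trace := by
  simp [hs, Matrix.trace, Matrix.mul_apply, sq]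

omit [DecidableEq X] in
lemma hs_conj (B : Matrix X ι ℝ) (hB : Bᵀ * B = 1) (M : Matrix ι ι ℝ) :
    hs (B * M * Bᵀ) = hs M := by
  rw [hs_eq_trace, hs_eq_trace]
  have h1 : B * M * Bᵀ * (B * M * Bᵀ)ᵀ = B * (M * Mᵀ * Bᵀ) := by
    simp only [Matrix.transpose_mul, Matrix.transpose_transpose]
    calc B * M * Bᵀ * (B * (Mᵀ * Bᵀ)) = B * M * (Bᵀ * B) * (Mᵀ * Bᵀ) := by
          simp only [Matrix.mul_assoc]
      _ = B * (M * Mᵀ * Bᵀ) := by rw [hB]; simp only [Matrix.mul_one, Matrix.mul_assoc]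
  rw [h1, Matrix.trace_mul_comm, Matrix.mul_assoc, hB, Matrix.mul_one]

/-- the operator with eigenvalues `e` in the basis `B`, written in the point basis -/
def opE (B : Matrix X ι ℝ) (e : ι → ℝ) : Matrix X X ℝ := B * diagonal e * Bᵀ

/-- the multiplication operator by `ξ` written in the basis `B` -/
def tld (B : Matrix X ι ℝ) (ξ : X → ℝ) : Matrix ι ι ℝ := Bᵀ * diagonal ξ * B

lemma tld_apply (B : Matrix X ι ℝ) (ξ : X → ℝ) (S T : ι) :
    tld B ξ S T = ∑ x, B x S * ξ x * B x T := by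
  simp [tld, Matrix.mul_apply, Matrix.diagonal, Matrix.transpose_apply]

lemma tld_symm (B : Matrix X ι ℝ) (ξ : X → ℝ) (S T : ι) : tld B ξ S T = tld B ξ T S := by
  simp only [tld_apply]
  exact Finset.sum_congr rfl fun x _ => by ring

lemma tld_transpose (B : Matrix X ι ℝ) (ξ : X → ℝ) : (tld B ξ)ᵀ = tld B ξ := by
  ext S T; simp [tld_symm B ξ S T]

lemma tld_mul_self (B : Matrix X ι ℝ) (hB : Bᵀ * B = 1) (hB' : B * Bᵀ = 1) (ξ : X → ℝ)
    (hξ : ∀ x, ξ x * ξ x = 1) : tld B ξ * tld B ξ = 1 := by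
  have h1 : diagonal ξ * diagonal ξ = (1 : Matrix X X ℝ) := by
    rw [Matrix.diagonal_mul_diagonal]
    simp only [hξ]
    rfl
  calc tld B ξ * tld B ξ = Bᵀ * diagonal ξ * (B * Bᵀ) * diagonal ξ * B := by
        simp only [tld, Matrix.mul_assoc]
    _ = Bᵀ * (diagonal ξ * diagonal ξ) * B := by
        rw [hB']; simp only [Matrix.mul_one, Matrix.mul_assoc]
    _ = 1 := by rw [h1, Matrix.mul_one, hB]

lemma tld_row_sum (B : Matrix X ι ℝ) (hB : Bᵀ * B = 1) (hB' : B * Bᵀ = 1) (ξ : X → ℝ)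
    (hξ : ∀ x, ξ x * ξ x = 1) (S : ι) : ∑ T, tld B ξ S T ^ 2 = 1 := by
  have h := congrFun (congrFun (tld_mul_self B hB hB' ξ hξ) S) S
  rw [Matrix.mul_apply, Matrix.one_apply_eq] at h
  rw [← h]
  exact Finset.sum_congr rfl fun T _ => by rw [tld_symm B ξ T S, sq]

lemma comm_eq (B : Matrix X ι ℝ) (hB' : B * Bᵀ = 1) (e : ι → ℝ) (ξ : X → ℝ) (s : ℝ) :
    (Matrix.of fun x y => opE B e x y * (ξ y + s * ξ x)) =
      B * (Matrix.of fun S T => tld B ξ S T * (e S + s * e T)) * Bᵀ := by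
  have h1 : (Matrix.of fun x y => opE B e x y * (ξ y + s * ξ x)) =
      opE B e * diagonal ξ + s • (diagonal ξ * opE B e) := by
    ext x y
    simp [Matrix.mul_diagonal, Matrix.diagonal_mul]
    ring
  have h2 : (Matrix.of fun S T => tld B ξ S T * (e S + s * e T)) =
      diagonal e * tld B ξ + s • (tld B ξ * diagonal e) := by
    ext S T
    simp [Matrix.mul_diagonal, Matrix.diagonal_mul]
    ring
  rw [h1, h2, Matrix.mul_add, Matrix.add_mul, Matrix.mul_smul, Matrix.smul_mul]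
  congr 1
  · simp only [opE, tld]
    calc B * diagonal e * Bᵀ * diagonal ξ = B * diagonal e * Bᵀ * diagonal ξ * (B * Bᵀ) := by
          rw [hB', Matrix.mul_one]
      _ = _ := by simp only [Matrix.mul_assoc]
  · congr 1
    simp only [opE, tld]
    calc diagonal ξ * (B * diagonal e * Bᵀ) = (B * Bᵀ) * diagonal ξ * (B * diagonal e * Bᵀ) := by
          rw [hB', Matrix.one_mul]
      _ = _ := by simp only [Matrix.mul_assoc]

lemma hs_comm (B : Matrix X ι ℝ) (hB : Bᵀ * B = 1) (hB' : B * Bᵀ = 1) (e : ι → ℝ) (ξ : X → ℝ)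
    (s : ℝ) :
    ∑ x, ∑ y, (opE B e x y * (ξ y + s * ξ x)) ^ 2 =
      ∑ S, ∑ T, (tld B ξ S T * (e S + s * e T)) ^ 2 := by
  have h := hs_conj B hB (Matrix.of fun S T => tld B ξ S T * (e S + s * e T))
  rw [← comm_eq B hB' e ξ s] at h
  simpa [hs] using h

omit [DecidableEq X] in
lemma hs_opE (B : Matrix X ι ℝ) (hB : Bᵀ * B = 1) (e : ι → ℝ) :
    ∑ x, ∑ y, opE B e x y ^ 2 = ∑ S, e S ^ 2 := by
  have h := hs_conj B hB (diagonal e)
  have h2 : hs (diagonal e) = ∑ S, e S ^ 2 := by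
    simp only [hs]
    refine Finset.sum_congr rfl fun S _ => ?_
    rw [Finset.sum_eq_single S]
    · simp
    · intro T _ hT
      simp [Matrix.diagonal_apply_ne' _ hT]
    · simp
  rw [h2] at h
  exact h

omit [Fintype X] [DecidableEq X] in
lemma bilin_le (O : Matrix ι ι ℝ) (hO : Oᵀ * O = 1) (u v : ι → ℝ) :
    |∑ S, ∑ T, u S * O S T * v T| ≤ (∑ S, u S ^ 2 + ∑ T, v T ^ 2) / 2 := by
  have h1 : ∑ S, ∑ T, u S * O S T * v T = ∑ S, u S * (O *ᵥ v) S := by
    refine Finset.sum_congr rfl fun S _ => ?_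
    simp [Matrix.mulVec, dotProduct, Finset.mul_sum, mul_assoc]
  have h2 : ∑ S, (O *ᵥ v) S ^ 2 = ∑ T, v T ^ 2 := by
    have : (O *ᵥ v) ⬝ᵥ (O *ᵥ v) = v ⬝ᵥ v := by
      rw [Matrix.dotProduct_mulVec, Matrix.vecMul_mulVec, hO, Matrix.vecMul_one]
    simpa [dotProduct, sq] using this
  rw [h1, ← h2, ← Finset.sum_add_distrib, Finset.sum_div]
  refine (Finset.abs_sum_le_sum_abs _ _).trans (Finset.sum_le_sum fun S _ => ?_)
  rw [abs_le]
  constructor <;> nlinarith [sq_nonneg (u S + (O *ᵥ v) S), sq_nonneg (u S - (O *ᵥ v) S)]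

lemma sin_band (a b : ℕ) (h1 : a ≤ b + 1) (h2 : b ≤ a + 1) :
    (a : ℝ) - b = Real.sin (Real.pi / 2 * a) * Real.cos (Real.pi / 2 * b) -
      Real.cos (Real.pi / 2 * a) * Real.sin (Real.pi / 2 * b) := by
  rw [← Real.sin_sub, ← mul_sub]
  have : a = b + 1 ∨ a = b ∨ b = a + 1 := by omega
  rcases this with h | h | h
  · subst h; simp
  · subst h; simp
  · subst h; simp

/-- entry bound for the commutator with a banded sign operator -/
lemma entry_bound (B : Matrix X ι ℝ) (hB : Bᵀ * B = 1) (hB' : B * Bᵀ = 1) (deg : ι → ℕ) (c : ℝ)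
    (ξ : X → ℝ) (hξ : ∀ x, ξ x * ξ x = 1)
    (hband : ∀ S T, deg T + 1 < deg S → tld B ξ S T = 0) (x y : X) :
    |opE B (fun S => (deg S : ℝ) - c) x y * (ξ y - ξ x)| ≤ 1 := by
  have h := congrFun (congrFun (comm_eq B hB' (fun S => (deg S : ℝ) - c) ξ (-1)) x) y
  simp only [Matrix.of_apply] at h
  have e1 : opE B (fun S => (deg S : ℝ) - c) x y * (ξ y - ξ x) =
      ∑ S, ∑ T, B x S * (tld B ξ S T * ((deg S : ℝ) - deg T)) * B y T := by
    have : ξ y - ξ x = ξ y + -1 * ξ x := by ring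
    rw [this, h]
    simp only [Matrix.mul_apply, Matrix.of_apply, Matrix.transpose_apply, Finset.sum_mul]
    rw [Finset.sum_comm]
    refine Finset.sum_congr rfl fun S _ => Finset.sum_congr rfl fun T _ => by ring
  set s : ι → ℝ := fun S => Real.sin (Real.pi / 2 * deg S) with hs
  set k : ι → ℝ := fun S => Real.cos (Real.pi / 2 * deg S) with hk
  have e2 : ∀ S T, tld B ξ S T * ((deg S : ℝ) - deg T) =
      tld B ξ S T * (s S * k T - k S * s T) := by
    intro S T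
    by_cases h1 : deg T + 1 < deg S
    · simp [hband S T h1]
    · by_cases h2 : deg S + 1 < deg T
      · simp [tld_symm B ξ S T, hband T S h2]
      · rw [sin_band (deg S) (deg T) (by omega) (by omega)]
  have e3 : ∑ S, ∑ T, B x S * (tld B ξ S T * ((deg S : ℝ) - deg T)) * B y T =
      ∑ S, ∑ T, (B x S * s S) * tld B ξ S T * (B y T * k T) -
      ∑ S, ∑ T, (B x S * k S) * tld B ξ S T * (B y T * s T) := by
    rw [← Finset.sum_sub_distrib]
    refine Finset.sum_congr rfl fun S _ => ?_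
    rw [← Finset.sum_sub_distrib]
    refine Finset.sum_congr rfl fun T _ => ?_
    rw [e2]; ring
  have hO : (tld B ξ)ᵀ * tld B ξ = 1 := by rw [tld_transpose, tld_mul_self B hB hB' ξ hξ]
  have b1 := bilin_le (tld B ξ) hO (fun S => B x S * s S) (fun T => B y T * k T)
  have b2 := bilin_le (tld B ξ) hO (fun S => B x S * k S) (fun T => B y T * s T)
  have hrow : ∀ z, ∑ S, (B z S * s S) ^ 2 + ∑ S, (B z S * k S) ^ 2 = 1 := by
    intro z
    have h := congrFun (congrFun hB' z) z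
    rw [Matrix.mul_apply, Matrix.one_apply_eq] at h
    rw [← h, ← Finset.sum_add_distrib]
    refine Finset.sum_congr rfl fun S _ => ?_
    have : s S ^ 2 + k S ^ 2 = 1 := Real.sin_sq_add_cos_sq _
    simp only [Matrix.transpose_apply]
    calc (B z S * s S) ^ 2 + (B z S * k S) ^ 2 = B z S * B z S * (s S ^ 2 + k S ^ 2) := by ring
      _ = _ := by rw [this, mul_one]
  rw [e1, e3]
  refine (abs_sub _ _).trans ?_
  have := hrow x
  have := hrow y
  linarith

/-- Hilbert-Schmidt bound for the commutator with a banded sign operator -/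
lemma hs_band (B : Matrix X ι ℝ) (hB : Bᵀ * B = 1) (hB' : B * Bᵀ = 1) (deg : ι → ℕ) (c : ℝ)
    (ξ : X → ℝ) (hξ : ∀ x, ξ x * ξ x = 1)
    (hband : ∀ S T, deg T + 1 < deg S → tld B ξ S T = 0) :
    ∑ x, ∑ y, (opE B (fun S => (deg S : ℝ) - c) x y * (ξ y - ξ x)) ^ 2 ≤ Fintype.card ι := by
  have h := hs_comm B hB hB' (fun S => (deg S : ℝ) - c) ξ (-1)
  have e1 : ∀ x y, ξ y - ξ x = ξ y + -1 * ξ x := fun x y => by ring
  simp only [e1]
  rw [h]
  have : (Fintype.card ι : ℝ) = ∑ S : ι, ∑ T, tld B ξ S T ^ 2 := by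
    simp [tld_row_sum B hB hB' ξ hξ]
  rw [this]
  refine Finset.sum_le_sum fun S _ => Finset.sum_le_sum fun T _ => ?_
  by_cases h1 : deg T + 1 < deg S
  · simp [hband S T h1]
  · by_cases h2 : deg S + 1 < deg T
    · simp [tld_symm B ξ S T, hband T S h2]
    · have h3 : deg S = deg T + 1 ∨ deg S = deg T ∨ deg T = deg S + 1 := by omega
      have h4 : (((deg S : ℝ) - c) + -1 * ((deg T : ℝ) - c)) ^ 2 ≤ 1 := by
        rcases h3 with h | h | h
        · rw [h]; push_cast; nlinarith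
        · rw [h]; nlinarith
        · rw [h]; push_cast; nlinarith
      rw [mul_pow]
      nlinarith [sq_nonneg (tld B ξ S T)]

/-- the potential used in the coupling bound -/
noncomputable def pot (h a : ℝ) : ℝ := 2 * (a + h) * |a + h| - 4 * h * a - 2 * h ^ 2

lemma pot_le (h a b : ℝ) (hab : 0 ≤ a + b + 2 * h) : (a + b) ^ 2 ≤ pot h a + pot h b := by
  unfold pot
  rcases abs_cases (a + h) with ⟨h1, h1'⟩ | ⟨h1, h1'⟩ <;>
  rcases abs_cases (b + h) with ⟨h2, h2'⟩ | ⟨h2, h2'⟩ <;> rw [h1, h2] <;>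
  nlinarith [sq_nonneg (a - b), mul_nonneg hab (le_of_lt (neg_pos.mpr (by linarith : (0:ℝ) - 1 < 0)))]

lemma pot_symm_le (h a : ℝ) (hh : 0 ≤ h) : pot h a + pot h (-a) ≤ 8 * h * |a| := by
  unfold pot
  rcases abs_cases (a + h) with ⟨h1, h1'⟩ | ⟨h1, h1'⟩ <;>
  rcases abs_cases (-a + h) with ⟨h2, h2'⟩ | ⟨h2, h2'⟩ <;>
  rcases abs_cases a with ⟨h3, h3'⟩ | ⟨h3, h3'⟩ <;> rw [h1, h2, h3] <;>
  nlinarith

/-- Hilbert-Schmidt bound for the anticommutator with `J` -/
lemma hs_anti (B : Matrix X ι ℝ) (hB : Bᵀ * B = 1) (hB' : B * Bᵀ = 1) (e : ι → ℝ) (h : ℝ)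
    (hh : 0 ≤ h) (J : X → ℝ) (hJ : ∀ x, J x * J x = 1)
    (hband : ∀ S T, e S + e T + 2 * h < 0 → tld B J S T = 0)
    (σ : ι ≃ ι) (hσ : ∀ S, e (σ S) = - e S) :
    ∑ x, ∑ y, (opE B e x y * (J y + J x)) ^ 2 ≤ 8 * h * ∑ S, |e S| := by
  have h0 := hs_comm B hB hB' e J 1
  simp only [one_mul] at h0
  rw [h0]
  have h1 : ∑ S, ∑ T, (tld B J S T * (e S + e T)) ^ 2 ≤
      ∑ S, ∑ T, tld B J S T ^ 2 * (pot h (e S) + pot h (e T)) := by
    refine Finset.sum_le_sum fun S _ => Finset.sum_le_sum fun T _ => ?_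
    by_cases hc : e S + e T + 2 * h < 0
    · simp [hband S T hc]
    · rw [mul_pow]
      exact mul_le_mul_of_nonneg_left (pot_le h _ _ (not_lt.mp hc)) (sq_nonneg _)
  have h2 : ∑ S, ∑ T, tld B J S T ^ 2 * (pot h (e S) + pot h (e T)) =
      ∑ S, pot h (e S) + ∑ T, pot h (e T) := by
    simp only [mul_add, Finset.sum_add_distrib]
    congr 1
    · refine Finset.sum_congr rfl fun S _ => ?_
      rw [← Finset.sum_mul, tld_row_sum B hB hB' J hJ, one_mul]
    · rw [Finset.sum_comm]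
      refine Finset.sum_congr rfl fun T _ => ?_
      rw [← Finset.sum_mul]
      simp only [fun S => tld_symm B J S T]
      rw [tld_row_sum B hB hB' J hJ, one_mul]
  have h3 : ∑ T, pot h (e T) = ∑ S, pot h (- e S) := by
    rw [← Equiv.sum_comp σ]
    simp only [hσ]
  refine h1.trans ?_
  rw [h2]
  nth_rewrite 2 [h3]
  rw [← Finset.sum_add_distrib, Finset.mul_sum]
  exact Finset.sum_le_sum fun S _ => pot_symm_le h _ hh

end Abstract

end Crest.Agent.H9PTF
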