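import Mathlib
import Crest.Agent.H9.PTFMatrix

set_option autoImplicit false

namespace Crest.Agent.H9PTF

open Finset Matrix

variable {n : ℕ}

/-- sign of a bit -/
def sg (b : Bool) : ℝ := if b then 1 else -1

lemma sg_mul_self (b : Bool) : sg b * sg b = 1 := by cases b <;> simp [sg]

/-- characters of the cube -/
def chi (S : Finset (Fin n)) (x : Fin n → Bool) : ℝ := ∏ j ∈ S, sg (x j)

lemma chi_eq (S : Finset (Fin n)) (x : Fin n → Bool) :
    chi S x = ∏ j, if j ∈ S then sg (x j) else 1 := by
  rw [chi, Finset.prod_ite_mem, Finset.univ_inter]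

lemma chi_mul (S T : Finset (Fin n)) (x : Fin n → Bool) :
    chi S x * chi T x = chi (symmDiff S T) x := by
  simp only [chi_eq, ← Finset.prod_mul_distrib]
  refine Finset.prod_congr rfl fun j _ => ?_
  by_cases hS : j ∈ S <;> by_cases hT : j ∈ T <;> simp [Finset.mem_symmDiff, hS, hT, sg_mul_self]

lemma chi_mul_self (S : Finset (Fin n)) (x : Fin n → Bool) : chi S x * chi S x = 1 := by
  rw [chi_mul]; simp [chi]

lemma sum_chi (U : Finset (Fin n)) (hU : U ≠ ∅) : ∑ x, chi U x = 0 := by
  simp only [chi_eq]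
  have h := Finset.prod_univ_sum (fun _ : Fin n => (Finset.univ : Finset Bool))
    (fun j b => if j ∈ U then sg b else 1)
  rw [Fintype.piFinset_univ] at h
  rw [← h]
  obtain ⟨j, hj⟩ := Finset.nonempty_iff_ne_empty.mpr hU
  exact Finset.prod_eq_zero (Finset.mem_univ j) (by simp [hj, sg])

lemma card_symmDiff_le (S T : Finset (Fin n)) : (symmDiff S T).card ≤ S.card + T.card :=
  (Finset.card_le_card (Finset.symmDiff_subset_union)).trans (Finset.card_union_le _ _)

/-- functions of degree at most `k` -/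
def Deg (n k : ℕ) : Submodule ℝ ((Fin n → Bool) → ℝ) :=
  Submodule.span ℝ {u | ∃ S : Finset (Fin n), S.card ≤ k ∧ u = chi S}

lemma chi_mem_Deg {k : ℕ} (S : Finset (Fin n)) (h : S.card ≤ k) : chi S ∈ Deg n k :=
  Submodule.subset_span ⟨S, h, rfl⟩

lemma Deg_mul {k l : ℕ} {u v : (Fin n → Bool) → ℝ} (hu : u ∈ Deg n k) (hv : v ∈ Deg n l) :
    u * v ∈ Deg n (k + l) := by
  induction hu using Submodule.span_induction with
  | mem u hu =>
    obtain ⟨S, hS, rfl⟩ := hu
    induction hv using Submodule.span_induction with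
    | mem v hv =>
      obtain ⟨T, hT, rfl⟩ := hv
      have : chi S * chi T = chi (symmDiff S T) := funext fun x => chi_mul S T x
      rw [this]
      exact chi_mem_Deg _ ((card_symmDiff_le S T).trans (add_le_add hS hT))
    | zero => simp
    | add a b _ _ ha hb => rw [mul_add]; exact Submodule.add_mem _ ha hb
    | smul c a _ ha => rw [mul_smul_comm]; exact Submodule.smul_mem _ _ ha
  | zero => simp
  | add a b _ _ ha hb => rw [add_mul]; exact Submodule.add_mem _ ha hb
  | smul c a _ ha => rw [smul_mul_assoc]; exact Submodule.smul_mem _ _ ha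

/-- a linear functional vanishing on low degree characters vanishes on low degree functions -/
lemma sum_mul_eq_zero_of_Deg {k : ℕ} (w : (Fin n → Bool) → ℝ)
    (hw : ∀ S : Finset (Fin n), S.card ≤ k → ∑ x, w x * chi S x = 0)
    {u : (Fin n → Bool) → ℝ} (hu : u ∈ Deg n k) : ∑ x, w x * u x = 0 := by
  induction hu using Submodule.span_induction with
  | mem u hu =>
    obtain ⟨S, hS, rfl⟩ := hu
    exact hw S hS
  | zero => simp
  | add a b _ _ ha hb => simp only [Pi.add_apply, mul_add, Finset.sum_add_distrib, ha, hb, add_zero]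
  | smul c a _ ha =>
    simp only [Pi.smul_apply, smul_eq_mul]
    have : ∀ x, w x * (c * a x) = c * (w x * a x) := fun x => by ring
    simp only [this, ← Finset.mul_sum, ha, mul_zero]

lemma sum_parity_mul {k : ℕ} (hk : k < n) {u : (Fin n → Bool) → ℝ} (hu : u ∈ Deg n k) :
    ∑ x, chi Finset.univ x * u x = 0 := by
  refine sum_mul_eq_zero_of_Deg _ (fun S hS => ?_) hu
  simp only [chi_mul]
  refine sum_chi _ fun h => ?_
  have h' : (Finset.univ : Finset (Fin n)) = S := symmDiff_eq_bot.mp h
  have : S.card = n := by rw [← h']; simp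
  omega

lemma sum_chi_mul_chi (S T : Finset (Fin n)) :
    ∑ x, chi S x * chi T x = if S = T then (2 : ℝ) ^ n else 0 := by
  split_ifs with h
  · subst h; simp [chi_mul_self]
  · simp only [chi_mul]
    exact sum_chi _ fun h' => h (symmDiff_eq_bot.mp h')

/-- the weighted Gram-Schmidt basis adapted to the degree filtration -/
lemma exists_basis (r : (Fin n → Bool) → ℝ) (hr : ∀ x, r x ≠ 0) :
    ∃ B : Matrix (Fin n → Bool) (Finset (Fin n)) ℝ, Bᵀ * B = 1 ∧ B * Bᵀ = 1 ∧
      (∀ S, ∃ u ∈ Deg n S.card, ∀ x, B x S = r x * u x) ∧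
      (∀ (S : Finset (Fin n)) (k : ℕ), k < S.card → ∀ u ∈ Deg n k,
        ∑ x, B x S * r x * u x = 0) := by
  classical
  set N := Fintype.card (Finset (Fin n)) with hN
  let e0 : Fin N ≃ Finset (Fin n) := (Fintype.equivFin (Finset (Fin n))).symm
  let σ : Fin N ≃ Finset (Fin n) := (Tuple.sort (fun i => (e0 i).card)).trans e0
  have hσ : Monotone (fun i => (σ i).card) := Tuple.monotone_sort (fun i => (e0 i).card)
  let v : Fin N → EuclideanSpace ℝ (Fin n → Bool) :=
    fun j => WithLp.toLp 2 (fun x => r x * chi (σ j) x)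
  have hli : LinearIndependent ℝ v := by
    rw [Fintype.linearIndependent_iff]
    intro c hc j
    have h1 : ∀ x, ∑ i, c i * chi (σ i) x = 0 := by
      intro x
      have := congrArg (fun w : EuclideanSpace ℝ (Fin n → Bool) => w x) hc
      simp only [v, WithLp.ofLp_sum, WithLp.ofLp_smul, Finset.sum_apply, Pi.smul_apply,
        smul_eq_mul, PiLp.zero_apply] at this
      have h2 : r x * ∑ i, c i * chi (σ i) x = 0 := by
        rw [← this, Finset.mul_sum]
        exact Finset.sum_congr rfl fun i _ => by ring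
      exact (mul_eq_zero.mp h2).resolve_left (hr x)
    have h3 : ∑ x, (∑ i, c i * chi (σ i) x) * chi (σ j) x = 0 := by simp [h1]
    simp only [Finset.sum_mul] at h3
    rw [Finset.sum_comm] at h3
    simp only [mul_assoc, ← Finset.mul_sum, sum_chi_mul_chi, EmbeddingLike.apply_eq_iff_eq] at h3
    simpa using h3
  let b := InnerProductSpace.gramSchmidtNormed ℝ v
  have hb : Orthonormal ℝ b := InnerProductSpace.gramSchmidtNormed_orthonormal hli
  let B : Matrix (Fin n → Bool) (Finset (Fin n)) ℝ := Matrix.of fun x S => b (σ.symm S) x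
  have hB : Bᵀ * B = 1 := by
    ext S T
    have h := (orthonormal_iff_ite.mp hb) (σ.symm S) (σ.symm T)
    simp only [EmbeddingLike.apply_eq_iff_eq, PiLp.inner_apply] at h
    simp only [Matrix.mul_apply, Matrix.transpose_apply, B, Matrix.of_apply, Matrix.one_apply]
    rw [← h]
    refine Finset.sum_congr rfl fun x _ => ?_
    simp [mul_comm]
  have hB' : B * Bᵀ = 1 := by
    refine (Matrix.mul_eq_one_comm_of_card_eq _ _ _ ?_).mp hB
    simp
  refine ⟨B, hB, hB', fun S => ?_, fun S k hk u hu => ?_⟩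
  · have hmem : b (σ.symm S) ∈ Submodule.span ℝ (v '' Set.Iic (σ.symm S)) :=
      Submodule.smul_mem _ _ (InnerProductSpace.gramSchmidt_mem_span ℝ v le_rfl)
    have key : ∀ w ∈ Submodule.span ℝ (v '' Set.Iic (σ.symm S)),
        ∃ u ∈ Deg n S.card, ∀ x, w x = r x * u x := by
      intro w hw
      induction hw using Submodule.span_induction with
      | mem w hw =>
        obtain ⟨i, hi, rfl⟩ := hw
        refine ⟨chi (σ i), chi_mem_Deg _ ?_, fun x => rfl⟩
        have := hσ hi
        simpa using this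
      | zero => exact ⟨0, Submodule.zero_mem _, by simp⟩
      | add a a' _ _ ha ha' =>
        obtain ⟨u, hu, hu'⟩ := ha
        obtain ⟨u', hv, hv'⟩ := ha'
        exact ⟨u + u', Submodule.add_mem _ hu hv, fun x => by simp [hu', hv', mul_add]⟩
      | smul c a _ ha =>
        obtain ⟨u, hu, hu'⟩ := ha
        exact ⟨c • u, Submodule.smul_mem _ _ hu, fun x => by simp [hu']; ring⟩
    exact key _ hmem
  · refine sum_mul_eq_zero_of_Deg (fun x => B x S * r x) (fun T hT => ?_) hu
    have hlt : σ.symm T < σ.symm S := by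
      by_contra hc
      have := hσ (not_lt.mp hc)
      simp only [Equiv.apply_symm_apply] at this
      omega
    have h := InnerProductSpace.gramSchmidt_inv_triangular ℝ v hlt
    have h2 : inner ℝ (b (σ.symm S)) (v (σ.symm T)) = 0 := by
      simp only [b, InnerProductSpace.gramSchmidtNormed, inner_smul_left, h, mul_zero]
    rw [PiLp.inner_apply] at h2
    rw [← h2]
    refine Finset.sum_congr rfl fun x _ => ?_
    simp [B, v]
    ring

lemma sum_powerset_sq {α : Type*} [DecidableEq α] (s : Finset α) :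
    ∑ S ∈ s.powerset, ((S.card : ℝ) - s.card / 2) ^ 2 = (s.card : ℝ) * 2 ^ s.card / 4 := by
  induction s using Finset.induction_on with
  | empty => simp
  | insert a s ha ih =>
    rw [Finset.sum_powerset_insert ha, Finset.card_insert_of_notMem ha]
    have h1 : ∑ S ∈ s.powerset, (((insert a S).card : ℝ) - ((s.card + 1 : ℕ) : ℝ) / 2) ^ 2 =
        ∑ S ∈ s.powerset, ((S.card : ℝ) + 1 - ((s.card + 1 : ℕ) : ℝ) / 2) ^ 2 := by
      refine Finset.sum_congr rfl fun S hS => ?_
      rw [Finset.card_insert_of_notMem (fun h => ha (Finset.mem_powerset.mp hS h))]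
      push_cast; ring
    rw [h1, ← Finset.sum_add_distrib]
    have h2 : ∀ S : Finset α, ((S.card : ℝ) - ((s.card + 1 : ℕ) : ℝ) / 2) ^ 2 +
        ((S.card : ℝ) + 1 - ((s.card + 1 : ℕ) : ℝ) / 2) ^ 2 =
        2 * ((S.card : ℝ) - s.card / 2) ^ 2 + 1 / 2 := by
      intro S; push_cast; ring
    simp only [h2, Finset.sum_add_distrib, ← Finset.mul_sum, ih, Finset.sum_const,
      Finset.card_powerset, nsmul_eq_mul]
    push_cast; ring

lemma sum_e_sq : ∑ S : Finset (Fin n), ((S.card : ℝ) - n / 2) ^ 2 = (n : ℝ) * 2 ^ n / 4 := by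
  have h := sum_powerset_sq (Finset.univ : Finset (Fin n))
  simpa using h

lemma sum_abs_e (hn : 1 ≤ n) :
    ∑ S : Finset (Fin n), |(S.card : ℝ) - n / 2| ≤ Real.sqrt n * 2 ^ n / 2 := by
  have hs : 0 < Real.sqrt n := Real.sqrt_pos.mpr (by exact_mod_cast hn)
  have hsq : Real.sqrt n * Real.sqrt n = n := Real.mul_self_sqrt (by positivity)
  have h1 : ∀ a : ℝ, |a| ≤ a ^ 2 / Real.sqrt n + Real.sqrt n / 4 := by
    intro a
    rw [← sq_abs a, div_add' _ _ _ hs.ne', le_div_iff₀ hs]
    nlinarith [sq_nonneg (|a| - Real.sqrt n / 2)]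
  refine (Finset.sum_le_sum fun S _ => h1 _).trans (le_of_eq ?_)
  rw [Finset.sum_add_distrib, ← Finset.sum_div, sum_e_sq]
  simp only [Finset.sum_const, Finset.card_univ, Fintype.card_finset, Fintype.card_fin,
    nsmul_eq_mul]
  push_cast
  field_simp
  nlinarith [hsq]

end Crest.Agent.H9PTF
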