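import Crest.Agent.H9.ZD0
import Crest.Agent.H6.SC7

/-! First moment, part 1: abstract patterns and the layer-cake inequalities. -/

namespace Crest.Agent.H9.ZD

open Finset

set_option linter.unusedSectionVars false

/-- an abstract pattern -/
structure Ab (P Y : Type) where
  T : Finset P
  ρ : P → P
  cL : P → P
  cC : P → P
  a : P → P
  ν : P → P
  ν' : P → P
  Z : Finset P
  Z' : Finset P
  ly : P → Y
  rt : Finset P

namespace Ab
variable {P Y : Type} [DecidableEq P] (A : Ab P Y)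

def lv (t : P) : P := A.ρ (A.cL t)
def cv (t : P) : P := A.ρ (A.cC t)
def ae (t : P) : P × P := (A.lv t, A.cv t)
def mu (t : P) : ℕ := (A.T.filter fun t' => A.ae t' = A.ae t).card
def Tj (j : ℕ) : Finset P := A.T.filter fun t => j ≤ A.mu t

/-- label classes -/
def cls : Setoid P :=
  Relation.EqvGen.setoid fun t t' => t ∈ A.T ∧ t' ∈ A.T ∧ (A.ae t' = A.ae t ∨ t' = A.a t)

def cl (t : P) : Quotient A.cls := Quotient.mk _ t

structure WF : Prop where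
  a_mem : ∀ t ∈ A.T, A.a t ∈ A.T
  a_a : ∀ t ∈ A.T, A.a (A.a t) = t
  a_ne : ∀ t ∈ A.T, A.a t ≠ t → A.ae (A.a t) ≠ A.ae t
  cL_inj : ∀ t ∈ A.T, ∀ t' ∈ A.T, A.ae t = A.ae t' → A.cL t = A.cL t' → t = t'
  cC_inj : ∀ t ∈ A.T, ∀ t' ∈ A.T, A.ae t = A.ae t' → A.cC t = A.cC t' → t = t'
  ν_Z : ∀ t ∈ A.T, t ∉ A.Z → A.ν t ∉ A.Z
  ν_cv : ∀ t ∈ A.T, t ∉ A.Z → A.cv (A.ν t) = A.cv t ∧ A.lv (A.ν t) ≠ A.lv t
  ν_ae : ∀ t ∈ A.T, t ∉ A.Z → ∀ t' ∈ A.T, A.ae t' = A.ae t →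
    A.ν t' ∈ A.T ∧ A.ae (A.ν t') = A.ae (A.ν t) ∧ A.ν (A.ν t') = t'
  ν_a : ∀ t ∈ A.T, t ∉ A.Z → A.a (A.ν t) = A.ν (A.a t)
  ν'_lv : ∀ t ∈ A.T, t ∉ A.Z' → A.lv (A.ν' t) = A.lv t ∧ A.cv (A.ν' t) ≠ A.cv t
  ν'_ae : ∀ t ∈ A.T, t ∉ A.Z' → ∀ t' ∈ A.T, A.ae t' = A.ae t →
    A.ν' t' ∈ A.T ∧ A.ae (A.ν' t') = A.ae (A.ν' t) ∧ A.ν' (A.ν' t') = t'

variable {A}

theorem mem_Tj {j : ℕ} {t : P} : t ∈ A.Tj j ↔ t ∈ A.T ∧ j ≤ A.mu t := mem_filter

theorem mu_pos {t : P} (ht : t ∈ A.T) : 1 ≤ A.mu t :=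
  card_pos.2 ⟨t, mem_filter.2 ⟨ht, rfl⟩⟩

theorem Tj_one : A.Tj 1 = A.T := by
  ext t; rw [mem_Tj]; exact ⟨fun h => h.1, fun h => ⟨h, mu_pos h⟩⟩

theorem mu_congr {t t' : P} (h : A.ae t' = A.ae t) : A.mu t' = A.mu t := by
  unfold mu; rw [h]

/-- layer-cake, upper bound -/
theorem cake_le {β : Type} [DecidableEq β] (f : P → β) (c J : ℕ) (w : β → ℕ)
    (h : ∀ t ∈ A.T, c * A.mu t ≤ w (f t)) :
    c * ∑ j ∈ Icc 1 J, ((A.Tj j).image f).card ≤ ∑ y ∈ A.T.image f, w y := by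
  have h1 : ∀ j, ((A.Tj j).image f).card =
      ∑ y ∈ A.T.image f, if y ∈ (A.Tj j).image f then 1 else 0 := by
    intro j
    rw [← card_filter]
    congr 1
    ext y
    simp only [mem_filter]
    exact ⟨fun k => ⟨image_subset_image (filter_subset _ _) k, k⟩, fun k => k.2⟩
  simp only [h1]
  rw [sum_comm, mul_sum]
  refine sum_le_sum fun y hy => ?_
  obtain ⟨t, ht, hmax⟩ := exists_max_image (A.T.filter fun t => f t = y) A.mu (by
    obtain ⟨t, ht, rfl⟩ := mem_image.1 hy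
    exact ⟨t, mem_filter.2 ⟨ht, rfl⟩⟩)
  obtain ⟨ht1, ht2⟩ := mem_filter.1 ht
  rw [← card_filter]
  refine le_trans (Nat.mul_le_mul_left c ?_) (ht2 ▸ h t ht1)
  have : ((Icc 1 J).filter fun j => y ∈ (A.Tj j).image f) ⊆ Icc 1 (A.mu t) := by
    intro j hj
    obtain ⟨h1, h2⟩ := mem_filter.1 hj
    obtain ⟨u, hu, rfl⟩ := mem_image.1 h2
    obtain ⟨hu1, hu2⟩ := mem_Tj.1 hu
    exact mem_Icc.2 ⟨(mem_Icc.1 h1).1, hu2.trans (hmax u (mem_filter.2 ⟨hu1, rfl⟩))⟩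
  simpa using card_le_card this

/-- layer-cake, lower bound for the edges -/
theorem cake_ge (J : ℕ) (hJ : ∀ t ∈ A.T, A.mu t ≤ J) :
    A.T.card ≤ ∑ j ∈ Icc 1 J, ((A.Tj j).image A.ae).card := by
  have h1 : ∀ j, ((A.Tj j).image A.ae).card =
      ∑ y ∈ A.T.image A.ae, if y ∈ (A.Tj j).image A.ae then 1 else 0 := by
    intro j
    rw [← card_filter]
    congr 1
    ext y
    simp only [mem_filter]
    exact ⟨fun k => ⟨image_subset_image (filter_subset _ _) k, k⟩, fun k => k.2⟩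
  simp only [h1]
  rw [sum_comm, card_eq_sum_card_image A.ae A.T]
  refine sum_le_sum fun y hy => ?_
  obtain ⟨t, ht, rfl⟩ := mem_image.1 hy
  rw [← card_filter]
  have : Icc 1 (A.mu t) ⊆ (Icc 1 J).filter fun j => A.ae t ∈ (A.Tj j).image A.ae := by
    intro j hj
    obtain ⟨h1, h2⟩ := mem_Icc.1 hj
    exact mem_filter.2 ⟨mem_Icc.2 ⟨h1, h2.trans (hJ t ht)⟩,
      mem_image_of_mem _ (mem_Tj.2 ⟨ht, h2⟩)⟩
  simpa [mu] using card_le_card this

theorem sum_vert (cX : P → P)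
    (hinj : ∀ t ∈ A.T, ∀ t' ∈ A.T, A.ae t = A.ae t' → cX t = cX t' → t = t')
    (hdep : ∀ t t', A.ae t = A.ae t' → A.ρ (cX t) = A.ρ (cX t')) (J : ℕ) :
    ∑ j ∈ Icc 1 J, ((A.Tj j).image fun t => A.ρ (cX t)).card ≤ (A.T.image cX).card := by
  have := cake_le (A := A) (fun t => A.ρ (cX t)) 1 J
    (fun y => ((A.T.image cX).filter fun u => A.ρ u = y).card) (by
      intro t ht
      rw [one_mul]
      refine card_le_card_of_injOn cX (fun t' ht' => ?_) (fun t₁ h₁ t₂ h₂ e => ?_)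
      · obtain ⟨h1, h2⟩ := mem_filter.1 ht'
        exact mem_coe.2 (mem_filter.2 ⟨mem_image_of_mem _ h1, hdep _ _ h2⟩)
      · obtain ⟨k1, k2⟩ := mem_filter.1 h₁
        obtain ⟨k3, k4⟩ := mem_filter.1 h₂
        exact hinj _ k1 _ k3 (k2.trans k4.symm) e)
  rw [one_mul] at this
  refine this.trans (le_of_eq ?_)
  rw [card_eq_sum_card_fiberwise (f := A.ρ) (t := A.T.image fun t => A.ρ (cX t))]
  intro u hu
  obtain ⟨t, ht, rfl⟩ := mem_image.1 hu
  exact mem_coe.2 (mem_image_of_mem _ ht)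

theorem sum_C (h : A.WF) (J : ℕ) :
    ∑ j ∈ Icc 1 J, ((A.Tj j).image A.cv).card ≤ (A.T.image A.cC).card :=
  sum_vert A.cC h.cC_inj (fun _ _ e => congrArg Prod.snd e) J

theorem sum_L (h : A.WF) (J : ℕ) (hJ : 1 ≤ J) :
    ∑ j ∈ Icc 1 J, ((A.Tj j).image A.lv \ A.rt).card + (A.T.image A.lv ∩ A.rt).card ≤
      (A.T.image A.cL).card := by
  refine le_trans ?_ (sum_vert A.cL h.cL_inj (fun _ _ e => congrArg Prod.fst e) J)
  have h1 : 1 ∈ Icc 1 J := mem_Icc.2 ⟨le_rfl, hJ⟩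
  rw [← add_sum_erase _ _ h1, ← add_sum_erase _ _ h1, Tj_one]
  have h2 := card_sdiff_add_card_inter (A.T.image A.lv) A.rt
  have h3 : ∑ j ∈ (Icc 1 J).erase 1, ((A.Tj j).image A.lv \ A.rt).card ≤
      ∑ j ∈ (Icc 1 J).erase 1, ((A.Tj j).image A.lv).card :=
    sum_le_sum fun j _ => card_le_card sdiff_subset
  change _ ≤ (A.T.image A.lv).card + ∑ j ∈ (Icc 1 J).erase 1, ((A.Tj j).image A.lv).card
  omega

theorem cl_ae {t t' : P} (ht : t ∈ A.T) (ht' : t' ∈ A.T) (h : A.ae t' = A.ae t) :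
    A.cl t' = A.cl t :=
  (Quotient.sound (Relation.EqvGen.rel _ _ ⟨ht, ht', Or.inl h⟩)).symm

theorem cl_a (h : A.WF) {t : P} (ht : t ∈ A.T) : A.cl (A.a t) = A.cl t :=
  (Quotient.sound (Relation.EqvGen.rel _ _ ⟨ht, h.a_mem t ht, Or.inr rfl⟩)).symm

open Classical in
theorem sum_F (h : A.WF) (J : ℕ) :
    2 * ∑ j ∈ Icc 1 J, ((A.Tj j).image A.cl).card ≤
      A.T.card + (A.T.filter fun t => A.a t = t).card := by
  have := cake_le (A := A) A.cl 2 J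
    (fun y => (A.T.filter fun u => A.cl u = y).card +
      ((A.T.filter fun t => A.a t = t).filter fun u => A.cl u = y).card) (by
      intro t ht
      let U := A.T.filter fun t' => A.ae t' = A.ae t
      let Cl := A.T.filter fun u => A.cl u = A.cl t
      have hU : U ⊆ Cl := fun u hu =>
        mem_filter.2 ⟨(mem_filter.1 hu).1, cl_ae ht (mem_filter.1 hu).1 (mem_filter.1 hu).2⟩
      have h1 : (U.filter fun u => ¬ A.a u = u).card ≤ (Cl \ U).card := by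
        refine card_le_card_of_injOn A.a (fun u hu => ?_) (fun u₁ h₁ u₂ h₂ e => ?_)
        · obtain ⟨k1, k2⟩ := mem_filter.1 hu
          obtain ⟨k3, k4⟩ := mem_filter.1 k1
          refine mem_coe.2 (mem_sdiff.2 ⟨mem_filter.2 ⟨h.a_mem u k3, ?_⟩, fun k => ?_⟩)
          · rw [cl_a h k3, cl_ae ht k3 k4]
          · exact h.a_ne u k3 k2 ((mem_filter.1 k).2.trans k4.symm)
        · rw [← h.a_a u₁ (mem_filter.1 (mem_filter.1 h₁).1).1, e,
            h.a_a u₂ (mem_filter.1 (mem_filter.1 h₂).1).1]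
      have h2 : (U.filter fun u => A.a u = u).card ≤
          ((A.T.filter fun t => A.a t = t).filter fun u => A.cl u = A.cl t).card := by
        refine card_le_card fun u hu => ?_
        obtain ⟨k1, k2⟩ := mem_filter.1 hu
        exact mem_filter.2 ⟨mem_filter.2 ⟨(mem_filter.1 k1).1, k2⟩, (mem_filter.1 (hU k1)).2⟩
      have h3 := card_filter_add_card_filter_not (s := U) fun u => A.a u = u
      have h4 := card_sdiff_add_card_eq_card hU
      change 2 * U.card ≤ Cl.card + _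
      omega)
  refine this.trans (le_of_eq ?_)
  rw [sum_add_distrib, ← card_eq_sum_card_image A.cl A.T,
    ← card_eq_sum_card_fiberwise (f := A.cl) (t := A.T.image A.cl)]
  intro u hu
  exact mem_coe.2 (mem_image_of_mem _ (mem_filter.1 hu).1)

theorem ν_Tj (h : A.WF) {j : ℕ} {t : P} (ht : t ∈ A.Tj j) (hz : t ∉ A.Z) : A.ν t ∈ A.Tj j := by
  obtain ⟨h1, h2⟩ := mem_Tj.1 ht
  refine mem_Tj.2 ⟨(h.ν_ae t h1 hz t h1 rfl).1, h2.trans ?_⟩
  refine card_le_card_of_injOn A.ν (fun u hu => ?_) (fun u₁ h₁ u₂ h₂ e => ?_)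
  · obtain ⟨k1, k2⟩ := mem_filter.1 hu
    exact mem_coe.2 (mem_filter.2 ⟨(h.ν_ae t h1 hz u k1 k2).1, (h.ν_ae t h1 hz u k1 k2).2.1⟩)
  · obtain ⟨k1, k2⟩ := mem_filter.1 h₁
    obtain ⟨k3, k4⟩ := mem_filter.1 h₂
    rw [← (h.ν_ae t h1 hz u₁ k1 k2).2.2, e, (h.ν_ae t h1 hz u₂ k3 k4).2.2]

theorem ν'_Tj (h : A.WF) {j : ℕ} {t : P} (ht : t ∈ A.Tj j) (hz : t ∉ A.Z') : A.ν' t ∈ A.Tj j := by
  obtain ⟨h1, h2⟩ := mem_Tj.1 ht
  refine mem_Tj.2 ⟨(h.ν'_ae t h1 hz t h1 rfl).1, h2.trans ?_⟩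
  refine card_le_card_of_injOn A.ν' (fun u hu => ?_) (fun u₁ h₁ u₂ h₂ e => ?_)
  · obtain ⟨k1, k2⟩ := mem_filter.1 hu
    exact mem_coe.2 (mem_filter.2 ⟨(h.ν'_ae t h1 hz u k1 k2).1, (h.ν'_ae t h1 hz u k1 k2).2.1⟩)
  · obtain ⟨k1, k2⟩ := mem_filter.1 h₁
    obtain ⟨k3, k4⟩ := mem_filter.1 h₂
    rw [← (h.ν'_ae t h1 hz u₁ k1 k2).2.2, e, (h.ν'_ae t h1 hz u₂ k3 k4).2.2]

variable (A) in
/-- the class of `t` contains no broken side -/
def Good (t : P) : Prop := t ∈ A.T ∧ ∀ u ∈ A.T, A.cl u = A.cl t → u ∉ A.Z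

theorem Good.of_cl {t u : P} (h : A.Good t) (hu : u ∈ A.T) (e : A.cl u = A.cl t) : A.Good u :=
  ⟨hu, fun v hv k => h.2 v hv (k.trans e)⟩

theorem Good.nz {t : P} (h : A.Good t) : t ∉ A.Z := h.2 t h.1 rfl

theorem cls_mem {t u : P} (e : A.cls t u) : t ∈ A.T ↔ u ∈ A.T := by
  induction e with
  | rel _ _ k => exact ⟨fun _ => k.2.1, fun _ => k.1⟩
  | refl => rfl
  | symm _ _ _ ih => exact ih.symm
  | trans _ _ _ _ _ ih ih' => exact ih.trans ih'

theorem ν_cl (h : A.WF) {t u : P} (e : A.cl t = A.cl u) (ht : A.Good t) :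
    A.cl (A.ν t) = A.cl (A.ν u) := by
  have e' : A.cls t u := Quotient.exact e
  clear e
  have key : ∀ t u, A.cls t u → (A.Good t ∨ A.Good u) → A.cl (A.ν t) = A.cl (A.ν u) := by
    intro t u e
    induction e with
    | rel x y k =>
      intro hg
      have hx : A.Good x := hg.elim id fun hy =>
        hy.of_cl k.1 (Quotient.sound (Relation.EqvGen.rel _ _ k))
      have m1 := (h.ν_ae x k.1 hx.nz x k.1 rfl).1
      rcases k.2.2 with k' | k'
      · have := h.ν_ae x k.1 hx.nz y k.2.1 k'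
        exact (cl_ae m1 this.1 this.2.1).symm
      · rw [k', ← h.ν_a x k.1 hx.nz, cl_a h m1]
    | refl => intro; rfl
    | symm _ _ _ ih => exact fun hg => (ih hg.symm).symm
    | trans x y z k k' ih ih' =>
      intro hg
      have hy : A.Good y := hg.elim
        (fun hx => hx.of_cl ((cls_mem k).1 hx.1) (Quotient.sound k).symm)
        (fun hz => hz.of_cl ((cls_mem k').2 hz.1) (Quotient.sound k'))
      exact (ih (Or.inr hy)).trans (ih' (Or.inl hy))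
  exact key t u e' (Or.inl ht)

theorem ν_ν (h : A.WF) {t : P} (ht : A.Good t) : A.ν (A.ν t) = t :=
  (h.ν_ae t ht.1 ht.nz t ht.1 rfl).2.2

theorem Good.ν (h : A.WF) {t : P} (ht : A.Good t) : A.Good (A.ν t) := by
  refine ⟨(h.ν_ae t ht.1 ht.nz t ht.1 rfl).1, fun u hu e => ?_⟩
  have e' : A.cls (A.ν t) u := Quotient.exact e.symm
  let Q : P → Prop := fun s => ∃ v ∈ A.T, A.cl v = A.cl t ∧ s = A.ν v
  have step : ∀ x y, x ∈ A.T → y ∈ A.T → (A.ae y = A.ae x ∨ y = A.a x) → Q x → Q y := by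
    rintro x y hx hy k ⟨v, hv, e1, rfl⟩
    have gv := ht.of_cl hv e1
    have nz := h.ν_Z v hv gv.nz
    rcases k with k | k
    · have := h.ν_ae _ hx nz y hy k
      rw [ν_ν h gv] at this
      exact ⟨A.ν y, this.1, (cl_ae hv this.1 this.2.1).trans e1, this.2.2.symm⟩
    · exact ⟨A.a v, h.a_mem v hv, (cl_a h hv).trans e1, k.trans (h.ν_a v hv gv.nz)⟩
  have key : ∀ x y, A.cls x y → (Q x ↔ Q y) := by
    intro x y e
    induction e with
    | rel x y k =>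
      refine ⟨step x y k.1 k.2.1 k.2.2, step y x k.2.1 k.1 ?_⟩
      rcases k.2.2 with k' | k'
      · exact Or.inl k'.symm
      · exact Or.inr (by rw [k', h.a_a x k.1])
    | refl => rfl
    | symm _ _ _ ih => exact ih.symm
    | trans _ _ _ _ _ ih ih' => exact ih.trans ih'
  obtain ⟨v, hv, e1, rfl⟩ := (key _ _ e').1 ⟨t, ht.1, rfl, rfl⟩
  exact h.ν_Z v hv (ht.of_cl hv e1).nz

open Classical in
/-- representatives of half of the good classes -/
theorem exists_Rp (h : A.WF) (hne : ∀ t, A.Good t → A.cl (A.ν t) ≠ A.cl t) (j : ℕ) :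
    ∃ Rp : Finset P, (∀ t ∈ Rp, t ∈ A.T ∧ t ∉ A.Z) ∧
      2 * Rp.card ≤ ((A.Tj j).image A.cl).card ∧
      ∀ t ∈ A.Tj j, (∃ u ∈ A.Z ∩ A.T, A.cl u = A.cl t) ∨
        ∃ u ∈ Rp, A.cl u = A.cl t ∨ A.cl (A.ν u) = A.cl t := by
  let G := (A.Tj j).image A.cl
  let f : Quotient A.cls → ℕ := fun q => if k : q ∈ G then (G.equivFin ⟨q, k⟩ : ℕ) else 0
  have finj : ∀ q ∈ G, ∀ q' ∈ G, f q = f q' → q = q' := by
    intro q hq q' hq' e
    simp only [f, dif_pos hq, dif_pos hq'] at e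
    exact congrArg Subtype.val (G.equivFin.injective (Fin.ext e))
  let H := (A.Tj j).filter fun t => A.Good t ∧ f (A.cl t) < f (A.cl (A.ν t))
  obtain ⟨Rp, hsub, hinj, himg⟩ := exists_subset_injOn_image_eq_of_surjOn (f := A.cl) (H : Set P)
    (H.image A.cl) (by rw [coe_image]; exact Set.surjOn_image _ _)
  have hH : ∀ t ∈ Rp, t ∈ A.Tj j ∧ A.Good t ∧ f (A.cl t) < f (A.cl (A.ν t)) := fun t ht =>
    mem_filter.1 (mem_coe.1 (hsub ht))
  refine ⟨Rp, fun t ht => ⟨(hH t ht).2.1.1, (hH t ht).2.1.nz⟩, ?_, fun t ht => ?_⟩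
  · have h1 : (Rp.image A.cl).card = Rp.card := card_image_of_injOn hinj
    have h2 : (Rp.image fun t => A.cl (A.ν t)).card = Rp.card := by
      refine card_image_of_injOn fun t ht u hu e => hinj ht hu ?_
      have := ν_cl h e ((hH t ht).2.1.ν h)
      rwa [ν_ν h (hH t ht).2.1, ν_ν h (hH u hu).2.1] at this
    have h3 : Disjoint (Rp.image A.cl) (Rp.image fun t => A.cl (A.ν t)) := by
      rw [disjoint_left]
      intro q hq hq'
      obtain ⟨u, hu, rfl⟩ := mem_image.1 hq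
      obtain ⟨t, ht, e⟩ := mem_image.1 hq'
      have e2 := ν_cl h e ((hH t ht).2.1.ν h)
      rw [ν_ν h (hH t ht).2.1] at e2
      have k1 := (hH t ht).2.2
      have k2 := (hH u hu).2.2
      rw [e] at k1
      rw [← e2] at k2
      omega
    have h4 : Rp.image A.cl ∪ (Rp.image fun t => A.cl (A.ν t)) ⊆ G := by
      refine union_subset (fun q hq => ?_) (fun q hq => ?_) <;>
        obtain ⟨u, hu, rfl⟩ := mem_image.1 hq
      · exact mem_image_of_mem _ (hH u hu).1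
      · exact mem_image_of_mem _ (ν_Tj h (hH u hu).1 (hH u hu).2.1.nz)
    have h5 := card_le_card h4
    rw [card_union_of_disjoint h3] at h5
    change _ ≤ G.card
    omega
  · by_cases hg : A.Good t
    · right
      have hν := ν_Tj h ht hg.nz
      have hf : f (A.cl t) ≠ f (A.cl (A.ν t)) := fun e =>
        hne t hg (finj _ (mem_image_of_mem _ ht) _ (mem_image_of_mem _ hν) e).symm
      rcases lt_or_gt_of_ne hf with k | k
      · have : A.cl t ∈ Rp.image A.cl := by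
          rw [himg]; exact mem_image_of_mem _ (mem_filter.2 ⟨ht, hg, k⟩)
        obtain ⟨u, hu, e⟩ := mem_image.1 this
        exact ⟨u, hu, Or.inl e⟩
      · have : A.cl (A.ν t) ∈ Rp.image A.cl := by
          rw [himg]
          exact mem_image_of_mem _ (mem_filter.2 ⟨hν, hg.ν h, by rwa [ν_ν h hg]⟩)
        obtain ⟨u, hu, e⟩ := mem_image.1 this
        refine ⟨u, hu, Or.inr ?_⟩
        rw [ν_cl h e (hH u hu).2.1, ν_ν h hg]
    · left
      simp only [Good, not_and, not_forall, not_not] at hg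
      obtain ⟨u, hu, e, hz⟩ := hg (mem_Tj.1 ht).1
      exact ⟨u, mem_inter.2 ⟨hz, hu⟩, e⟩

end Ab

end Crest.Agent.H9.ZD
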