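import Crest.Agent.H9.ZC1

/-! First moment, part 2: the number of realisations of one layer of a pattern. -/

namespace Crest.Agent.H9.ZD

open Finset Crest.Agent.H6.SC

set_option linter.unusedSectionVars false

variable {P Y I V : Type} [DecidableEq P] [DecidableEq Y] [Fintype I] [DecidableEq I] [Fintype V]
  [DecidableEq V]

/-- realisation of a pattern in a graph -/
structure Ab.Real (A : Ab P Y) (lay : V → Y) (r : V) (E : Finset (V × I × V)) (X : P → V)
    (lam : P → I) : Prop where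
  mem : ∀ t ∈ A.T, (X (A.lv t), lam t, X (A.cv t)) ∈ E
  lam_a : ∀ t ∈ A.T, lam (A.a t) = lam t
  ly : ∀ t ∈ A.T, lay (X (A.lv t)) = A.ly t
  rt : ∀ x ∈ A.rt, X x = r
  injL : ∀ t ∈ A.T, ∀ t' ∈ A.T, X (A.lv t) = X (A.lv t') → A.lv t = A.lv t'
  injC : ∀ t ∈ A.T, ∀ t' ∈ A.T, X (A.cv t) = X (A.cv t') → A.cv t = A.cv t'

variable {link : V → Finset (I × Bool)} {lay : V → Y} {g : ℕ} {E : Finset (V × I × V)}

theorem label_unique (hE : OK link lay g E) (hg : 3 ≤ g) {v c : V} {p p' : I}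
    (h : (v, p, c) ∈ E) (h' : (v, p', c) ∈ E) : p = p' := by
  by_contra hne
  have := hE.gir v [(p, true), (p', false)] (by
    unfold FreeGroup.IsReduced
    simp [hne]) (by simp) ⟨c, h, v, h', rfl⟩
  simp at this
  omega

namespace Ab
variable {A : Ab P Y} {r : V} {X : P → V} {lam : P → I}

theorem Real.lam_ae (hE : OK link lay g E) (hg : 3 ≤ g) (h : A.Real lay r E X lam) {t t' : P}
    (ht : t ∈ A.T) (ht' : t' ∈ A.T) (e : A.ae t' = A.ae t) : lam t' = lam t := by
  have h1 := h.mem t ht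
  have h2 := h.mem t' ht'
  rw [show A.lv t' = A.lv t from congrArg Prod.fst e,
    show A.cv t' = A.cv t from congrArg Prod.snd e] at h2
  exact label_unique hE hg h2 h1

theorem Real.lam_cl (hE : OK link lay g E) (hg : 3 ≤ g) (h : A.Real lay r E X lam) {t t' : P}
    (e : A.cl t = A.cl t') : lam t = lam t' := by
  have e' : A.cls t t' := Quotient.exact e
  clear e
  induction e' with
  | rel x y k =>
    rcases k.2.2 with k' | k'
    · exact (h.lam_ae hE hg k.1 k.2.1 k').symm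
    · rw [k', h.lam_a x k.1]
  | refl => rfl
  | symm _ _ _ ih => exact ih.symm
  | trans _ _ _ _ _ ih ih' => exact ih.trans ih'

theorem Real.lam_ν (hA : A.WF) (hE : OK link lay g E) (h : A.Real lay r E X lam) {t : P}
    (ht : t ∈ A.T) (hz : t ∉ A.Z) : lam (A.ν t) ≠ lam t := by
  intro e
  have m := (hA.ν_ae t ht hz t ht rfl).1
  have h1 := h.mem t ht
  have h2 := h.mem _ m
  rw [e, (hA.ν_cv t ht hz).1] at h2
  exact (hA.ν_cv t ht hz).2 (h.injL _ m _ ht (hE.fold _ (lam t, false) _ _ h2 h1))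

theorem Real.lam_ν' (hA : A.WF) (hE : OK link lay g E) (h : A.Real lay r E X lam) {t : P}
    (ht : t ∈ A.T) (hz : t ∉ A.Z') : lam (A.ν' t) ≠ lam t := by
  intro e
  have m := (hA.ν'_ae t ht hz t ht rfl).1
  have h1 := h.mem t ht
  have h2 := h.mem _ m
  rw [e, (hA.ν'_lv t ht hz).1] at h2
  exact (hA.ν'_lv t ht hz).2 (h.injC _ m _ ht (hE.fold _ (lam t, true) _ _ h2 h1))

open Classical in
variable (A) in
/-- the bound for the number of realisations of layer `j` -/
noncomputable def W (nI NA s n j : ℕ) : ℕ :=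
  (nI ^ A.Z.card * NA ^ (((A.Tj j).image A.cl).card / 2)) *
    ((n ^ ((A.Tj j).image A.lv \ A.rt).card * (s + 1) ^ A.Z'.card) *
      ((s + 1) * n) ^ ((A.Tj j).image A.cv).card)

open Classical in
theorem layer_count (hA : A.WF) (hg : 3 ≤ g) {w m κ s n NA nI : ℕ} {Adm : Finset (I × I)}
    (hw : ∀ v, (link v).card ≤ w)
    (hlo : ∀ y d, 2 * (w + 1) ^ g + κ + m ≤ (slot link lay y d).card)
    (hhi : ∀ y d, (slot link lay y d).card ≤ (s + 1) * n)
    (h2 : ∀ y p p', p ≠ p' → (Finset.univ.filter fun v =>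
        lay v = y ∧ (p, true) ∈ link v ∧ (p', true) ∈ link v).card ≤ n)
    (hadm : ∀ v p p', p ≠ p' → (p, false) ∈ link v → (p', false) ∈ link v → (p, p') ∈ Adm)
    (hNA : Adm.card ≤ NA) (hNA1 : 1 ≤ NA) (hnI : Fintype.card I ≤ nI) (hnI1 : 1 ≤ nI)
    (hm : 1 ≤ m) (hκ : A.T.card ≤ κ) (j : ℕ) :
    ((Om link lay g).filter fun E => ∃ X lam, A.Real lay r E X lam).card *
      m ^ ((A.Tj j).image A.ae).card ≤ A.W nI NA s n j * (Om link lay g).card := by
  rcases ((Om link lay g).filter fun E => ∃ X lam, A.Real lay r E X lam).eq_empty_or_nonempty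
    with h0 | ⟨E₀, hE₀⟩
  · rw [h0]; simp
  obtain ⟨hE₀, X₀, lam₀, hR₀⟩ := mem_filter.1 hE₀
  have hE₀' := (mem_Om.1 hE₀).1
  obtain ⟨Rp, hRp1, hRp2, hRp3⟩ := exists_Rp hA (fun t ht e =>
    hR₀.lam_ν hA hE₀' ht.1 ht.nz (hR₀.lam_cl hE₀' hg e)) j
  let Bd := A.Z ∩ A.T
  let code : (P → I) → (Bd → I) × (Rp → I × I) := fun lam =>
    (fun t => lam t, fun t => (lam t, lam (A.ν t)))
  let Rl : (P → I) → Prop := fun lam => ∃ E ∈ Om link lay g, ∃ X, A.Real lay r E X lam
  have code_eq : ∀ lam lam', Rl lam → Rl lam' → code lam = code lam' →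
      ∀ t ∈ A.Tj j, lam t = lam' t := by
    rintro lam lam' ⟨E, hE, X, hR⟩ ⟨E', hE', X', hR'⟩ e t ht
    have k := (mem_Om.1 hE).1
    have k' := (mem_Om.1 hE').1
    rcases hRp3 t ht with ⟨u, hu, e1⟩ | ⟨u, hu, e1 | e1⟩
    · rw [← hR.lam_cl k hg e1, ← hR'.lam_cl k' hg e1]
      exact congrFun (congrArg Prod.fst e) ⟨u, hu⟩
    · rw [← hR.lam_cl k hg e1, ← hR'.lam_cl k' hg e1]
      exact congrArg Prod.fst (congrFun (congrArg Prod.snd e) ⟨u, hu⟩)
    · rw [← hR.lam_cl k hg e1, ← hR'.lam_cl k' hg e1]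
      exact congrArg Prod.snd (congrFun (congrArg Prod.snd e) ⟨u, hu⟩)
  let B : Finset ((Bd → I) × (Rp → I × I)) := univ.filter fun b => ∃ lam, Rl lam ∧ code lam = b
  let lb : (Bd → I) × (Rp → I × I) → P → I := fun b =>
    if k : ∃ lam, Rl lam ∧ code lam = b then k.choose else lam₀
  have lb_spec : ∀ b ∈ B, Rl (lb b) ∧ code (lb b) = b := by
    intro b hb
    have k := (mem_filter.1 hb).2
    simp only [lb, dif_pos k]
    exact k.choose_spec
  have hB : B.card ≤ nI ^ A.Z.card * NA ^ (((A.Tj j).image A.cl).card / 2) := by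
    have hsub : B ⊆ univ ×ˢ Fintype.piFinset fun _ : Rp => Adm := by
      intro b hb
      obtain ⟨lam, ⟨E, hE, X, hR⟩, rfl⟩ := (mem_filter.1 hb).2
      have k := (mem_Om.1 hE).1
      refine mem_product.2 ⟨mem_univ _, Fintype.mem_piFinset.2 fun t => ?_⟩
      obtain ⟨t1, t2⟩ := hRp1 t t.2
      have m := (hA.ν_ae t t1 t2 t t1 rfl).1
      refine hadm (X (A.cv t)) _ _ (hR.lam_ν hA k t1 t2).symm (k.valid _ (hR.mem t t1)).2.2 ?_
      rw [← (hA.ν_cv t t1 t2).1]
      exact (k.valid _ (hR.mem _ m)).2.2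
    refine (card_le_card hsub).trans ?_
    rw [card_product, card_univ, Fintype.card_fun, Fintype.card_piFinset, prod_const, card_univ,
      Fintype.card_coe, Fintype.card_coe]
    refine Nat.mul_le_mul ?_ ?_
    · exact (Nat.pow_le_pow_left hnI _).trans
        (Nat.pow_le_pow_right hnI1 (card_le_card inter_subset_left))
    · exact (Nat.pow_le_pow_left hNA _).trans (Nat.pow_le_pow_right hNA1 (by omega))
  let LV := (A.Tj j).image A.lv
  let CV := (A.Tj j).image A.cv
  let chl : (P → I) → LV → Finset V := fun μ x => univ.filter fun v =>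
    (∀ t ∈ A.Tj j, A.lv t = x → lay v = A.ly t ∧ (μ t, true) ∈ link v) ∧ (x.1 ∈ A.rt → v = r)
  let chc : (P → I) → CV → Finset V := fun μ x => univ.filter fun v =>
    ∀ t ∈ A.Tj j, A.cv t = x → lay v = A.ly t ∧ (μ t, false) ∈ link v
  have hchl : ∀ μ, Rl μ → (Fintype.piFinset (chl μ)).card ≤
      n ^ (LV \ A.rt).card * (s + 1) ^ A.Z'.card := by
    rintro μ ⟨E, hE, X, hR⟩
    have k := (mem_Om.1 hE).1
    rw [Fintype.card_piFinset]
    refine (prod_le_prod' (g := fun x : LV => (if x.1 ∈ A.rt then 1 else n) *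
      (if x.1 ∈ A.Z'.image A.lv then s + 1 else 1)) fun x _ => ?_).trans ?_
    · obtain ⟨t, ht, e⟩ := mem_image.1 x.2
      by_cases h1 : x.1 ∈ A.rt
      · rw [if_pos h1, one_mul]
        refine le_trans (card_le_one.2 fun a ha b hb => ?_) (by split_ifs <;> omega)
        rw [(mem_filter.1 ha).2.2 h1, (mem_filter.1 hb).2.2 h1]
      rw [if_neg h1]
      by_cases h3 : x.1 ∈ A.Z'.image A.lv
      · rw [if_pos h3, mul_comm]
        refine le_trans (card_le_card fun v hv => ?_) (hhi (A.ly t) (μ t, true))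
        exact mem_filter.2 ⟨mem_univ _, (mem_filter.1 hv).2.1 t ht e⟩
      · rw [if_neg h3, mul_one]
        have hz : t ∉ A.Z' := fun k => h3 (e ▸ mem_image_of_mem _ k)
        have t1 := (mem_Tj.1 ht).1
        refine le_trans (card_le_card fun v hv => ?_)
          (h2 (A.ly t) (μ t) (μ (A.ν' t)) (hR.lam_ν' hA k t1 hz).symm)
        have a1 := (mem_filter.1 hv).2.1 t ht e
        have a2 := (mem_filter.1 hv).2.1 _ (ν'_Tj hA ht hz) ((hA.ν'_lv t t1 hz).1.trans e)
        exact mem_filter.2 ⟨mem_univ _, a1.1, a1.2, a2.2⟩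
    · rw [prod_mul_distrib]
      refine Nat.mul_le_mul (le_of_eq ?_) ?_
      · rw [prod_coe_sort LV (fun x => if x ∈ A.rt then 1 else n), prod_ite, prod_const_one,
          one_mul, prod_const, sdiff_eq_filter]
      · rw [prod_coe_sort LV (fun x => if x ∈ A.Z'.image A.lv then s + 1 else 1), prod_ite,
          prod_const_one, mul_one, prod_const]
        refine Nat.pow_le_pow_right (by omega) (le_trans (card_le_card fun x hx =>
          (mem_filter.1 hx).2) card_image_le)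
  have hchc : ∀ μ, (Fintype.piFinset (chc μ)).card ≤ ((s + 1) * n) ^ CV.card := by
    intro μ
    rw [Fintype.card_piFinset]
    refine (prod_le_pow_card _ _ ((s + 1) * n) fun x _ => ?_).trans (by simp)
    obtain ⟨t, ht, e⟩ := mem_image.1 x.2
    refine le_trans (card_le_card fun v hv => ?_) (hhi (A.ly t) (μ t, false))
    exact mem_filter.2 ⟨mem_univ _, (mem_filter.1 hv).2 t ht e⟩
  let Par := B.sigma fun b => Fintype.piFinset (chl (lb b)) ×ˢ Fintype.piFinset (chc (lb b))
  have hPar : Par.card ≤ A.W nI NA s n j := by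
    rw [card_sigma]
    refine (sum_le_card_nsmul _ _ _ fun b hb => ?_).trans (Nat.mul_le_mul_right _ hB)
    rw [card_product]
    exact Nat.mul_le_mul (hchl _ (lb_spec b hb).1) (hchc _)
  let SP : (Σ _ : (Bd → I) × (Rp → I × I), (LV → V) × (CV → V)) → Finset (V × I × V) := fun p =>
    (A.Tj j).attach.image fun t : {t // t ∈ A.Tj j} =>
      (p.2.1 ⟨A.lv t.1, mem_image_of_mem _ t.2⟩, lb p.1 t.1,
        p.2.2 ⟨A.cv t.1, mem_image_of_mem _ t.2⟩)
  have hsub : ((Om link lay g).filter fun E => ∃ X lam, A.Real lay r E X lam) ⊆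
      (Par.filter fun p => ((A.Tj j).image A.ae).card ≤ (SP p).card).biUnion fun p =>
        (Om link lay g).filter fun E => SP p ⊆ E := by
    intro E hE
    obtain ⟨hE, X, lam, hR⟩ := mem_filter.1 hE
    have k := (mem_Om.1 hE).1
    have hRl : Rl lam := ⟨E, hE, X, hR⟩
    have hb : code lam ∈ B := mem_filter.2 ⟨mem_univ _, lam, hRl, rfl⟩
    have heq := code_eq _ _ (lb_spec _ hb).1 hRl (lb_spec _ hb).2
    refine mem_biUnion.2 ⟨⟨code lam, fun x => X x, fun x => X x⟩, mem_filter.2 ⟨?_, ?_⟩,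
      mem_filter.2 ⟨hE, ?_⟩⟩
    · refine mem_sigma.2 ⟨hb, mem_product.2 ⟨Fintype.mem_piFinset.2 fun x => ?_,
        Fintype.mem_piFinset.2 fun x => ?_⟩⟩
      · refine mem_filter.2 ⟨mem_univ _, fun t ht e => ?_, hR.rt x⟩
        have t1 := (mem_Tj.1 ht).1
        simp only
        rw [← e, heq t ht]
        exact ⟨hR.ly t t1, (k.valid _ (hR.mem t t1)).2.1⟩
      · refine mem_filter.2 ⟨mem_univ _, fun t ht e => ?_⟩
        have t1 := (mem_Tj.1 ht).1
        simp only
        rw [← e, heq t ht]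
        exact ⟨(k.valid _ (hR.mem t t1)).1.symm.trans (hR.ly t t1), (k.valid _ (hR.mem t t1)).2.2⟩
    · have h1 : (((A.Tj j).image A.ae).image fun y => (X y.1, X y.2)).card =
          ((A.Tj j).image A.ae).card := by
        refine card_image_of_injOn fun y hy y' hy' e => ?_
        obtain ⟨t, ht, rfl⟩ := mem_image.1 hy
        obtain ⟨t', ht', rfl⟩ := mem_image.1 hy'
        exact Prod.ext (hR.injL _ (mem_Tj.1 ht).1 _ (mem_Tj.1 ht').1 (congrArg Prod.fst e))
          (hR.injC _ (mem_Tj.1 ht).1 _ (mem_Tj.1 ht').1 (congrArg Prod.snd e))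
      rw [← h1]
      refine le_trans (card_le_card fun y hy => ?_)
        (card_image_le (f := fun e : V × I × V => (e.1, e.2.2)))
      obtain ⟨y', hy', rfl⟩ := mem_image.1 hy
      obtain ⟨t, ht, rfl⟩ := mem_image.1 hy'
      exact mem_image.2 ⟨_, mem_image_of_mem _ (mem_attach _ ⟨t, ht⟩), rfl⟩
    · intro e he
      obtain ⟨t, -, rfl⟩ := mem_image.1 he
      simp only
      rw [heq t t.2]
      exact hR.mem t (mem_Tj.1 t.2).1
  refine (Nat.mul_le_mul_right _ ((card_le_card hsub).trans card_biUnion_le)).trans ?_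
  rw [sum_mul]
  refine (sum_le_card_nsmul _ _ (Om link lay g).card fun p hp => ?_).trans
    (Nat.mul_le_mul_right _ ((card_filter_le _ _).trans hPar))
  refine le_trans (Nat.mul_le_mul_left _ (Nat.pow_le_pow_right hm (mem_filter.1 hp).2))
    (count hw hlo (SP p) ?_)
  refine card_image_le.trans ?_
  rw [card_attach]
  exact (card_filter_le _ _).trans hκ

end Ab

end Crest.Agent.H9.ZD
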