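import Crest.Agent.H9.ZC2

/-! First moment, part 3: the probability of one pattern. -/

namespace Crest.Agent.H9.ZD

open Finset Crest.Agent.H6.SC Real

set_option linter.unusedSectionVars false

variable {P Y I V : Type} [DecidableEq P] [DecidableEq Y] [Fintype I] [DecidableEq I] [Fintype V]
  [DecidableEq V]

namespace Ab
variable {A : Ab P Y}

open Classical in
theorem log_W {nI NA s n : ℕ} (hnI : 1 ≤ nI) (hNA : 1 ≤ NA) (hn : 1 ≤ n) (j : ℕ) :
    log (A.W nI NA s n j) = A.Z.card * log nI + (((A.Tj j).image A.cl).card / 2 : ℕ) * log NA +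
      (((A.Tj j).image A.lv \ A.rt).card * log n + A.Z'.card * log (s + 1) +
        ((A.Tj j).image A.cv).card * log ((s + 1) * n)) := by
  have h1 : (0 : ℝ) < nI := by exact_mod_cast hnI
  have h2 : (0 : ℝ) < NA := by exact_mod_cast hNA
  have h3 : (0 : ℝ) < n := by exact_mod_cast hn
  unfold W
  push_cast
  rw [log_mul (by positivity) (by positivity), log_mul (by positivity) (by positivity),
    log_mul (by positivity) (by positivity), log_mul (by positivity) (by positivity)]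
  simp only [log_pow]

open Classical in
theorem exists_layer (hA : A.WF) {nI NA s n m J B pa : ℕ} (hnI : 1 ≤ nI) (hNA : 1 ≤ NA) (hn : 1 ≤ n)
    (hm : 1 ≤ m) (hJ1 : 1 ≤ J) (hJ : ∀ t ∈ A.T, A.mu t ≤ J) (hZ : A.Z.card ≤ B) (hZ' : A.Z'.card ≤ B)
    (hc : (A.T.image A.cL).card + (A.T.image A.cC).card ≤
      A.T.card + pa + (A.T.image A.lv ∩ A.rt).card)
    (hL : A.T.card ≤ 2 * (A.T.image A.cL).card) (hrt : A.rt.card ≤ 1) {δ : ℝ} (hδ : 0 < δ)
    (hnum : J * B * (log nI + log (s + 1)) +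
      (A.T.card + (A.T.filter fun t => A.a t = t).card) / 4 * log NA +
      (A.T.card + pa) * log ((s + 1) * n) - (A.T.card / 2 - 1) * log (s + 1) - A.T.card * log m ≤
      J * log δ) :
    ∃ j, (A.W nI NA s n j : ℝ) ≤ δ * m ^ ((A.Tj j).image A.ae).card := by
  by_contra hcon
  push Not at hcon
  have h1 : (1 : ℝ) ≤ nI := by exact_mod_cast hnI
  have h2 : (1 : ℝ) ≤ NA := by exact_mod_cast hNA
  have h3 : (1 : ℝ) ≤ n := by exact_mod_cast hn
  have h4 : (1 : ℝ) ≤ m := by exact_mod_cast hm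
  have h5 : (1 : ℝ) ≤ s + 1 := by have : (0 : ℝ) ≤ s := Nat.cast_nonneg s; linarith
  have l1 := log_nonneg h1
  have l2 := log_nonneg h2
  have l3 := log_nonneg h3
  have l4 := log_nonneg h4
  have l5 := log_nonneg h5
  have l6 : log ((s + 1) * n) = log (s + 1) + log n := log_mul (by linarith) (by linarith)
  have k1 : ∀ j ∈ Icc 1 J, log δ + ((A.Tj j).image A.ae).card * log m < log (A.W nI NA s n j) := by
    intro j _
    have := log_lt_log (by positivity) (hcon j)
    rwa [log_mul hδ.ne' (by positivity), log_pow] at this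
  have k2 := sum_lt_sum_of_nonempty (nonempty_Icc.2 hJ1) k1
  simp only [log_W hnI hNA hn, sum_add_distrib, sum_const, Nat.card_Icc, add_tsub_cancel_right,
    nsmul_eq_mul, ← sum_mul] at k2
  have e1 : (A.T.card : ℝ) ≤ ∑ j ∈ Icc 1 J, (((A.Tj j).image A.ae).card : ℝ) := by
    exact_mod_cast cake_ge J hJ
  have e2 : 4 * ∑ j ∈ Icc 1 J, ((((A.Tj j).image A.cl).card / 2 : ℕ) : ℝ) ≤
      A.T.card + (A.T.filter fun t => A.a t = t).card := by
    have a1 := sum_F hA J
    have a2 : 2 * ∑ j ∈ Icc 1 J, ((A.Tj j).image A.cl).card / 2 ≤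
        ∑ j ∈ Icc 1 J, ((A.Tj j).image A.cl).card := by
      rw [mul_sum]; exact sum_le_sum fun j _ => Nat.mul_div_le _ 2
    have : 4 * ∑ j ∈ Icc 1 J, ((A.Tj j).image A.cl).card / 2 ≤
      A.T.card + (A.T.filter fun t => A.a t = t).card := by omega
    exact_mod_cast this
  have e3 : ∑ j ∈ Icc 1 J, (((A.Tj j).image A.lv \ A.rt).card : ℝ) +
      (A.T.image A.lv ∩ A.rt).card ≤ (A.T.image A.cL).card := by exact_mod_cast sum_L hA J hJ1
  have e4 : ∑ j ∈ Icc 1 J, (((A.Tj j).image A.cv).card : ℝ) ≤ (A.T.image A.cC).card := by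
    exact_mod_cast sum_C hA J
  have e5 : ((A.T.image A.cL).card : ℝ) + (A.T.image A.cC).card ≤
      A.T.card + pa + (A.T.image A.lv ∩ A.rt).card := by exact_mod_cast hc
  have e6 : (A.T.card : ℝ) ≤ 2 * (A.T.image A.cL).card := by exact_mod_cast hL
  have e7 : ((A.T.image A.lv ∩ A.rt).card : ℝ) ≤ 1 := by
    exact_mod_cast (card_le_card inter_subset_right).trans hrt
  have e8 : (A.Z.card : ℝ) ≤ B := by exact_mod_cast hZ
  have e9 : (A.Z'.card : ℝ) ≤ B := by exact_mod_cast hZ'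
  have hJ0 : (0 : ℝ) ≤ J := Nat.cast_nonneg J
  set SE := ∑ j ∈ Icc 1 J, (((A.Tj j).image A.ae).card : ℝ)
  set SF := ∑ j ∈ Icc 1 J, ((((A.Tj j).image A.cl).card / 2 : ℕ) : ℝ)
  set SL := ∑ j ∈ Icc 1 J, (((A.Tj j).image A.lv \ A.rt).card : ℝ)
  set SC := ∑ j ∈ Icc 1 J, (((A.Tj j).image A.cv).card : ℝ)
  set nL := ((A.T.image A.cL).card : ℝ)
  set nC := ((A.T.image A.cC).card : ℝ)
  set ρ := ((A.T.image A.lv ∩ A.rt).card : ℝ)
  set M := (A.T.card : ℝ)
  set b := ((A.T.filter fun t => A.a t = t).card : ℝ)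
  rw [l6] at k2 hnum
  have m1 : M * log m ≤ SE * log m := mul_le_mul_of_nonneg_right e1 l4
  have m2 : SF * log NA ≤ (M + b) / 4 * log NA := mul_le_mul_of_nonneg_right (by linarith) l2
  have m3 : SL * log n ≤ (nL - ρ) * log n := mul_le_mul_of_nonneg_right (by linarith) l3
  have m4 : SC * (log (s + 1) + log n) ≤ nC * (log (s + 1) + log n) :=
    mul_le_mul_of_nonneg_right e4 (by linarith)
  have m5 : (nL - ρ + nC) * (log (s + 1) + log n) ≤ (M + pa) * (log (s + 1) + log n) :=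
    mul_le_mul_of_nonneg_right (by linarith) (by linarith)
  have m6 : (M / 2 - 1) * log (s + 1) ≤ (nL - ρ) * log (s + 1) :=
    mul_le_mul_of_nonneg_right (by linarith) l5
  have m7 : J * (A.Z.card * log nI) ≤ J * (B * log nI) :=
    mul_le_mul_of_nonneg_left (mul_le_mul_of_nonneg_right e8 l1) hJ0
  have m8 : J * (A.Z'.card * log (s + 1)) ≤ J * (B * log (s + 1)) :=
    mul_le_mul_of_nonneg_left (mul_le_mul_of_nonneg_right e9 l5) hJ0
  nlinarith

open Classical in
theorem pattern_bound {link : V → Finset (I × Bool)} {lay : V → Y} {g : ℕ} {r : V}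
    (hA : A.WF) (hg : 3 ≤ g) {w m κ s n NA nI : ℕ} {Adm : Finset (I × I)}
    (hw : ∀ v, (link v).card ≤ w)
    (hlo : ∀ y d, 2 * (w + 1) ^ g + κ + m ≤ (slot link lay y d).card)
    (hhi : ∀ y d, (slot link lay y d).card ≤ (s + 1) * n)
    (h2 : ∀ y p p', p ≠ p' → (Finset.univ.filter fun v =>
        lay v = y ∧ (p, true) ∈ link v ∧ (p', true) ∈ link v).card ≤ n)
    (hadm : ∀ v p p', p ≠ p' → (p, false) ∈ link v → (p', false) ∈ link v → (p, p') ∈ Adm)
    (hNA : Adm.card ≤ NA) (hNA1 : 1 ≤ NA) (hnI : Fintype.card I ≤ nI) (hnI1 : 1 ≤ nI)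
    (hm : 1 ≤ m) (hκ : A.T.card ≤ κ) {δ : ℝ}
    (hj : ∃ j, (A.W nI NA s n j : ℝ) ≤ δ * m ^ ((A.Tj j).image A.ae).card) :
    (((Om link lay g).filter fun E => ∃ X lam, A.Real lay r E X lam).card : ℝ) ≤
      δ * (Om link lay g).card := by
  obtain ⟨j, hj⟩ := hj
  have h1 := layer_count (r := r) hA hg hw hlo hhi h2 hadm hNA hNA1 hnI hnI1 hm hκ j
  have h3 : (((Om link lay g).filter fun E => ∃ X lam, A.Real lay r E X lam).card : ℝ) *
      m ^ ((A.Tj j).image A.ae).card ≤ A.W nI NA s n j * (Om link lay g).card := by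
    exact_mod_cast h1
  have h4 : (0 : ℝ) < m ^ ((A.Tj j).image A.ae).card := by
    have : (0 : ℝ) < m := by exact_mod_cast hm
    positivity
  refine le_of_mul_le_mul_right (h3.trans ?_) h4
  have := mul_le_mul_of_nonneg_right hj (Nat.cast_nonneg (α := ℝ) (Om link lay g).card)
  linarith

end Ab

end Crest.Agent.H9.ZD
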