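import Crest.Agent.H9.ZC3

/-! First moment, part 4: geometry of a piece (irregular corners). -/

namespace Crest.Agent.H9.ZD

open Finset Crest.Agent.H6.SC

set_option linter.unusedSectionVars false

section graph
variable {I V : Type} {E : Finset (V × I × V)} {g : ℕ}

def Adj (E : Finset (V × I × V)) (v w : V) : Prop := ∃ d, St E v d w

theorem St.symm' {v w : V} {d : I × Bool} (h : St E v d w) : St E w (inv d) v := by
  unfold St at *; unfold inv; rwa [edge_inv]

theorem Adj.symm {v w : V} (h : Adj E v w) : Adj E w v := h.elim fun _ k => ⟨_, St.symm' k⟩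

theorem seg_reduced' (f : ℕ → I × Bool) (t : ℕ) (hf : ∀ i, i + 2 ≤ t → f (i + 1) ≠ inv (f i)) :
    FreeGroup.IsReduced (seg f 0 t) := by
  by_contra hr
  obtain ⟨l₁, l₂, d, h⟩ := exists_cancel_of_not_red hr
  have hl := congrArg List.length h
  have := seg_factor f (l₁ := l₁) (u := [d, (d.1, !d.2)]) (l₂ := l₂) (by simpa using h)
  simp only [seg, List.length_cons, List.length_nil, List.range', List.map_cons, List.map_nil,
    List.cons.injEq, and_true] at this
  simp only [seg_length, List.length_append, List.length_cons] at hl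
  exact hf (0 + l₁.length) (by omega) (by rw [← this.1, ← this.2]; rfl)

theorem vgirth (hF : Fold E) (hG : Gir E g) (z : ℕ → V) (n : ℕ)
    (h1 : ∀ i, i < n → Adj E (z i) (z (i + 1))) (h2 : ∀ i, i + 2 ≤ n → z (i + 2) ≠ z i)
    (h3 : z n = z 0) (hn : 1 ≤ n) : g ≤ n := by
  classical
  let c : ℕ → I × Bool := fun i => if k : i < n then (h1 i k).choose else (h1 0 hn).choose
  have hc : ∀ i, i < n → St E (z i) (c i) (z (i + 1)) := fun i k => by
    simp only [c, dif_pos k]; exact (h1 i k).choose_spec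
  have hw := walk_seg z c n 0 fun t _ k => hc t (by omega)
  rw [zero_add, h3] at hw
  have := hG _ _ (seg_reduced' c n fun i hi e => h2 i hi (hF _ _ _ _ (hc (i + 1) (by omega))
    (e ▸ St.symm' (hc i (by omega))))) (by
      intro e; have := congrArg List.length e; simp at this; omega) hw
  simpa using this

theorem two_paths (hF : Fold E) (hG : Gir E g) (p q : ℕ → V) (a b : ℕ)
    (p1 : ∀ i, i < a → Adj E (p i) (p (i + 1))) (p2 : ∀ i, i + 2 ≤ a → p (i + 2) ≠ p i)
    (q1 : ∀ i, i < b → Adj E (q i) (q (i + 1))) (q2 : ∀ i, i + 2 ≤ b → q (i + 2) ≠ q i)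
    (h0 : p 0 = q 0) (h1 : p a = q b) (ha : 1 ≤ a) (hab : a + b < g) : 1 ≤ b ∧ p 1 = q 1 := by
  by_contra hcon
  have key := vgirth hF hG (fun i => if i < b then q (b - i) else p (i - b)) (a + b) (by
    intro i hi
    by_cases k : i < b
    · rw [if_pos k]
      have := (q1 (b - i - 1) (by omega)).symm
      rw [show b - i - 1 + 1 = b - i by omega] at this
      by_cases k' : i + 1 < b
      · rw [if_pos k', show b - (i + 1) = b - i - 1 by omega]; exact this
      · rw [if_neg k', show i + 1 - b = 0 by omega, h0]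
        rwa [show b - i - 1 = 0 by omega] at this
    · rw [if_neg k, if_neg (by omega), show i + 1 - b = i - b + 1 by omega]
      exact p1 _ (by omega)) (by
    intro i hi
    by_cases k : i < b
    · rw [if_pos k]
      by_cases k' : i + 2 < b
      · rw [if_pos k']
        have := (q2 (b - (i + 2)) (by omega)).symm
        rwa [show b - (i + 2) + 2 = b - i by omega] at this
      · rw [if_neg k']
        by_cases k'' : i + 2 = b
        · rw [show i + 2 - b = 0 by omega, h0, show b - i = 0 + 2 by omega]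
          exact (q2 0 (by omega)).symm
        · rw [show i + 2 - b = 1 by omega, show b - i = 1 by omega]
          exact fun e => hcon ⟨by omega, e⟩
    · rw [if_neg k, if_neg (by omega), show i + 2 - b = i - b + 2 by omega]
      exact p2 _ (by omega)) (by
    rw [if_neg (by omega), show a + b - b = a by omega, h1]
    by_cases k : 0 < b
    · rw [if_pos k]; rfl
    · rw [if_neg k, show 0 - b = 0 by omega, h0, show b = 0 by omega]) (by omega)
  omega

end graph

/-- previous position -/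
def pv {K : ℕ} (t : Fin K × ℕ) : Fin K × ℕ := (t.1, t.2 - 1)

@[simp] theorem pv_nx {K : ℕ} (t : Fin K × ℕ) : pv (nx t) = t := by simp [pv, nx]
theorem nx_pv {K : ℕ} {t : Fin K × ℕ} (h : 0 < t.2) : nx (pv t) = t := by
  obtain ⟨k, i⟩ := t
  simp only [pv, nx, Prod.mk.injEq, true_and] at *
  omega
@[simp] theorem nx_fst {K : ℕ} (t : Fin K × ℕ) : (nx t).1 = t.1 := rfl
@[simp] theorem nx_snd {K : ℕ} (t : Fin K × ℕ) : (nx t).2 = t.2 + 1 := rfl
@[simp] theorem pv_fst {K : ℕ} (t : Fin K × ℕ) : (pv t).1 = t.1 := rfl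
@[simp] theorem pv_snd {K : ℕ} (t : Fin K × ℕ) : (pv t).2 = t.2 - 1 := rfl

/-- one step from `u` towards `v` -/
def toward {K : ℕ} (u v : Fin K × ℕ) : Fin K × ℕ := if u.2 ≤ v.2 then nx u else pv u

theorem card_sides {K : ℕ} (len : Fin K → ℕ) : (sides len).card = ∑ k, len k := by
  rw [sides, card_biUnion]
  · refine sum_congr rfl fun k _ => ?_
    rw [card_image_of_injective _ (fun i j e => (Prod.mk.inj e).2), card_range]
  · intro k _ k' _ hne
    rw [Function.onFun, disjoint_left]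
    intro t h h'
    obtain ⟨i, -, rfl⟩ := mem_image.1 h
    obtain ⟨j, -, e⟩ := mem_image.1 h'
    exact hne (Prod.mk.inj e).1.symm

namespace Piece
variable {I V : Type} {E : Finset (V × I × V)} {r : V} {g L K B : ℕ} {η : ℝ}
  (Q : Piece E r g L K B η)

/-- corners -/
def Cn : Finset (Fin K × ℕ) := sides fun k => Q.len k + 1

theorem mem_Cn {u : Fin K × ℕ} : u ∈ Q.Cn ↔ u.2 ≤ Q.len u.1 := by
  rw [Cn, mem_sides]; omega

theorem adj (k : Fin K) (i : ℕ) (h : i < Q.len k) : Adj E (Q.x (k, i)) (Q.x (k, i + 1)) :=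
  ⟨_, Q.step (k, i) h⟩

theorem nbt (hG : Gir E g) (hg : 10 ≤ g) (k : Fin K) (i : ℕ) (h : i + 2 ≤ Q.len k) :
    Q.x (k, i + 2) ≠ Q.x (k, i) := by
  intro e
  have h1 := Q.step (k, i) (by simp only; omega)
  have h2 := Q.step (k, i + 1) (by simp only; omega)
  have h3 := Q.red (k, i) (by simp only; omega)
  have := hG (Q.x (k, i)) [Q.lab (k, i), Q.lab (k, i + 1)] (by
    have := seg_reduced' (fun j => Q.lab (k, i + j)) 2 (fun j hj => by
      obtain rfl : j = 0 := by omega
      exact h3)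
    simpa [seg, List.range'] using this) (by simp) ⟨_, h1, _, h2, e⟩
  simp at this
  omega

theorem meet (hF : Fold E) (hG : Gir E g) (hg : 10 ≤ g) {u v u' v' : Fin K × ℕ}
    (hu : u ∈ Q.Cn) (hv : v ∈ Q.Cn) (hu' : u' ∈ Q.Cn) (hv' : v' ∈ Q.Cn) (e : u.1 = v.1)
    (e' : u'.1 = v'.1) (hne : u ≠ v) (x1 : Q.x u = Q.x u') (x2 : Q.x v = Q.x v')
    (hd : (u.2 - v.2) + (v.2 - u.2) + ((u'.2 - v'.2) + (v'.2 - u'.2)) < g) :
    u' ≠ v' ∧ Q.x (toward u v) = Q.x (toward u' v') := by
  have gen : ∀ u v : Fin K × ℕ, u ∈ Q.Cn → v ∈ Q.Cn → u.1 = v.1 →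
      ∃ p : ℕ → V, (∀ i, i < (u.2 - v.2) + (v.2 - u.2) → Adj E (p i) (p (i + 1))) ∧
        (∀ i, i + 2 ≤ (u.2 - v.2) + (v.2 - u.2) → p (i + 2) ≠ p i) ∧ p 0 = Q.x u ∧
        p ((u.2 - v.2) + (v.2 - u.2)) = Q.x v ∧ p 1 = Q.x (toward u v) := by
    rintro ⟨k, i⟩ ⟨k', j⟩ hu hv e
    simp only at e
    subst e
    rw [mem_Cn] at hu hv
    simp only at hu hv ⊢
    by_cases h : i ≤ j
    · refine ⟨fun t => Q.x (k, i + t), fun t ht => Q.adj k _ (by omega),
        fun t ht => Q.nbt hG hg k (i + t) (by omega), rfl, ?_, ?_⟩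
      · simp only; congr 2; omega
      · simp [toward, h, nx]
    · refine ⟨fun t => Q.x (k, i - t), fun t ht => ?_, fun t ht => ?_, rfl, ?_, ?_⟩
      · have := (Q.adj k (i - (t + 1)) (by omega)).symm
        rwa [show i - (t + 1) + 1 = i - t by omega] at this
      · have := (Q.nbt hG hg k (i - (t + 2)) (by omega)).symm
        rwa [show i - (t + 2) + 2 = i - t by omega] at this
      · simp only; congr 2; omega
      · simp [toward, h, pv]
  obtain ⟨p, p1, p2, p3, p4, p5⟩ := gen u v hu hv e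
  obtain ⟨q, q1, q2, q3, q4, q5⟩ := gen u' v' hu' hv' e'
  have hne' : u.2 ≠ v.2 := fun k => hne (Prod.ext e k)
  have := two_paths hF hG p q _ _ p1 p2 q1 q2 (by rw [p3, q3, x1]) (by rw [p4, q4, x2])
    (by omega) hd
  refine ⟨fun k => ?_, by rw [← p5, ← q5, this.2]⟩
  rw [k] at this
  omega

/-- the block of a corner -/
def blk (g : ℕ) (u : Fin K × ℕ) : Fin K × ℕ := (u.1, u.2 / (g / 2))

theorem blk_mem (hg : 10 ≤ g) {u : Fin K × ℕ} (hu : u ∈ Q.Cn) :
    blk g u ∈ sides fun _ : Fin K => 5 * L + 1 := by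
  rw [mem_sides]
  have h1 := (Q.mem_Cn.1 hu).trans (Q.len_le _)
  simp only [blk]
  rw [Nat.lt_succ_iff]
  refine Nat.div_le_of_le_mul (h1.trans ?_)
  have : 2 * g ≤ g / 2 * 5 := by omega
  nlinarith

theorem blk_close (hg : 10 ≤ g) {u v : Fin K × ℕ} (h : blk g u = blk g v) :
    u.1 = v.1 ∧ (u.2 - v.2) + (v.2 - u.2) < g / 2 := by
  obtain ⟨h1, h2⟩ := Prod.mk.inj h
  refine ⟨h1, ?_⟩
  have a1 := Nat.div_add_mod u.2 (g / 2)
  have a2 := Nat.div_add_mod v.2 (g / 2)
  have a3 := Nat.mod_lt u.2 (show 0 < g / 2 by omega)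
  have a4 := Nat.mod_lt v.2 (show 0 < g / 2 by omega)
  rw [h2] at a1
  omega

theorem blk_inj (hF : Fold E) (hG : Gir E g) (hg : 10 ≤ g) {u v : Fin K × ℕ} (hu : u ∈ Q.Cn)
    (hv : v ∈ Q.Cn) (h : blk g u = blk g v) (e : Q.x u = Q.x v) : u = v := by
  by_contra hne
  have := blk_close hg h
  exact (Q.meet hF hG hg hu hv hu hu this.1 rfl hne rfl e.symm (by omega)).1 rfl

open Classical in
theorem card_fibre (hF : Fold E) (hG : Gir E g) (hg : 10 ≤ g) (v : V) :
    (Q.Cn.filter fun u => Q.x u = v).card ≤ K * (5 * L + 1) := by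
  have := card_le_card_of_injOn (s := Q.Cn.filter fun u => Q.x u = v)
    (t := sides fun _ : Fin K => 5 * L + 1) (blk g)
    (fun u hu => mem_coe.2 (Q.blk_mem hg (mem_filter.1 hu).1))
    (fun u hu u' hu' e => Q.blk_inj hF hG hg (mem_filter.1 hu).1 (mem_filter.1 hu').1 e
      ((mem_filter.1 hu).2.trans (mem_filter.1 hu').2.symm))
  simpa [card_sides] using this

def Int (u : Fin K × ℕ) : Prop := 0 < u.2 ∧ u.2 < Q.len u.1

/-- regular corners -/
def Rg (u : Fin K × ℕ) : Prop := Q.Int u ∧ ∀ u' ∈ Q.Cn, Q.x u' = Q.x u → Q.Int u' ∧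
  ((Q.x (nx u') = Q.x (nx u) ∧ Q.x (pv u') = Q.x (pv u)) ∨
    (Q.x (nx u') = Q.x (pv u) ∧ Q.x (pv u') = Q.x (nx u)))

open Classical in
noncomputable def Irr : Finset (Fin K × ℕ) := Q.Cn.filter fun u => ¬ Q.Rg u

theorem Int.ne (hG : Gir E g) (hg : 10 ≤ g) {u : Fin K × ℕ} (h : Q.Int u) :
    Q.x (nx u) ≠ Q.x (pv u) := by
  have := Q.nbt hG hg u.1 (u.2 - 1) (by have := h.1; have := h.2; omega)
  rwa [show u.2 - 1 + 2 = u.2 + 1 by have := h.1; omega] at this

open Classical in
theorem card_Irr (hF : Fold E) (hG : Gir E g) (hg : 10 ≤ g) :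
    Q.Irr.card ≤ 2 * K * (K * (5 * L + 1)) + 2 * (K * (5 * L + 1)) ^ 2 := by
  let Bl := sides fun _ : Fin K => 5 * L + 1
  have hBl : Bl.card = K * (5 * L + 1) := by simp [Bl, card_sides]
  let En : Finset (Fin K × ℕ) := univ.image fun p : Fin K × Bool => (p.1, if p.2 then Q.len p.1 else 0)
  have hEn : En.card ≤ 2 * K := card_image_le.trans (by simp [mul_comm])
  let U : Bool → Finset (Fin K × ℕ) := fun b => (Bl ×ˢ Bl).biUnion fun β => Q.Cn.filter fun u =>
    blk g u = β.1 ∧ ∃ u' ∈ Q.Cn, blk g u' = β.2 ∧ Q.x u' = Q.x u ∧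
      Q.x (if b then nx u else pv u) ≠ Q.x (nx u') ∧ Q.x (if b then nx u else pv u) ≠ Q.x (pv u')
  have hU : ∀ b, (U b).card ≤ (K * (5 * L + 1)) ^ 2 := by
    intro b
    refine (card_biUnion_le_card_mul _ _ 1 fun β _ => card_le_one.2 ?_).trans
      (by rw [card_product, hBl, mul_one, sq])
    have aux : ∀ u v : Fin K × ℕ, u ∈ Q.Cn → v ∈ Q.Cn → blk g u = blk g v → u ≠ v →
        toward u v = (if b then nx u else pv u) → ∀ u' ∈ Q.Cn, ∀ v' ∈ Q.Cn,
        blk g u' = blk g v' → Q.x u' = Q.x u → Q.x v' = Q.x v →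
        Q.x (if b then nx u else pv u) ≠ Q.x (nx u') →
        Q.x (if b then nx u else pv u) ≠ Q.x (pv u') → False := by
      intro u v hu hv e hne ht u' hu' v' hv' e' x1 x2 n1 n2
      have c1 := blk_close hg e
      have c2 := blk_close hg e'
      have := (Q.meet hF hG hg hu hv hu' hv' c1.1 c2.1 hne x1.symm x2.symm (by omega)).2
      rw [ht] at this
      unfold toward at this
      split_ifs at this <;> simp_all
    intro u hu v hv
    obtain ⟨hu, e1, u', hu', e2, x1, n1, n2⟩ := mem_filter.1 hu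
    obtain ⟨hv, e3, v', hv', e4, x2, n3, n4⟩ := mem_filter.1 hv
    by_contra hne
    have c1 := blk_close hg (e1.trans e3.symm)
    have hne2 : u.2 ≠ v.2 := fun k => hne (Prod.ext c1.1 k)
    by_cases h : toward u v = (if b then nx u else pv u)
    · exact aux u v hu hv (e1.trans e3.symm) hne h u' hu' v' hv' (e2.trans e4.symm) x1 x2 n1 n2
    · refine aux v u hv hu (e3.trans e1.symm) (Ne.symm hne) ?_ v' hv' u' hu' (e4.trans e2.symm)
        x2 x1 n3 n4
      unfold toward at h ⊢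
      cases b <;> split_ifs at h ⊢ <;> first | rfl | omega | simp_all
  have hsub : Q.Irr ⊆ (En.biUnion fun u' => Q.Cn.filter fun u => Q.x u = Q.x u') ∪
      (U true ∪ U false) := by
    intro u hu
    obtain ⟨hu, hr⟩ := mem_filter.1 hu
    have hend : ∀ u' ∈ Q.Cn, ¬ Q.Int u' → u' ∈ En := by
      intro u' hu' hi
      have := Q.mem_Cn.1 hu'
      by_cases k : u'.2 = 0
      · exact mem_image.2 ⟨(u'.1, false), mem_univ _, Prod.ext rfl k.symm⟩
      · exact mem_image.2 ⟨(u'.1, true), mem_univ _, Prod.ext rfl (by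
          simp only [Int, not_and, not_lt] at hi
          have := hi (by omega)
          simp only [if_true]; omega)⟩
    by_cases h1 : ∃ u' ∈ Q.Cn, Q.x u' = Q.x u ∧ ¬ Q.Int u'
    · obtain ⟨u', hu', e, hi⟩ := h1
      exact mem_union_left _ (mem_biUnion.2 ⟨u', hend u' hu' hi, mem_filter.2 ⟨hu, e.symm⟩⟩)
    push Not at h1
    have hi := h1 u hu rfl
    simp only [Rg, not_and, not_forall] at hr
    obtain ⟨u', hu', e, hr⟩ := hr hi
    have hr := hr (h1 u' hu' e)
    have hne := Int.ne Q hG hg hi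
    refine mem_union_right _ ?_
    by_cases k : Q.x (nx u) ≠ Q.x (nx u') ∧ Q.x (nx u) ≠ Q.x (pv u')
    · exact mem_union_left _ (mem_biUnion.2 ⟨(blk g u, blk g u'), mem_product.2
        ⟨Q.blk_mem hg hu, Q.blk_mem hg hu'⟩, mem_filter.2 ⟨hu, rfl, u', hu', rfl, e, k⟩⟩)
    · refine mem_union_right _ (mem_biUnion.2 ⟨(blk g u, blk g u'), mem_product.2
        ⟨Q.blk_mem hg hu, Q.blk_mem hg hu'⟩, mem_filter.2 ⟨hu, rfl, u', hu', rfl, e, ?_⟩⟩)
      simp only [Bool.false_eq_true, if_false]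
      push Not at k hr
      constructor
      · intro k1
        by_cases k2 : Q.x (nx u) = Q.x (nx u')
        · exact hne (k2.trans k1.symm)
        · exact hr.2 k1.symm (k k2).symm
      · intro k1
        by_cases k2 : Q.x (nx u) = Q.x (nx u')
        · exact hr.1 k2.symm k1.symm
        · exact hne ((k k2).trans k1.symm)
  have h1 := (card_le_card hsub).trans (card_union_le _ _)
  have h2 := card_union_le (U true) (U false)
  have h3 := card_biUnion_le_card_mul En (fun u' => Q.Cn.filter fun u => Q.x u = Q.x u') _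
    fun u' _ => Q.card_fibre hF hG hg (Q.x u')
  have h4 := Nat.mul_le_mul_right (K * (5 * L + 1)) hEn
  have := hU true
  have := hU false
  omega

end Piece

end Crest.Agent.H9.ZD
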