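import Crest.Agent.H9.ZC4

/-! First moment, part 5: the pattern of a piece. -/

namespace Crest.Agent.H9.ZD

open Finset Crest.Agent.H6.SC

set_option linter.unusedSectionVars false

namespace Piece
variable {I V Y : Type} [Fintype I] [DecidableEq I] [Fintype V] [DecidableEq V] [DecidableEq Y]
  {E : Finset (V × I × V)} {r : V} {g L K B : ℕ} {η : ℝ} (Q : Piece E r g L K B η)

def key (g L : ℕ) (u : Fin K × ℕ) : ℕ := u.1 * (2 * L * g + 2) + u.2

theorem key_inj {u v : Fin K × ℕ} (hu : u.2 ≤ 2 * L * g + 1) (hv : v.2 ≤ 2 * L * g + 1)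
    (h : key g L u = key g L v) : u = v := by
  unfold key at h
  have h1 : (u.1 : ℕ) = v.1 := by
    have a1 : (u.1 * (2 * L * g + 2) + u.2) / (2 * L * g + 2) = u.1 := by
      rw [add_comm, Nat.add_mul_div_right _ _ (by omega), Nat.div_eq_of_lt (by omega), zero_add]
    have a2 : (v.1 * (2 * L * g + 2) + v.2) / (2 * L * g + 2) = v.1 := by
      rw [add_comm, Nat.add_mul_div_right _ _ (by omega), Nat.div_eq_of_lt (by omega), zero_add]
    rw [← a1, h, a2]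
  rw [h1] at h
  exact Prod.ext (Fin.ext h1) (by omega)

theorem Cn_le {u : Fin K × ℕ} (hu : u ∈ Q.Cn) : u.2 ≤ 2 * L * g :=
  (Q.mem_Cn.1 hu).trans (Q.len_le _)

theorem exists_rep (u : Fin K × ℕ) (hu : u ∈ Q.Cn) : ∃ v ∈ Q.Cn, Q.x v = Q.x u ∧
    ∀ v' ∈ Q.Cn, Q.x v' = Q.x u → key g L v ≤ key g L v' := by
  obtain ⟨v, hv, h⟩ := exists_min_image (Q.Cn.filter fun v => Q.x v = Q.x u) (key g L)
    ⟨u, mem_filter.2 ⟨hu, rfl⟩⟩
  exact ⟨v, (mem_filter.1 hv).1, (mem_filter.1 hv).2, fun v' h1 h2 => h v' (mem_filter.2 ⟨h1, h2⟩)⟩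

noncomputable def ρ (u : Fin K × ℕ) : Fin K × ℕ :=
  if h : u ∈ Q.Cn then (Q.exists_rep u h).choose else u

theorem ρ_spec {u : Fin K × ℕ} (hu : u ∈ Q.Cn) : Q.ρ u ∈ Q.Cn ∧ Q.x (Q.ρ u) = Q.x u ∧
    ∀ v' ∈ Q.Cn, Q.x v' = Q.x u → key g L (Q.ρ u) ≤ key g L v' := by
  unfold ρ
  rw [dif_pos hu]
  exact (Q.exists_rep u hu).choose_spec

theorem ρ_eq_iff {u v : Fin K × ℕ} (hu : u ∈ Q.Cn) (hv : v ∈ Q.Cn) :
    Q.ρ u = Q.ρ v ↔ Q.x u = Q.x v := by
  obtain ⟨a1, a2, a3⟩ := Q.ρ_spec hu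
  obtain ⟨b1, b2, b3⟩ := Q.ρ_spec hv
  refine ⟨fun e => by rw [← a2, e, b2], fun e => key_inj (g := g) (L := L) ?_ ?_ (le_antisymm
    (a3 _ b1 (b2.trans e.symm)) (b3 _ a1 (a2.trans e)))⟩
  · have := Q.Cn_le a1; omega
  · have := Q.Cn_le b1; omega

def dir (t : Fin K × ℕ) : Bool := (Q.lab t).2
def cor (b : Bool) (t : Fin K × ℕ) : Fin K × ℕ := if Q.dir t = b then t else nx t
def nbr (b : Bool) (t : Fin K × ℕ) : Fin K × ℕ := if Q.dir t = b then pv t else nx t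
open Classical in
noncomputable def nrm (u : Fin K × ℕ) : Fin K × ℕ :=
  if Q.cl u.1 ∧ u.2 = Q.len u.1 then (u.1, 0) else u

open Classical in
/-- the pattern of a piece -/
noncomputable def ab (lay : V → Y) : Ab (Fin K × ℕ) Y where
  T := sides Q.len
  ρ := Q.ρ
  cL := fun t => Q.nrm (Q.cor true t)
  cC := fun t => Q.nrm (Q.cor false t)
  a := Q.a
  ν := Q.nbr false
  ν' := Q.nbr true
  Z := (sides Q.len).filter fun t => ¬ (Q.Rg (Q.cor false t) ∧ Reg Q.a (pv (Q.cor false t)))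
  Z' := (sides Q.len).filter fun t => ¬ Q.Rg (Q.cor true t)
  ly := fun t => lay (Q.x (t.1, 0))
  rt := (univ.filter Q.rt).image fun k => Q.ρ (k, 0)

theorem cor_mem (b : Bool) {t : Fin K × ℕ} (ht : t.2 < Q.len t.1) : Q.cor b t ∈ Q.Cn := by
  rw [mem_Cn]; unfold cor; split_ifs
  · omega
  · simp only [nx_fst, nx_snd]; omega

theorem cor_fst (b : Bool) (t : Fin K × ℕ) : (Q.cor b t).1 = t.1 := by
  unfold cor; split_ifs <;> rfl

theorem nrm_mem {u : Fin K × ℕ} (hu : u ∈ Q.Cn) : Q.nrm u ∈ Q.Cn := by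
  unfold nrm; split_ifs
  · rw [mem_Cn]; simp
  · exact hu

theorem x_nrm {u : Fin K × ℕ} (h : 0 < Q.len u.1) : Q.x (Q.nrm u) = Q.x u := by
  unfold nrm; split_ifs with k
  · rw [← (Q.closed _ k.1 h).1, ← k.2]
  · rfl

theorem x_ρ_cor (b : Bool) {t : Fin K × ℕ} (ht : t.2 < Q.len t.1) :
    Q.x (Q.ρ (Q.nrm (Q.cor b t))) = Q.x (Q.cor b t) := by
  rw [(Q.ρ_spec (Q.nrm_mem (Q.cor_mem b ht))).2.1, Q.x_nrm (by rw [cor_fst]; omega)]

theorem ρ_cor_iff (b : Bool) {t t' : Fin K × ℕ} (ht : t.2 < Q.len t.1) (ht' : t'.2 < Q.len t'.1) :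
    Q.ρ (Q.nrm (Q.cor b t)) = Q.ρ (Q.nrm (Q.cor b t')) ↔ Q.x (Q.cor b t) = Q.x (Q.cor b t') := by
  rw [Q.ρ_eq_iff (Q.nrm_mem (Q.cor_mem b ht)) (Q.nrm_mem (Q.cor_mem b ht')),
    Q.x_nrm (by rw [cor_fst]; omega), Q.x_nrm (by rw [cor_fst]; omega)]

theorem edge_mem {t : Fin K × ℕ} (ht : t.2 < Q.len t.1) :
    (Q.x (Q.cor true t), (Q.lab t).1, Q.x (Q.cor false t)) ∈ E := by
  have := Q.step t ht
  unfold St edge at this
  unfold cor dir
  cases h : (Q.lab t).2 <;> simpa [h] using this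

variable (lay : V → Y)

theorem ae_iff {t t' : Fin K × ℕ} (ht : t.2 < Q.len t.1) (ht' : t'.2 < Q.len t'.1) :
    (Q.ab lay).ae t = (Q.ab lay).ae t' ↔ ∀ b, Q.x (Q.cor b t) = Q.x (Q.cor b t') := by
  constructor
  · intro e b
    cases b
    · exact (Q.ρ_cor_iff false ht ht').1 (congrArg Prod.snd e)
    · exact (Q.ρ_cor_iff true ht ht').1 (congrArg Prod.fst e)
  · exact fun h => Prod.ext ((Q.ρ_cor_iff true ht ht').2 (h true))
      ((Q.ρ_cor_iff false ht ht').2 (h false))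

variable {lay} {link : V → Finset (I × Bool)} {side : V → Bool}

theorem side_cor (hE : OK link lay g E) (hs : ∀ v d, d ∈ link v → d.2 = side v) (b : Bool)
    {t : Fin K × ℕ} (ht : t.2 < Q.len t.1) : side (Q.x (Q.cor b t)) = b := by
  have := hE.valid _ (Q.edge_mem ht)
  cases b
  · exact (hs _ _ this.2.2).symm
  · exact (hs _ _ this.2.1).symm

theorem dir_eq (hE : OK link lay g E) (hs : ∀ v d, d ∈ link v → d.2 = side v)
    {t : Fin K × ℕ} (ht : t.2 < Q.len t.1) : Q.dir t = side (Q.x t) :=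
  hs _ _ (hE.step (Q.step t ht)).2.1

theorem dir_nx (hE : OK link lay g E) (hs : ∀ v d, d ∈ link v → d.2 = side v)
    {t : Fin K × ℕ} (ht : t.2 + 1 < Q.len t.1) : Q.dir (nx t) = !Q.dir t := by
  rw [Q.dir_eq hE hs (t := nx t) ht]
  exact (hs _ _ (hE.step (Q.step t (by omega))).2.2).symm

theorem lay_eq (hE : OK link lay g E) (k : Fin K) : ∀ i, i ≤ Q.len k →
    lay (Q.x (k, i)) = lay (Q.x (k, 0)) := by
  intro i
  induction i with
  | zero => intro; rfl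
  | succ i ih => intro h; rw [← ih (by omega)]; exact (hE.step (Q.step (k, i) h)).1.symm

theorem cor_inj (hE : OK link lay g E) (hg : 10 ≤ g) (b : Bool) {t t' : Fin K × ℕ}
    (ht : t.2 < Q.len t.1) (ht' : t'.2 < Q.len t'.1)
    (h : Q.dir t = Q.dir t' ∨ ∀ b, Q.x (Q.cor b t) = Q.x (Q.cor b t'))
    (e : Q.nrm (Q.cor b t) = Q.nrm (Q.cor b t')) : t = t' := by
  have aux : ∀ t t' : Fin K × ℕ, t.2 < Q.len t.1 → t'.2 < Q.len t'.1 → Q.dir t = b →
      Q.dir t' ≠ b → (∀ b, Q.x (Q.cor b t) = Q.x (Q.cor b t')) →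
      Q.nrm t = Q.nrm (nx t') → False := by
    rintro ⟨k, i⟩ ⟨k', i'⟩ ht ht' d1 d2 h e
    simp only at ht ht'
    have h1 := h (!b)
    have d3 : ¬ Q.dir (k, i) = !b := by rw [d1]; cases b <;> simp
    have d4 : Q.dir (k', i') = !b := by cases b <;> simpa using d2
    have l1 := Q.edge_mem (t := (k, i)) ht
    have l2 := Q.edge_mem (t := (k', i')) ht'
    rw [← h true, ← h false] at l2
    have l3 := label_unique hE (by omega) l1 l2
    unfold cor at h1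
    rw [if_neg d3, if_pos d4] at h1
    unfold nrm at e
    rw [if_neg (fun k => by simp only at k; omega)] at e
    split_ifs at e with k1
    · obtain ⟨rfl, rfl⟩ := Prod.mk.inj e
      simp only [nx_fst, nx_snd] at k1
      refine (Q.closed _ k1.1 ht).2 (Prod.ext ?_ ?_)
      · rw [← k1.2]; exact l3
      · rw [← k1.2]
        change Q.dir _ = !Q.dir (_, i')
        rw [d4, Bool.not_not]; exact d1
    · obtain ⟨rfl, rfl⟩ := Prod.mk.inj e
      exact Q.nbt hE.gir hg _ i' (by dsimp only at *; omega) h1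
  by_cases d1 : Q.dir t = b <;> by_cases d2 : Q.dir t' = b
  · unfold cor nrm at e
    rwa [if_pos d1, if_pos d2, if_neg (fun k => by omega), if_neg (fun k => by omega)] at e
  · refine (aux t t' ht ht' d1 d2 (h.resolve_left fun k => d2 (k ▸ d1)) ?_).elim
    unfold cor at e; rwa [if_pos d1, if_neg d2] at e
  · refine (aux t' t ht' ht d2 d1 (fun b => ((h.resolve_left fun k => d1 (k ▸ d2)) b).symm) ?_).elim
    unfold cor at e; rw [if_neg d1, if_pos d2] at e; exact e.symm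
  · unfold cor nrm at e
    rw [if_neg d1, if_neg d2] at e
    obtain ⟨k, i⟩ := t
    obtain ⟨k', i'⟩ := t'
    split_ifs at e with k1 k2 k2 <;> simp only [nx, Prod.mk.injEq] at e k1 k2 ⊢
    · obtain ⟨rfl, -⟩ := e; exact ⟨rfl, by omega⟩
    · omega
    · omega
    · exact ⟨e.1, by omega⟩

theorem nbr_spec (hE : OK link lay g E) (hs : ∀ v d, d ∈ link v → d.2 = side v) (b : Bool)
    {t : Fin K × ℕ} (ht : t.2 < Q.len t.1) (hi : Q.Int (Q.cor b t)) :
    (Q.nbr b t).2 < Q.len (Q.nbr b t).1 ∧ Q.cor b (Q.nbr b t) = Q.cor b t ∧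
      Q.nbr b (Q.nbr b t) = t ∧
      ((Q.cor (!b) t = nx (Q.cor b t) ∧ Q.cor (!b) (Q.nbr b t) = pv (Q.cor b t)) ∨
        (Q.cor (!b) t = pv (Q.cor b t) ∧ Q.cor (!b) (Q.nbr b t) = nx (Q.cor b t))) := by
  by_cases d : Q.dir t = b
  · have c1 : Q.cor b t = t := if_pos d
    have c2 : Q.nbr b t = pv t := if_pos d
    rw [c1] at hi
    have h0 := hi.1
    have d2 : Q.dir (pv t) = !b := by
      have := Q.dir_nx hE hs (t := pv t) (by simp only [pv_fst, pv_snd]; omega)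
      rw [nx_pv h0, d] at this
      rw [this, Bool.not_not]
    have d3 : ¬ Q.dir (pv t) = b := by rw [d2]; cases b <;> simp
    have d4 : ¬ Q.dir t = !b := by rw [d]; cases b <;> simp
    rw [c1, c2]
    refine ⟨by simp only [pv_fst, pv_snd]; omega, (if_neg d3).trans (nx_pv h0),
      (if_neg d3).trans (nx_pv h0), Or.inl ⟨if_neg d4, if_pos d2⟩⟩
  · have c1 : Q.cor b t = nx t := if_neg d
    have c2 : Q.nbr b t = nx t := if_neg d
    rw [c1] at hi
    have d4 : Q.dir t = !b := by cases b <;> simpa using d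
    have d2 : Q.dir (nx t) = b := by rw [Q.dir_nx hE hs hi.2, d4, Bool.not_not]
    have d3 : ¬ Q.dir (nx t) = !b := by rw [d2]; cases b <;> simp
    rw [c1, c2]
    exact ⟨hi.2, if_pos d2, (if_pos d2).trans (pv_nx t),
      Or.inr ⟨(if_pos d4).trans (pv_nx t).symm, if_neg d3⟩⟩

theorem nbr_far (hE : OK link lay g E) (hg : 10 ≤ g) (hs : ∀ v d, d ∈ link v → d.2 = side v)
    (b : Bool) {t : Fin K × ℕ} (ht : t.2 < Q.len t.1) (hi : Q.Int (Q.cor b t)) :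
    Q.x (Q.cor (!b) (Q.nbr b t)) ≠ Q.x (Q.cor (!b) t) := by
  have := Int.ne Q hE.gir hg hi
  rcases (Q.nbr_spec hE hs b ht hi).2.2.2 with ⟨a1, a2⟩ | ⟨a1, a2⟩ <;> rw [a1, a2]
  · exact this.symm
  · exact this

theorem nbr_ae (hE : OK link lay g E) (hg : 10 ≤ g) (hs : ∀ v d, d ∈ link v → d.2 = side v)
    (b : Bool) {t t' : Fin K × ℕ} (ht : t.2 < Q.len t.1) (ht' : t'.2 < Q.len t'.1)
    (hr : Q.Rg (Q.cor b t)) (h : ∀ c, Q.x (Q.cor c t') = Q.x (Q.cor c t)) :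
    (Q.nbr b t').2 < Q.len (Q.nbr b t').1 ∧
      (∀ c, Q.x (Q.cor c (Q.nbr b t')) = Q.x (Q.cor c (Q.nbr b t))) ∧ Q.nbr b (Q.nbr b t') = t' := by
  obtain ⟨hi', hn⟩ := hr.2 _ (Q.cor_mem b ht') (h b)
  obtain ⟨-, a2, -, a4⟩ := Q.nbr_spec hE hs b ht hr.1
  obtain ⟨b1, b2, b3, b4⟩ := Q.nbr_spec hE hs b ht' hi'
  refine ⟨b1, fun c => ?_, b3⟩
  by_cases hc : c = b
  · rw [hc, a2, b2, h b]
  obtain rfl : c = !b := by cases b <;> simpa using hc
  have h1 := h (!b)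
  have n1 := Int.ne Q hE.gir hg hr.1
  rcases a4 with ⟨a4, a5⟩ | ⟨a4, a5⟩ <;> rcases b4 with ⟨b4, b5⟩ | ⟨b4, b5⟩ <;>
    rw [a4, b4] at h1 <;> rw [a5, b5] <;> rcases hn with ⟨k1, k2⟩ | ⟨k1, k2⟩
  · exact k2
  · exact absurd (h1.symm.trans k1) n1
  · exact absurd (h1.symm.trans k2) n1
  · exact k1
  · exact absurd (k1.symm.trans h1) n1
  · exact k2
  · exact k1
  · exact absurd (k2.symm.trans h1) n1

theorem dir_a {t : Fin K × ℕ} (ht : t.2 < Q.len t.1) (h : Q.a t ≠ t) :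
    Q.dir (Q.a t) = !Q.dir t := congrArg Prod.snd (Q.a_lab t ht h).1

theorem wf (hE : OK link lay g E) (hg : 10 ≤ g) (hs : ∀ v d, d ∈ link v → d.2 = side v) :
    (Q.ab lay).WF := by
  classical
  have nZ : ∀ t ∈ (Q.ab lay).T, t ∉ (Q.ab lay).Z →
      Q.Rg (Q.cor false t) ∧ Reg Q.a (pv (Q.cor false t)) := by
    intro t ht hz
    by_contra k
    exact hz (mem_filter.2 ⟨ht, k⟩)
  have nZ' : ∀ t ∈ (Q.ab lay).T, t ∉ (Q.ab lay).Z' → Q.Rg (Q.cor true t) := by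
    intro t ht hz
    by_contra k
    exact hz (mem_filter.2 ⟨ht, k⟩)
  refine ⟨fun t ht => mem_sides.2 (Q.a_mem t (mem_sides.1 ht)), fun t ht => Q.a_a t (mem_sides.1 ht),
    fun t ht hne e => ?_, fun t ht t' ht' e e' => ?_, fun t ht t' ht' e e' => ?_, fun t ht hz k => ?_,
    fun t ht hz => ?_, fun t ht hz t' ht' e => ?_, fun t ht hz => ?_, fun t ht hz => ?_,
    fun t ht hz t' ht' e => ?_⟩
  · have ht := mem_sides.1 ht
    have h1 := (Q.ae_iff lay (Q.a_mem t ht) ht).1 e (!Q.dir t)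
    unfold cor at h1
    rw [if_pos (Q.dir_a ht hne), if_neg (by cases Q.dir t <;> simp)] at h1
    exact (Q.a_lab t ht hne).2 h1
  · exact Q.cor_inj hE hg true (mem_sides.1 ht) (mem_sides.1 ht')
      (Or.inr ((Q.ae_iff lay (mem_sides.1 ht) (mem_sides.1 ht')).1 e)) e'
  · exact Q.cor_inj hE hg false (mem_sides.1 ht) (mem_sides.1 ht')
      (Or.inr ((Q.ae_iff lay (mem_sides.1 ht) (mem_sides.1 ht')).1 e)) e'
  · have h1 := nZ t ht hz
    have h2 := (Q.nbr_spec hE hs false (mem_sides.1 ht) h1.1.1).2.1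
    refine (mem_filter.1 k).2 ?_
    change Q.Rg (Q.cor false (Q.nbr false t)) ∧ Reg Q.a (pv (Q.cor false (Q.nbr false t)))
    rwa [h2]
  · have h1 := nZ t ht hz
    have h2 := Q.nbr_spec hE hs false (mem_sides.1 ht) h1.1.1
    refine ⟨congrArg (fun u => Q.ρ (Q.nrm u)) h2.2.1, fun e => ?_⟩
    exact Q.nbr_far hE hg hs false (mem_sides.1 ht) h1.1.1
      ((Q.ρ_cor_iff true h2.1 (mem_sides.1 ht)).1 e)
  · have h1 := nZ t ht hz
    have h2 := Q.nbr_ae hE hg hs false (mem_sides.1 ht) (mem_sides.1 ht') h1.1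
      ((Q.ae_iff lay (mem_sides.1 ht') (mem_sides.1 ht)).1 e)
    exact ⟨mem_sides.2 h2.1, (Q.ae_iff lay h2.1
      (Q.nbr_spec hE hs false (mem_sides.1 ht) h1.1.1).1).2 h2.2.1, h2.2.2⟩
  · obtain ⟨h1, h2⟩ := nZ t ht hz
    have ht := mem_sides.1 ht
    change Q.a (Q.nbr false t) = Q.nbr false (Q.a t)
    by_cases d : Q.dir t = false
    · have c1 : Q.cor false t = t := if_pos d
      have c2 : Q.nbr false t = pv t := if_pos d
      rw [c1] at h1 h2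
      unfold Reg at h2
      rw [nx_pv h1.1.1] at h2
      rw [c2]
      rcases h2 with ⟨k1, k2⟩ | ⟨-, k2, k3⟩
      · rw [k1, k2, c2]
      · rw [k3]
        exact (if_neg (by rw [Q.dir_a ht k2, d]; simp)).symm
    · have c1 : Q.cor false t = nx t := if_neg d
      have c2 : Q.nbr false t = nx t := if_neg d
      rw [c1, pv_nx] at h2
      rw [c2]
      rcases h2 with ⟨k1, k2⟩ | ⟨k1, -, k3⟩
      · rw [k1, k2, c2]
      · have : Q.nbr false (Q.a t) = pv (Q.a t) :=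
          if_pos (by rw [Q.dir_a ht k1]; simpa using d)
        rw [this, k3, pv_nx]
  · have h1 := nZ' t ht hz
    have h2 := Q.nbr_spec hE hs true (mem_sides.1 ht) h1.1
    refine ⟨congrArg (fun u => Q.ρ (Q.nrm u)) h2.2.1, fun e => ?_⟩
    exact Q.nbr_far hE hg hs true (mem_sides.1 ht) h1.1
      ((Q.ρ_cor_iff false h2.1 (mem_sides.1 ht)).1 e)
  · have h1 := nZ' t ht hz
    have h2 := Q.nbr_ae hE hg hs true (mem_sides.1 ht) (mem_sides.1 ht') h1
      ((Q.ae_iff lay (mem_sides.1 ht') (mem_sides.1 ht)).1 e)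
    exact ⟨mem_sides.2 h2.1, (Q.ae_iff lay h2.1
      (Q.nbr_spec hE hs true (mem_sides.1 ht) h1.1).1).2 h2.2.1, h2.2.2⟩

end Piece

end Crest.Agent.H9.ZD
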