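import Crest.Agent.H9.ZC5

/-! First moment, part 6: numerical data of the pattern, codes of patterns. -/

namespace Crest.Agent.H9.ZD

open Finset Crest.Agent.H6.SC

set_option linter.unusedSectionVars false

/-- predictor code of a function on positions -/
def pcode {K : ℕ} (ln : Fin K → ℕ) (f : Fin K × ℕ → ℕ) : Finset ((Fin K × ℕ) × ℕ) :=
  ((sides ln).filter fun t => ¬ (2 ≤ t.2 ∧ f t + f (pv (pv t)) = 2 * f (pv t))).image
    fun t => (t, f t)

theorem pcode_inj {K : ℕ} {ln : Fin K → ℕ} {f f' : Fin K × ℕ → ℕ} (h : pcode ln f = pcode ln f')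
    (k : Fin K) : ∀ i, i < ln k → f (k, i) = f' (k, i) := by
  have aux : ∀ {f f' : Fin K × ℕ → ℕ}, pcode ln f = pcode ln f' → ∀ t, t ∈ sides ln →
      ¬ (2 ≤ t.2 ∧ f t + f (pv (pv t)) = 2 * f (pv t)) → f t = f' t := by
    intro f f' h t ht hp
    have : (t, f t) ∈ pcode ln f' := h ▸ mem_image_of_mem _ (mem_filter.2 ⟨ht, hp⟩)
    obtain ⟨u, -, e⟩ := mem_image.1 this
    obtain ⟨rfl, e⟩ := Prod.mk.inj e
    exact e.symm
  intro i
  induction i using Nat.strong_induction_on with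
  | _ i ih =>
    intro hi
    by_cases p1 : 2 ≤ i ∧ f (k, i) + f (pv (pv (k, i))) = 2 * f (pv (k, i))
    · by_cases p2 : 2 ≤ i ∧ f' (k, i) + f' (pv (pv (k, i))) = 2 * f' (pv (k, i))
      · have a1 := ih (i - 1) (by omega) (by omega)
        have a2 := ih (i - 1 - 1) (by omega) (by omega)
        have b1 := p1.2
        have b2 := p2.2
        simp only [pv] at b1 b2
        omega
      · exact (aux h.symm (k, i) (mem_sides.2 hi) p2).symm
    · exact aux h (k, i) (mem_sides.2 hi) p1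

theorem card_pcode {K : ℕ} (ln : Fin K → ℕ) (f : Fin K × ℕ → ℕ) (X : Finset (Fin K × ℕ))
    (h : ∀ t, t.2 < ln t.1 → 2 ≤ t.2 → t ∉ X → f t + f (pv (pv t)) = 2 * f (pv t)) :
    (pcode ln f).card ≤ 2 * K + X.card := by
  refine card_image_le.trans ?_
  have : ((sides ln).filter fun t => ¬ (2 ≤ t.2 ∧ f t + f (pv (pv t)) = 2 * f (pv t))) ⊆
      (sides fun _ : Fin K => 2) ∪ X := by
    intro t ht
    obtain ⟨h1, h2⟩ := mem_filter.1 ht
    by_cases k : 2 ≤ t.2
    · refine mem_union_right _ ?_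
      by_contra k'
      exact h2 ⟨k, h t (mem_sides.1 h1) k k'⟩
    · exact mem_union_left _ (mem_sides.2 (by omega))
  refine (card_le_card this).trans ((card_union_le _ _).trans ?_)
  simp [card_sides, mul_comm]

theorem card_small {α : Type} [DecidableEq α] (U : Finset α) (B : ℕ) :
    (U.powerset.filter fun X => X.card ≤ B).card ≤ (B + 1) * (U.card + 1) ^ B := by
  have : (U.powerset.filter fun X => X.card ≤ B) ⊆
      (range (B + 1)).biUnion fun i => powersetCard i U := by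
    intro X hX
    obtain ⟨h1, h2⟩ := mem_filter.1 hX
    exact mem_biUnion.2 ⟨X.card, mem_range.2 (by omega), mem_powersetCard.2 ⟨mem_powerset.1 h1, rfl⟩⟩
  refine (card_le_card this).trans ((card_biUnion_le_card_mul _ _ ((U.card + 1) ^ B)
    fun i hi => ?_).trans (by rw [card_range]))
  rw [card_powersetCard]
  exact (Nat.choose_le_pow _ _).trans ((Nat.pow_le_pow_left (Nat.le_succ _) _).trans
    (Nat.pow_le_pow_right (by omega) (by have := mem_range.1 hi; omega)))

namespace Piece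
variable {I V Y : Type} [Fintype I] [DecidableEq I] [Fintype V] [DecidableEq V] [DecidableEq Y]
  {E : Finset (V × I × V)} {r : V} {g L K B : ℕ} {η : ℝ} (Q : Piece E r g L K B η)
  {lay : V → Y} {link : V → Finset (I × Bool)} {side : V → Bool}

theorem mu_le (hE : OK link lay g E) (hg : 10 ≤ g) {t : Fin K × ℕ} (ht : t ∈ (Q.ab lay).T) :
    (Q.ab lay).mu t ≤ K * (5 * L + 1) := by
  refine le_trans ?_ (Q.card_fibre hE.fold hE.gir hg (Q.x (Q.cor true t)))
  refine card_le_card_of_injOn (Q.cor true) (fun u hu => ?_) (fun u hu v hv e => ?_)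
  · obtain ⟨h1, h2⟩ := mem_filter.1 hu
    simp only [coe_filter, Set.mem_ofPred_eq]
    exact ⟨Q.cor_mem true (mem_sides.1 h1),
      (Q.ae_iff lay (mem_sides.1 h1) (mem_sides.1 ht)).1 h2 true⟩
  · obtain ⟨h1, h2⟩ := mem_filter.1 hu
    obtain ⟨h3, h4⟩ := mem_filter.1 hv
    exact Q.cor_inj hE hg true (mem_sides.1 h1) (mem_sides.1 h3)
      (Or.inr ((Q.ae_iff lay (mem_sides.1 h1) (mem_sides.1 h3)).1 (h2.trans h4.symm)))
      (congrArg Q.nrm e)

theorem card_cor (b : Bool) (Z X : Finset (Fin K × ℕ)) (h : ∀ t ∈ Z, Q.cor b t ∈ X) :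
    Z.card ≤ 2 * X.card := by
  have : Z ⊆ X ∪ X.image pv := by
    intro t ht
    have := h t ht
    unfold cor at this
    split_ifs at this
    · exact mem_union_left _ this
    · exact mem_union_right _ (mem_image.2 ⟨_, this, pv_nx t⟩)
  have h1 := (card_le_card this).trans (card_union_le _ _)
  have h2 := card_image_le (s := X) (f := pv)
  omega

theorem card_Z' : (Q.ab lay).Z'.card ≤ 2 * Q.Irr.card := by
  classical
  refine Q.card_cor true _ _ fun t ht => ?_
  obtain ⟨h1, h2⟩ := mem_filter.1 ht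
  exact mem_filter.2 ⟨Q.cor_mem true (mem_sides.1 h1), h2⟩

open Classical in
/-- the irregular corners for the gluing -/
noncomputable def Brk : Finset (Fin K × ℕ) :=
  (sides Q.len).filter fun t => t.2 + 1 < Q.len t.1 ∧ ¬ Reg Q.a t

theorem card_Brk : Q.Brk.card ≤ B := Q.brk

theorem card_Z : (Q.ab lay).Z.card ≤ 2 * (Q.Irr.card + B) := by
  classical
  refine (Q.card_cor false _ (Q.Irr ∪ Q.Brk.image nx) fun t ht => ?_).trans ?_
  · obtain ⟨h1, h2⟩ := mem_filter.1 ht
    by_cases k : Q.Rg (Q.cor false t)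
    · refine mem_union_right _ (mem_image.2 ⟨pv (Q.cor false t), mem_filter.2 ⟨?_, ?_,
        fun k' => h2 ⟨k, k'⟩⟩, nx_pv k.1.1⟩)
      · have := k.1.2; rw [mem_sides]; simp only [pv_fst, pv_snd]; omega
      · have := k.1.2; have := k.1.1; simp only [pv_fst, pv_snd]; omega
    · exact mem_union_left _ (mem_filter.2 ⟨Q.cor_mem false (mem_sides.1 h1), k⟩)
  · have h1 := card_union_le Q.Irr (Q.Brk.image nx)
    have h2 := card_image_le (s := Q.Brk) (f := nx)
    have := Q.card_Brk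
    omega

theorem card_T_le (hE : OK link lay g E) (hg : 10 ≤ g) :
    (Q.ab lay).T.card ≤ 2 * ((Q.ab lay).T.image (Q.ab lay).cL).card := by
  have h : ∀ p : Bool, ((Q.ab lay).T.filter fun t => Q.dir t = p).card ≤
      ((Q.ab lay).T.image (Q.ab lay).cL).card := by
    intro p
    refine card_le_card_of_injOn (Q.ab lay).cL
      (fun u hu => mem_coe.2 (mem_image_of_mem _ (mem_filter.1 hu).1)) (fun u hu v hv e => ?_)
    obtain ⟨h1, h2⟩ := mem_filter.1 hu
    obtain ⟨h3, h4⟩ := mem_filter.1 hv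
    exact Q.cor_inj hE hg true (mem_sides.1 h1) (mem_sides.1 h3) (Or.inl (h2.trans h4.symm)) e
  have h1 := card_filter_add_card_filter_not (s := (Q.ab lay).T) fun t => Q.dir t = true
  have h2 := h true
  have h3 := h false
  simp only [Bool.not_eq_true] at h1
  omega

theorem card_rt : (Q.ab lay).rt.card ≤ 1 := by
  classical
  refine card_image_le.trans (card_le_one.2 fun a ha b hb => ?_)
  exact Q.root_uniq _ _ (mem_filter.1 ha).2 (mem_filter.1 hb).2

open Classical in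
/-- number of long path segments -/
noncomputable def pa : ℕ := (univ.filter fun k => ¬ Q.cl k ∧ ¬ Q.rt k ∧ 0 < Q.len k).card

theorem pa_le : Q.pa * (L * g) ≤ ∑ k, Q.len k := by
  classical
  unfold pa
  refine le_trans ?_ (sum_le_sum_of_subset (filter_subset
    (fun k => ¬ Q.cl k ∧ ¬ Q.rt k ∧ 0 < Q.len k) univ))
  refine card_nsmul_le_sum _ _ _ fun k hk => ?_
  obtain ⟨-, h1, h2, h3⟩ := mem_filter.1 hk
  have := Q.long k h1 h2
  omega

theorem card_corners (hE : OK link lay g E) (hs : ∀ v d, d ∈ link v → d.2 = side v)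
    (hr : side r = true) :
    ((Q.ab lay).T.image (Q.ab lay).cL).card + ((Q.ab lay).T.image (Q.ab lay).cC).card ≤
      (Q.ab lay).T.card + Q.pa + ((Q.ab lay).T.image (Q.ab lay).lv ∩ (Q.ab lay).rt).card := by
  classical
  have hdis : Disjoint ((Q.ab lay).T.image (Q.ab lay).cL) ((Q.ab lay).T.image (Q.ab lay).cC) := by
    rw [disjoint_left]
    intro u h1 h2
    obtain ⟨t, ht, rfl⟩ := mem_image.1 h1
    obtain ⟨t', ht', e⟩ := mem_image.1 h2
    have ht := mem_sides.1 ht
    have ht' := mem_sides.1 ht'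
    have a1 := Q.side_cor hE hs true ht
    have a2 := Q.side_cor hE hs false ht'
    rw [← Q.x_nrm (by rw [cor_fst]; omega)] at a1 a2
    have e' : Q.nrm (Q.cor false t') = Q.nrm (Q.cor true t) := e
    rw [e', a1] at a2
    exact absurd a2 (by simp)
  let N := (univ.filter fun k => ¬ Q.cl k ∧ 0 < Q.len k).image fun k => (k, Q.len k)
  have hsub : ∀ b, ∀ t ∈ (Q.ab lay).T, Q.nrm (Q.cor b t) ∈ (Q.ab lay).T ∪ N := by
    intro b t ht
    have ht := mem_sides.1 ht
    have h1 := Q.mem_Cn.1 (Q.cor_mem b ht)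
    have h2 := Q.cor_fst b t
    generalize Q.cor b t = u at h1 h2
    unfold nrm
    split_ifs with k
    · exact mem_union_left _ (mem_sides.2 (by simp only; rw [h2]; omega))
    · by_cases k' : u.2 = Q.len u.1
      · exact mem_union_right _ (mem_image.2 ⟨u.1, mem_filter.2 ⟨mem_univ _,
          fun c => k ⟨c, k'⟩, by rw [h2]; omega⟩, by rw [← k']⟩)
      · exact mem_union_left _ (mem_sides.2 (by omega))
  have h1 : (Q.ab lay).T.image (Q.ab lay).cL ∪ (Q.ab lay).T.image (Q.ab lay).cC ⊆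
      (Q.ab lay).T ∪ N := by
    refine union_subset (fun u hu => ?_) (fun u hu => ?_) <;> obtain ⟨t, ht, rfl⟩ := mem_image.1 hu
    · exact hsub true t ht
    · exact hsub false t ht
  have h2 := (card_le_card h1).trans (card_union_le _ _)
  rw [card_union_of_disjoint hdis] at h2
  have h3 : N.card ≤ Q.pa + (univ.filter Q.rt).card := by
    refine card_image_le.trans (le_trans (card_le_card ?_) (card_union_le _ _))
    intro k hk
    obtain ⟨-, k1, k2⟩ := mem_filter.1 hk
    by_cases c : Q.rt k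
    · exact mem_union_right _ (mem_filter.2 ⟨mem_univ _, c⟩)
    · exact mem_union_left _ (mem_filter.2 ⟨mem_univ _, k1, c, k2⟩)
  have h4 : (univ.filter Q.rt).card ≤ ((Q.ab lay).T.image (Q.ab lay).lv ∩ (Q.ab lay).rt).card := by
    rcases (univ.filter Q.rt).eq_empty_or_nonempty with h | ⟨k, hk⟩
    · rw [h]; simp
    · refine le_trans (card_le_one.2 fun a ha b hb =>
        Q.root_uniq _ _ (mem_filter.1 ha).2 (mem_filter.1 hb).2) (card_pos.2 ⟨Q.ρ (k, 0), ?_⟩)
      obtain ⟨k1, k2⟩ := Q.root k (mem_filter.1 hk).2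
      refine mem_inter.2 ⟨mem_image.2 ⟨(k, 0), mem_sides.2 k2, ?_⟩, mem_image_of_mem _ hk⟩
      have d : Q.dir (k, 0) = true := by rw [Q.dir_eq hE hs k2, k1, hr]
      change Q.ρ (Q.nrm (Q.cor true (k, 0))) = _
      unfold cor nrm
      rw [if_pos d, if_neg (fun c => by simp only at c; omega)]
  omega

theorem key_nx (u : Fin K × ℕ) : key g L (nx u) = key g L u + 1 := by
  simp only [key, nx]; omega

theorem key_pv {u : Fin K × ℕ} (h : 0 < u.2) : key g L (pv u) + 1 = key g L u := by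
  rw [← key_nx, nx_pv h]

theorem Int.nx_mem {u : Fin K × ℕ} (h : Q.Int u) : nx u ∈ Q.Cn := by
  rw [mem_Cn]; exact h.2
theorem Int.pv_mem {u : Fin K × ℕ} (h : Q.Int u) : pv u ∈ Q.Cn := by
  rw [mem_Cn]; have := h.2; simp only [pv_fst, pv_snd]; omega

/-- the representative of a neighbour of a regular corner -/
theorem ρ_nb (hG : Gir E g) (hF : Fold E) (hg : 10 ≤ g) {u v : Fin K × ℕ} (hu : Q.Rg u)
    (hv : Q.Rg v) (huv : v = nx u ∨ v = pv u) :
    (Q.x v = Q.x (nx (Q.ρ u)) → key g L (Q.ρ v) = key g L (Q.ρ u) + 1) ∧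
      (Q.x v = Q.x (pv (Q.ρ u)) → key g L (Q.ρ v) + 1 = key g L (Q.ρ u)) := by
  have mu : u ∈ Q.Cn := Q.mem_Cn.2 hu.1.2.le
  have mv : v ∈ Q.Cn := Q.mem_Cn.2 hv.1.2.le
  obtain ⟨a1, a2, a3⟩ := Q.ρ_spec mu
  obtain ⟨b1, b2, b3⟩ := Q.ρ_spec mv
  obtain ⟨i1, -⟩ := hu.2 _ a1 a2
  obtain ⟨i2, n2⟩ := hv.2 _ b1 b2
  have hxu : Q.x u = Q.x (nx v) ∨ Q.x u = Q.x (pv v) := by
    rcases huv with rfl | rfl
    · right; rw [pv_nx]
    · left; rw [nx_pv hu.1.1]
  have hlow : key g L (Q.ρ u) ≤ key g L (Q.ρ v) + 1 := by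
    have c1 : Q.x (nx (Q.ρ v)) = Q.x u → _ := fun e => a3 _ (Int.nx_mem Q i2) e
    have c2 : Q.x (pv (Q.ρ v)) = Q.x u → _ := fun e => a3 _ (Int.pv_mem Q i2) e
    rw [key_nx] at c1
    have c3 := key_pv (g := g) (L := L) i2.1
    rcases n2 with ⟨k1, k2⟩ | ⟨k1, k2⟩ <;> rcases hxu with e | e
    · exact c1 (k1.trans e.symm)
    · have := c2 (k2.trans e.symm); omega
    · have := c2 (k2.trans e.symm); omega
    · exact c1 (k1.trans e.symm)
  have hne : Q.x v ≠ Q.x u := by
    intro e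
    have hne : u ≠ v := by
      rcases huv with rfl | rfl
      · intro k; have := congrArg Prod.snd k; simp at this
      · intro k; have := congrArg Prod.snd k; have := hu.1.1; simp only [pv_snd] at *; omega
    refine (Q.meet hF hG hg mu mv mu mu (by rcases huv with rfl | rfl <;> rfl) rfl hne rfl e
      (by rcases huv with rfl | rfl <;> simp only [nx_snd, pv_snd] <;> omega)).1 rfl
  have l1 := Q.Cn_le a1
  have l2 := Q.Cn_le b1
  have kp := key_pv (g := g) (L := L) i1.1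
  constructor
  · intro e
    have h1 := b3 _ (Int.nx_mem Q i1) e.symm
    rw [key_nx] at h1
    have h2 : key g L (Q.ρ v) ≠ key g L (Q.ρ u) := fun k =>
      hne (by rw [← b2, key_inj (by omega) (by omega) k, a2])
    have h3 : key g L (Q.ρ v) ≠ key g L (pv (Q.ρ u)) := fun k =>
      Int.ne Q hG hg i1 (by
        rw [← e, ← b2, key_inj (by omega) (by simp only [pv_snd]; omega) k])
    omega
  · intro e
    have h1 := b3 _ (Int.pv_mem Q i1) e.symm
    omega

theorem card_pcode_ρ (hG : Gir E g) (hF : Fold E) (hg : 10 ≤ g) :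
    (pcode (fun k => Q.len k + 1) fun u => key g L (Q.ρ u)).card ≤ 2 * K + 3 * Q.Irr.card := by
  classical
  refine (card_pcode _ _ (Q.Irr ∪ Q.Irr.image nx ∪ (Q.Irr.image nx).image nx)
    fun t ht h2 hX => ?_).trans ?_
  · simp only [mem_union, not_or] at hX
    have mt : t ∈ Q.Cn := Q.mem_Cn.2 (by omega)
    have m1 : pv t ∈ Q.Cn := Q.mem_Cn.2 (by simp only [pv_fst, pv_snd]; omega)
    have m2 : pv (pv t) ∈ Q.Cn := Q.mem_Cn.2 (by simp only [pv_fst, pv_snd]; omega)
    have e1 : nx (pv t) = t := nx_pv (by omega)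
    have e2 : nx (pv (pv t)) = pv t := nx_pv (by simp only [pv_snd]; omega)
    have r0 : Q.Rg t := by
      by_contra k; exact hX.1.1 (mem_filter.2 ⟨mt, k⟩)
    have r1 : Q.Rg (pv t) := by
      by_contra k; exact hX.1.2 (mem_image.2 ⟨_, mem_filter.2 ⟨m1, k⟩, e1⟩)
    have r2 : Q.Rg (pv (pv t)) := by
      by_contra k
      exact hX.2 (mem_image.2 ⟨_, mem_image.2 ⟨_, mem_filter.2 ⟨m2, k⟩, e2⟩, e1⟩)
    have s0 := Q.ρ_nb hG hF hg r1 r0 (Or.inl e1.symm)
    have s2 := Q.ρ_nb hG hF hg r1 r2 (Or.inr rfl)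
    obtain ⟨a1, a2, -⟩ := Q.ρ_spec m1
    obtain ⟨-, n⟩ := r1.2 _ a1 a2
    rw [e1] at n
    rcases n with ⟨k1, k2⟩ | ⟨k1, k2⟩
    · have := s0.1 k1.symm; have := s2.2 k2.symm; omega
    · have := s0.2 k2.symm; have := s2.1 k1.symm; omega
  · have h1 := card_union_le (Q.Irr ∪ Q.Irr.image nx) ((Q.Irr.image nx).image nx)
    have h2 := card_union_le Q.Irr (Q.Irr.image nx)
    have h3 := card_image_le (s := Q.Irr) (f := nx)
    have h4 := card_image_le (s := Q.Irr.image nx) (f := nx)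
    omega

theorem card_pcode_a : (pcode Q.len fun u => key g L (Q.a u)).card ≤ 2 * K + 2 * B := by
  classical
  refine (card_pcode _ _ (Q.Brk.image nx ∪ (Q.Brk.image nx).image nx)
    fun t ht h2 hX => ?_).trans ?_
  · simp only [mem_union, not_or] at hX
    have e1 : nx (pv t) = t := nx_pv (by omega)
    have e2 : nx (pv (pv t)) = pv t := nx_pv (by simp only [pv_snd]; omega)
    have r1 : Reg Q.a (pv t) := by
      by_contra k
      exact hX.1 (mem_image.2 ⟨_, mem_filter.2 ⟨mem_sides.2 (by simp only [pv_fst, pv_snd]; omega),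
        by simp only [pv_fst, pv_snd]; omega, k⟩, e1⟩)
    have r2 : Reg Q.a (pv (pv t)) := by
      by_contra k
      exact hX.2 (mem_image.2 ⟨_, mem_image.2 ⟨_, mem_filter.2 ⟨mem_sides.2
        (by simp only [pv_fst, pv_snd]; omega), by simp only [pv_fst, pv_snd]; omega, k⟩, e2⟩, e1⟩)
    unfold Reg at r1 r2
    rw [e1] at r1
    rw [e2] at r2
    rcases r1 with ⟨a1, a2⟩ | ⟨a1, a2, a3⟩ <;> rcases r2 with ⟨b1, b2⟩ | ⟨b1, b2, b3⟩
    · rw [a1, a2, b1]
      have := key_pv (g := g) (L := L) (u := t) (by omega)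
      have := key_pv (g := g) (L := L) (u := pv t) (by simp only [pv_snd]; omega)
      omega
    · exact absurd a1 b2
    · exact absurd b2 a1
    · rw [b3, a3, key_nx, key_nx]; omega
  · have h1 := card_union_le (Q.Brk.image nx) ((Q.Brk.image nx).image nx)
    have h3 := card_image_le (s := Q.Brk) (f := nx)
    have h4 := card_image_le (s := Q.Brk.image nx) (f := nx)
    have := Q.card_Brk
    omega

open Classical in
/-- the code of the pattern -/
noncomputable def code (lay : V → Y) : ((Fin K → ℕ) × (Fin K → Bool × Bool × Bool × Y)) ×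
    Finset ((Fin K × ℕ) × ℕ) × Finset ((Fin K × ℕ) × ℕ) :=
  ((Q.len, fun k => (decide (Q.cl k), decide (Q.rt k), Q.dir (k, 0), lay (Q.x (k, 0)))),
    pcode Q.len fun u => key g L (Q.a u), pcode (fun k => Q.len k + 1) fun u => key g L (Q.ρ u))

theorem real_of_code {E' : Finset (V × I × V)} (Q' : Piece E' r g L K B η)
    (hE : OK link lay g E) (hE' : OK link lay g E') (hs : ∀ v d, d ∈ link v → d.2 = side v)
    (h : Q.code lay = Q'.code lay) :
    (Q.ab lay).Real lay r E' Q'.x fun t => (Q'.lab t).1 := by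
  classical
  obtain ⟨⟨h1, h2⟩, h3, h4⟩ : (Q.len = Q'.len ∧ _) ∧ _ ∧ _ := by
    simpa only [code, Prod.mk.injEq] using h
  have h2 := fun k => congrFun h2 k
  simp only [Prod.mk.injEq, decide_eq_decide] at h2
  rw [← h1] at h3 h4
  have ha : ∀ t, t.2 < Q.len t.1 → Q.a t = Q'.a t := by
    intro t ht
    have a1 := Q.a_mem t ht
    have a2 := Q'.a_mem t (h1 ▸ ht)
    have a3 := Q.len_le (Q.a t).1
    have a4 := Q'.len_le (Q'.a t).1
    exact key_inj (by omega) (by omega) (pcode_inj h3 t.1 t.2 ht)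
  have hCn : ∀ u, u ∈ Q.Cn → u ∈ Q'.Cn := fun u hu => by
    rw [mem_Cn] at hu ⊢; rwa [← h1]
  have hρ : ∀ u, u ∈ Q.Cn → Q.ρ u = Q'.ρ u := by
    intro u hu
    have a1 := Q.Cn_le (Q.ρ_spec hu).1
    have a2 := Q'.Cn_le (Q'.ρ_spec (hCn u hu)).1
    exact key_inj (by omega) (by omega)
      (pcode_inj h4 u.1 u.2 (by have := Q.mem_Cn.1 hu; omega))
  have hd : ∀ k i, i < Q.len k → Q.dir (k, i) = Q'.dir (k, i) := by
    intro k i
    induction i with
    | zero => intro; exact (h2 k).2.2.1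
    | succ i ih =>
      intro hi
      have a1 := Q.dir_nx hE hs (t := (k, i)) hi
      have a2 := Q'.dir_nx hE' hs (t := (k, i)) (h1 ▸ hi)
      rw [ih (by omega)] at a1
      exact a1.trans a2.symm
  have hx : ∀ b t, t.2 < Q.len t.1 → Q.ρ (Q.nrm (Q.cor b t)) = Q'.ρ (Q'.nrm (Q'.cor b t)) := by
    intro b t ht
    rw [hρ _ (Q.nrm_mem (Q.cor_mem b ht))]
    have : Q.cor b t = Q'.cor b t := by unfold cor; rw [hd t.1 t.2 ht]
    rw [this]
    unfold nrm
    simp only [(h2 _).1, h1]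
  have hx' : ∀ b t, t.2 < Q.len t.1 → Q'.x (Q.ρ (Q.nrm (Q.cor b t))) = Q'.x (Q'.cor b t) := by
    intro b t ht
    rw [hx b t ht, Q'.x_ρ_cor b (h1 ▸ ht)]
  refine ⟨fun t ht => ?_, fun t ht => ?_, fun t ht => ?_, fun x hx => ?_, fun t ht t' ht' e => ?_,
    fun t ht t' ht' e => ?_⟩
  · have ht := mem_sides.1 ht
    have := Q'.edge_mem (t := t) (h1 ▸ ht)
    rwa [← hx' true t ht, ← hx' false t ht] at this
  · have ht := mem_sides.1 ht
    change (Q'.lab (Q.a t)).1 = _
    rw [ha t ht]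
    by_cases k : Q'.a t = t
    · rw [k]
    · rw [(Q'.a_lab t (h1 ▸ ht) k).1]; rfl
  · have ht := mem_sides.1 ht
    change lay (Q'.x (Q.ρ (Q.nrm (Q.cor true t)))) = lay (Q.x (t.1, 0))
    rw [hx' true t ht, (h2 t.1).2.2.2, ← Q'.cor_fst true t]
    exact Q'.lay_eq hE' _ _ (Q'.mem_Cn.1 (Q'.cor_mem true (h1 ▸ ht)))
  · obtain ⟨k, hk, rfl⟩ := mem_image.1 hx
    have m : (k, 0) ∈ Q.Cn := Q.mem_Cn.2 (Nat.zero_le _)
    rw [hρ _ m, (Q'.ρ_spec (hCn _ m)).2.1]
    exact (Q'.root k ((h2 k).2.1.1 (mem_filter.1 hk).2)).1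
  · have ht := mem_sides.1 ht
    have ht' := mem_sides.1 ht'
    change Q.ρ (Q.nrm (Q.cor true t)) = Q.ρ (Q.nrm (Q.cor true t'))
    rw [hx true t ht, hx true t' ht', Q'.ρ_cor_iff true (h1 ▸ ht) (h1 ▸ ht'), ← hx' true t ht,
      ← hx' true t' ht']
    exact e
  · have ht := mem_sides.1 ht
    have ht' := mem_sides.1 ht'
    change Q.ρ (Q.nrm (Q.cor false t)) = Q.ρ (Q.nrm (Q.cor false t'))
    rw [hx false t ht, hx false t' ht', Q'.ρ_cor_iff false (h1 ▸ ht) (h1 ▸ ht'), ← hx' false t ht,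
      ← hx' false t' ht']
    exact e

end Piece

end Crest.Agent.H9.ZD
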