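import Crest.Agent.H6.SC6
import Crest.Prelude.Def_ClassifyingComplex

/-! Zero divisors / direct finiteness: definitions and the statements of the sub-tasks. -/

namespace Crest.Agent.H9.ZD

open Equiv Crest.Agent.H6.SC

/-- inverse letter -/
def inv {A : Type} (d : A × Bool) : A × Bool := (d.1, !d.2)

@[simp] theorem inv_inv {A : Type} (d : A × Bool) : inv (inv d) = d := by simp [inv]

/-! ### Triangle presentations and derivations -/
section pres
variable {S R : Type} (rel : R → S × S × S)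

/-- relators `a * b * c⁻¹` -/
def rels : Set (FreeGroup S) := Set.range fun r =>
  FreeGroup.of (rel r).1 * FreeGroup.of (rel r).2.1 * (FreeGroup.of (rel r).2.2)⁻¹

abbrev Grp : Type := PresentedGroup (rels rel)

/-- value of a word -/
def ev (w : List (S × Bool)) : Grp rel := PresentedGroup.mk (rels rel) (FreeGroup.mk w)

/-- derivations between words, with the signed count of the triangles used -/
inductive Der : List (S × Bool) → List (S × Bool) → (Grp rel × R →₀ ℤ) → Prop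
  | refl (w : List (S × Bool)) : Der w w 0
  | ins (u v : List (S × Bool)) (d : S × Bool) : Der (u ++ v) (u ++ d :: inv d :: v) 0
  | tri (u v : List (S × Bool)) (r : R) :
      Der (u ++ ((rel r).1, true) :: ((rel r).2.1, true) :: v) (u ++ ((rel r).2.2, true) :: v)
        (Finsupp.single (ev rel u, r) 1)
  | symm {w w' ζ} : Der w w' ζ → Der w' w (-ζ)
  | trans {w w' w'' ζ ξ} : Der w w' ζ → Der w' w'' ξ → Der w w'' (ζ + ξ)

/-- combinatorial asphericity -/
def ClaimA : Prop := ∀ ζ, Der rel [] [] ζ → ζ = 0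

end pres

/-- the triangle presentation of a labelled graph: `y_v * z_p = y_c` for every edge `(v,p,c)` -/
def relE {I V : Type} (E : Finset (V × I × V)) (e : {e // e ∈ E}) : (I ⊕ V) × (I ⊕ V) × (I ⊕ V) :=
  (Sum.inr e.1.1, Sum.inl e.1.2.1, Sum.inr e.1.2.2)

/-- the generator `y_r` differs from all other `y_v` -/
def ClaimC {I V : Type} (E : Finset (V × I × V)) (r : V) : Prop :=
  ∀ v, ev (relE E) [(Sum.inr r, true)] = ev (relE E) [(Sum.inr v, true)] → v = r

/-! ### Planar maps -/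

/-- number of cycles (fixed points included) -/
noncomputable def cyc {D : Type} (f : Perm D) : ℕ := Nat.card (Quotient (Perm.SameCycle.setoid f))

/-- number of connected components -/
noncomputable def comp {D : Type} (a b : Perm D) : ℕ :=
  Nat.card (Quotient (Perm.SameCycle.setoid a ⊔ Perm.SameCycle.setoid b))

/-- genus zero -/
def Planar {D : Type} (a b : Perm D) : Prop :=
  Nat.card D + 2 * comp a b ≤ cyc a + cyc b + cyc (a * b)

/-- a reduced planar diagram over the graph `E`: `φ` = next side in the face, `α` = gluing, `st` a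
marker (a fixed point of `α`; if it is not fixed by `φ` its face is a path starting at `r`). -/
structure RD {I V : Type} (E : Finset (V × I × V)) (r : V) where
  D : Type
  fin : Finite D
  φ : Perm D
  α : Perm D
  st : D
  tl : D → V
  lab : D → I × Bool
  α_α : ∀ d, α (α d) = d
  α_st : α st = st
  α_ne : ∀ d, d ≠ st → α d ≠ d
  step : ∀ d, d ≠ st → St E (tl d) (lab d) (tl (φ d))
  root : φ st ≠ st → tl (φ st) = r
  glue : ∀ d, d ≠ st → lab (α d) = inv (lab d)
  nonorig : ∀ d, d ≠ st → tl (α d) ≠ tl (φ d)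
  nb : ∀ d, d ≠ st → φ d ≠ st → lab (φ d) ≠ inv (lab d)
  planar : Planar φ α
  ne : ∃ d, d ≠ st

/-- sides of a family of segments -/
def sides {K : ℕ} (len : Fin K → ℕ) : Finset (Fin K × ℕ) :=
  Finset.univ.biUnion fun k => (Finset.range (len k)).image fun i => (k, i)

theorem mem_sides {K : ℕ} {len : Fin K → ℕ} {t : Fin K × ℕ} : t ∈ sides len ↔ t.2 < len t.1 := by
  obtain ⟨k, i⟩ := t
  simp [sides]

/-- next position in a segment -/
def nx {K : ℕ} (t : Fin K × ℕ) : Fin K × ℕ := (t.1, t.2 + 1)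

/-- the corner between `t` and `nx t` is regular for the gluing `a` -/
def Reg {K : ℕ} (a : Fin K × ℕ → Fin K × ℕ) (t : Fin K × ℕ) : Prop :=
  (a t = t ∧ a (nx t) = nx t) ∨ (a t ≠ t ∧ a (nx t) ≠ nx t ∧ a t = nx (a (nx t)))

open Classical in
/-- a bounded piece of a reduced diagram: at most `K` segments (closed, long, or the root segment),
glued by the involution `a` whose fixed points (boundary) are few, with at most `B` irregular
corners. -/
structure Piece {I V : Type} (E : Finset (V × I × V)) (r : V) (g L K B : ℕ) (η : ℝ) where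
  len : Fin K → ℕ
  x : Fin K × ℕ → V
  lab : Fin K × ℕ → I × Bool
  cl : Fin K → Prop
  rt : Fin K → Prop
  a : Fin K × ℕ → Fin K × ℕ
  len_le : ∀ k, len k ≤ 2 * L * g
  step : ∀ t, t.2 < len t.1 → St E (x t) (lab t) (x (nx t))
  red : ∀ t, t.2 + 1 < len t.1 → lab (nx t) ≠ inv (lab t)
  closed : ∀ k, cl k → 0 < len k → x (k, len k) = x (k, 0) ∧ lab (k, 0) ≠ inv (lab (k, len k - 1))
  root : ∀ k, rt k → x (k, 0) = r ∧ 0 < len k
  root_uniq : ∀ k k', rt k → rt k' → k = k'
  long : ∀ k, ¬ cl k → ¬ rt k → len k = 0 ∨ L * g ≤ len k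
  big : g ≤ ∑ k, len k
  a_mem : ∀ t, t.2 < len t.1 → (a t).2 < len (a t).1
  a_a : ∀ t, t.2 < len t.1 → a (a t) = t
  a_lab : ∀ t, t.2 < len t.1 → a t ≠ t → lab (a t) = inv (lab t) ∧ x (a t) ≠ x (nx t)
  bdry : (((sides len).filter fun t => a t = t).card : ℝ) ≤ η * ∑ k, (len k : ℝ)
  brk : ((sides len).filter fun t => t.2 + 1 < len t.1 ∧ ¬ Reg a t).card ≤ B

/-! ### The sub-tasks -/

/-- topology: an aspherical finite triangle presentation with positive heights -/
def T1 : Prop := ∀ (S R : Type) [Finite S] [Finite R] (rel : R → S × S × S) (ht : S → ℕ),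
  (∀ s, 0 < ht s) → (∀ r, ht (rel r).1 + ht (rel r).2.1 = ht (rel r).2.2) → ClaimA rel →
    Crest.Topology.HasFiniteClassifyingComplex (Grp rel) 2

/-- torsion-freeness -/
def T2 : Prop := ∀ (S R : Type) (rel : R → S × S × S), ClaimA rel →
  ∀ g : Grp rel, IsOfFinOrder g → g = 1

/-- van Kampen lemma and reduction -/
def T3 : Prop := ∀ (I V : Type) (E : Finset (V × I × V)) (r : V), Fold E → IsEmpty (RD E r) →
  ClaimA (relE E) ∧ ClaimC E r

/-- no `K₅` minor -/
def NoK5 {ι : Type} (Adj : ι → ι → Prop) : Prop :=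
  ¬ ∃ A : Fin 5 → Set ι, (∀ i j, i ≠ j → Disjoint (A i) (A j)) ∧
    (∀ i, ∀ u ∈ A i, ∀ v ∈ A i,
      Relation.ReflTransGen (fun p q => p ∈ A i ∧ q ∈ A i ∧ Adj p q) u v) ∧
    (∀ i j, i ≠ j → ∃ u ∈ A i, ∃ v ∈ A j, Adj u v)

open Classical in
/-- separator theorem and descent (pure graph theory; lengths are normalised by `g`) -/
def T4a : Prop := ∀ (ℓ η : ℝ), 0 < ℓ → 0 < η → ∃ K : ℕ, ∀ (ι : Type) [Fintype ι]
  (Adj : ι → ι → Prop) (wt c : ι → ℝ) (e : ι → ι → ℝ) (i₀ : ι),
    (∀ p q, Adj p q → Adj q p) → NoK5 Adj →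
    (∀ i, 0 ≤ wt i ∧ wt i ≤ ℓ) → (∀ i, i ≠ i₀ → 1 ≤ wt i) → (∀ i, 0 ≤ c i) →
    (∀ i j, 0 ≤ e i j) → (∀ i j, i ≠ j → ¬ Adj i j → e i j = 0) → (∀ j, ∑ i, e i j ≤ ℓ) →
    0 < ∑ i, wt i → ∑ i, c i ≤ η / 4 * ∑ i, wt i →
    ∃ U : Finset ι, U.card ≤ K ∧ 0 < ∑ i ∈ U, wt i ∧
      ∑ i ∈ U, (c i + ∑ j ∈ Uᶜ, e i j) ≤ η * ∑ i ∈ U, wt i

/-- the face adjacency graph of a planar map has no `K₅` minor -/
def T4k : Prop := ∀ (D : Type) [Finite D] (φ α : Perm D), (∀ d, α (α d) = d) → Planar φ α →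
  NoK5 fun p q : Quotient (Perm.SameCycle.setoid φ) =>
    ∃ d, p = Quotient.mk _ d ∧ q = Quotient.mk _ (α d)

/-- local-to-global: a reduced diagram contains a bounded piece -/
def T4 : Prop := ∀ (L : ℕ) (η : ℝ), 1 ≤ L → 0 < η → ∃ K B : ℕ, ∀ (g : ℕ) (I V : Type)
  (E : Finset (V × I × V)) (r : V), 10 ≤ g → Fold E → Gir E g → RD E r →
    Nonempty (Piece E r g L K B η)

/-- first moment: a graph with prescribed links, large girth and no piece -/
def T5 : Prop := ∀ (I Y : Type) [Fintype I] [DecidableEq I] [Fintype Y] [DecidableEq Y]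
  (s w c₀ : ℕ) (Adm : Finset (I × I)), 1 ≤ s → Adm.card < (s + 1) ^ 2 →
  ∃ (L : ℕ) (η : ℝ), 1 ≤ L ∧ 0 < η ∧ ∀ K B : ℕ, ∃ g n₀ : ℕ, 10 ≤ g ∧
    ∀ (n : ℕ) (V : Type) [Fintype V] [DecidableEq V] (link : V → Finset (I × Bool)) (lay : V → Y)
      (side : V → Bool) (r : V), n₀ ≤ n → n ≤ n₀ + c₀ →
      (∀ v d, d ∈ link v → d.2 = side v) → side r = true → (∀ v, (link v).card ≤ w) →
      (∀ y j, (slot link lay y (j, true)).card = (slot link lay y (j, false)).card) →
      (∀ y d, (s + 1) * n ≤ (slot link lay y d).card + c₀) →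
      (∀ y d, (slot link lay y d).card ≤ (s + 1) * n) →
      (∀ y p p', p ≠ p' → (Finset.univ.filter fun v =>
        lay v = y ∧ (p, true) ∈ link v ∧ (p', true) ∈ link v).card ≤ n) →
      (∀ v p p', p ≠ p' → (p, false) ∈ link v → (p', false) ∈ link v → (p, p') ∈ Adm) →
      ∃ E, OK link lay g E ∧ Full link E ∧ IsEmpty (Piece E r g L K B η)

end Crest.Agent.H9.ZD
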