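import Crest.Agent.H9.ZD0

/-! Planar maps: cycle counting and the moves that preserve planarity. -/

namespace Crest.Agent.H9.ZD

open Equiv Equiv.Perm

variable {D : Type}

/-- number of classes -/
noncomputable def nc (r : Setoid D) : ℕ := Nat.card (Quotient r)

/-- the orbit setoid -/
abbrev S (f : Perm D) : Setoid D := Perm.SameCycle.setoid f

theorem cyc_eq (f : Perm D) : cyc f = nc (S f) := rfl
theorem comp_eq (a b : Perm D) : comp a b = nc (S a ⊔ S b) := rfl

theorem S_iff {f : Perm D} {x y : D} : S f x y ↔ f.SameCycle x y := Iff.rfl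

/-- identify the classes of `x` and `y` -/
def link (r : Setoid D) (x y : D) : Setoid D where
  r a b := r a b ∨ (r a x ∧ r b y) ∨ (r a y ∧ r b x)
  iseqv := by
    refine ⟨fun a => Or.inl (r.refl a), ?_, ?_⟩
    · rintro a b (h | ⟨h1, h2⟩ | ⟨h1, h2⟩)
      · exact Or.inl (r.symm h)
      · exact Or.inr (Or.inr ⟨h2, h1⟩)
      · exact Or.inr (Or.inl ⟨h2, h1⟩)
    · rintro a b c (h | ⟨h1, h2⟩ | ⟨h1, h2⟩) (k | ⟨k1, k2⟩ | ⟨k1, k2⟩)
      · exact Or.inl (r.trans h k)
      · exact Or.inr (Or.inl ⟨r.trans h k1, k2⟩)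
      · exact Or.inr (Or.inr ⟨r.trans h k1, k2⟩)
      · exact Or.inr (Or.inl ⟨h1, r.trans (r.symm k) h2⟩)
      · exact Or.inr (Or.inl ⟨h1, k2⟩)
      · exact Or.inl (r.trans h1 (r.symm k2))
      · exact Or.inr (Or.inr ⟨h1, r.trans (r.symm k) h2⟩)
      · exact Or.inl (r.trans h1 (r.symm k2))
      · exact Or.inr (Or.inr ⟨h1, k2⟩)

theorem le_link (r : Setoid D) (x y : D) : r ≤ link r x y := fun _ _ h => Or.inl h

theorem link_mono {r r' : Setoid D} (h : r ≤ r') (x y : D) : link r x y ≤ link r' x y := by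
  rintro a b (k | ⟨k1, k2⟩ | ⟨k1, k2⟩)
  · exact Or.inl (h k)
  · exact Or.inr (Or.inl ⟨h k1, h k2⟩)
  · exact Or.inr (Or.inr ⟨h k1, h k2⟩)

theorem link_le {r : Setoid D} {x y : D} (h : r x y) : link r x y ≤ r := by
  rintro a b (k | ⟨k1, k2⟩ | ⟨k1, k2⟩)
  · exact k
  · exact r.trans k1 (r.trans h (r.symm k2))
  · exact r.trans k1 (r.trans (r.symm h) (r.symm k2))

variable [Finite D]

theorem nc_mono {r r' : Setoid D} (h : r ≤ r') : nc r' ≤ nc r :=
  Nat.card_le_card_of_surjective (Quotient.map' (s₁ := r) (s₂ := r') id fun _ _ k => h k)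
    (fun q => Quotient.inductionOn' q fun x => ⟨Quotient.mk'' x, rfl⟩)

theorem nc_lt {r r' : Setoid D} (h : r ≤ r') {x y : D} (h1 : r' x y) (h2 : ¬ r x y) :
    nc r' < nc r := by
  classical
  have := Fintype.ofFinite (Quotient r)
  have := Fintype.ofFinite (Quotient r')
  unfold nc
  rw [Nat.card_eq_fintype_card, Nat.card_eq_fintype_card]
  refine Fintype.card_lt_of_surjective_not_injective
    (Quotient.map' (s₁ := r) (s₂ := r') id fun _ _ k => h k)
    (fun q => Quotient.inductionOn' q fun x => ⟨Quotient.mk'' x, rfl⟩) fun hi => h2 ?_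
  have : (Quotient.mk'' x : Quotient r) = Quotient.mk'' y := hi (Quotient.sound' h1)
  exact Quotient.exact' this

theorem nc_le_link (r : Setoid D) (x y : D) : nc r ≤ nc (link r x y) + 1 := by
  classical
  let F : Quotient r → Option (Quotient (link r x y)) := fun q =>
    if q = Quotient.mk'' y then none
    else some (Quotient.map' (s₁ := r) (s₂ := link r x y) id (fun _ _ k => Or.inl k) q)
  have hF : Function.Injective F := by
    intro p q
    induction p using Quotient.inductionOn' with | h a => ?_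
    induction q using Quotient.inductionOn' with | h b => ?_
    simp only [F]
    split_ifs with h1 h2 h2
    · intro; rw [h1, h2]
    · simp
    · simp
    · intro h
      have h := Quotient.exact' (Option.some.inj h)
      rcases h with h | ⟨-, h⟩ | ⟨h, -⟩
      · exact Quotient.sound' h
      · exact absurd (Quotient.sound' h) h2
      · exact absurd (Quotient.sound' h) h1
  have := Nat.card_le_card_of_injective F hF
  rwa [Finite.card_option] at this

theorem nc_le_succ {r r' : Setoid D} {x y : D} (h : r' ≤ link r x y) : nc r ≤ nc r' + 1 :=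
  (nc_le_link r x y).trans (Nat.succ_le_succ (nc_mono h))

theorem nc_pos [Nonempty D] (r : Setoid D) : 0 < nc r := by
  unfold nc
  have : Nonempty (Quotient r) := ⟨Quotient.mk'' (Classical.arbitrary D)⟩
  exact Nat.card_pos

theorem S_le {f : Perm D} {r : Setoid D} (h : ∀ a, r a (f a)) : S f ≤ r := by
  intro a b hab
  obtain ⟨i, -, rfl⟩ := SameCycle.exists_pow_eq' hab
  clear hab
  induction i with
  | zero => exact r.refl a
  | succ i ih => rw [pow_succ', Perm.mul_apply]; exact r.trans ih (h _)

omit [Finite D] in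
theorem S_apply (f : Perm D) (a : D) : S f a (f a) := ⟨1, by simp⟩

omit [Finite D] in
theorem S_inv (f : Perm D) : S f⁻¹ = S f := by
  ext a b; exact sameCycle_inv

theorem S_mul_le (a b : Perm D) : S (a * b) ≤ S a ⊔ S b :=
  S_le fun x => (S a ⊔ S b).trans ((le_sup_right : S b ≤ _) (S_apply b x))
    ((le_sup_left : S a ≤ _) (S_apply a (b x)))

theorem sameCycle_of_period {f : Perm D} {x y : D} {k : ℕ} (hk : 0 < k) (hx : (f ^ k) x = x)
    (h : f.SameCycle x y) : ∃ i < k, (f ^ i) x = y := by
  obtain ⟨i, -, rfl⟩ := SameCycle.exists_pow_eq' h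
  refine ⟨i % k, Nat.mod_lt _ hk, ?_⟩
  conv_rhs => rw [← Nat.mod_add_div i k, pow_add, Perm.mul_apply, pow_mul,
    Perm.pow_apply_eq_self_of_apply_eq_self hx]

section swap
variable [DecidableEq D]

theorem S_swap_le (f : Perm D) (x y : D) : S (swap x y * f) ≤ link (S f) x y := by
  refine S_le fun a => ?_
  rw [Perm.mul_apply]
  by_cases h1 : f a = x
  · rw [h1, swap_apply_left]; exact Or.inr (Or.inl ⟨h1 ▸ S_apply f a, (S f).refl y⟩)
  by_cases h2 : f a = y
  · rw [h2, swap_apply_right]; exact Or.inr (Or.inr ⟨h2 ▸ S_apply f a, (S f).refl x⟩)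
  rw [swap_apply_of_ne_of_ne h1 h2]; exact Or.inl (S_apply f a)

theorem S_le_swap (f : Perm D) (x y : D) : S f ≤ link (S (swap x y * f)) x y := by
  have := S_swap_le (swap x y * f) x y
  rwa [swap_mul_self_mul] at this

theorem sameCycle_swap_iff (f : Perm D) {x y : D} (hxy : x ≠ y) :
    (swap x y * f).SameCycle x y ↔ ¬ f.SameCycle x y := by
  have hex : ∃ k, 0 < k ∧ ((f ^ k) x = x ∨ (f ^ k) x = y) :=
    ⟨orderOf f, orderOf_pos f, Or.inl (by rw [pow_orderOf_eq_one]; rfl)⟩
  classical
  let k := Nat.find hex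
  have hk : 0 < k ∧ ((f ^ k) x = x ∨ (f ^ k) x = y) := Nat.find_spec hex
  have hmin : ∀ i, 0 < i → i < k → (f ^ i) x ≠ x ∧ (f ^ i) x ≠ y := by
    intro i h0 hi
    have := Nat.find_min hex hi
    push Not at this
    exact this h0
  have h1 : ∀ i, i < k → ((swap x y * f) ^ i) x = (f ^ i) x := by
    intro i
    induction i with
    | zero => intro; rfl
    | succ i ih =>
      intro hi
      rw [pow_succ', Perm.mul_apply, ih (by omega), Perm.mul_apply, ← Perm.mul_apply f, ← pow_succ']
      exact swap_apply_of_ne_of_ne (hmin _ (by omega) hi).1 (hmin _ (by omega) hi).2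
  have h2 : ((swap x y * f) ^ k) x = swap x y ((f ^ k) x) := by
    obtain ⟨j, hj⟩ : ∃ j, k = j + 1 := ⟨k - 1, by omega⟩
    rw [hj, pow_succ', Perm.mul_apply, h1 j (by omega), Perm.mul_apply, ← Perm.mul_apply f,
      ← pow_succ']
  have hny : ∀ i, i < k → (f ^ i) x ≠ y := by
    intro i hi
    rcases Nat.eq_zero_or_pos i with rfl | h0
    · exact hxy
    · exact (hmin i h0 hi).2
  rcases hk.2 with h | h
  · rw [h, swap_apply_left] at h2
    refine ⟨fun _ hs => ?_, fun _ => ⟨k, by simpa using h2⟩⟩
    obtain ⟨i, hi, hi'⟩ := sameCycle_of_period hk.1 h hs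
    exact hny i hi hi'
  · rw [h, swap_apply_right] at h2
    refine ⟨fun hs => ?_, fun hn => absurd ⟨k, by simpa using h⟩ hn⟩
    obtain ⟨i, hi, hi'⟩ := sameCycle_of_period hk.1 h2 hs
    exact absurd (h1 i hi ▸ hi') (hny i hi)

theorem cyc_split {f : Perm D} {x y : D} (hxy : x ≠ y) (h : f.SameCycle x y) :
    cyc (swap x y * f) = cyc f + 1 := by
  have h1 := nc_le_succ (S_le_swap f x y)
  have h2 := nc_lt ((S_swap_le f x y).trans (link_le h)) h
    (fun k => (sameCycle_swap_iff f hxy).1 k h)
  simp only [cyc_eq]; omega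

theorem cyc_merge {f : Perm D} {x y : D} (h : ¬ f.SameCycle x y) :
    cyc (swap x y * f) + 1 = cyc f := by
  have hxy : x ≠ y := fun e => h (e ▸ SameCycle.refl f x)
  have := cyc_split hxy ((sameCycle_swap_iff f hxy).2 h)
  rw [swap_mul_self_mul] at this
  exact this.symm

end swap

omit [Finite D] in
theorem cyc_inv (f : Perm D) : cyc f⁻¹ = cyc f := by rw [cyc_eq, S_inv, cyc_eq]

omit [Finite D] in
theorem cyc_conj (f g : Perm D) : cyc (g * f * g⁻¹) = cyc f := by
  refine Nat.card_congr (Quotient.congr g.symm fun a b => ?_)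
  change (g * f * g⁻¹).SameCycle a b ↔ f.SameCycle (g.symm a) (g.symm b)
  rw [sameCycle_conj]; rfl

omit [Finite D] in
theorem cyc_mul_comm (a b : Perm D) : cyc (a * b) = cyc (b * a) := by
  rw [← cyc_conj (a * b) b]; congr 1; group

omit [Finite D] in
theorem Planar.symm {a b : Perm D} (h : Planar a b) : Planar b a := by
  unfold Planar at *
  rw [comp_eq, sup_comm, ← comp_eq, cyc_mul_comm b a]; omega

omit [Finite D] in
theorem Planar.inv {a b : Perm D} (h : Planar a b) : Planar a⁻¹ b⁻¹ := by
  unfold Planar at *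
  rw [comp_eq, S_inv, S_inv, ← comp_eq, cyc_inv, cyc_inv, ← mul_inv_rev, cyc_inv,
    cyc_mul_comm b a]
  exact h

theorem Planar.rot {a b : Perm D} (h : Planar a b) : Planar b (a * b)⁻¹ := by
  unfold Planar at *
  have h1 : S a ⊔ S b ≤ S b ⊔ S (a * b)⁻¹ := by
    refine sup_le ?_ le_sup_left
    have := S_mul_le (a * b) b⁻¹
    rw [mul_inv_cancel_right, S_inv] at this
    rw [S_inv, sup_comm]; exact this
  have h2 := nc_mono h1
  rw [show b * (a * b)⁻¹ = a⁻¹ by group, cyc_inv, cyc_inv]
  simp only [comp_eq] at *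
  omega

theorem Planar.unrot {a b : Perm D} (h : Planar b (a * b)⁻¹) : Planar a b := by
  have := h.rot.rot
  rwa [show (b * (a * b)⁻¹)⁻¹ = a by group, show ((a * b)⁻¹ * a)⁻¹ = a⁻¹ * (a * b) by group,
    inv_mul_cancel_left] at this

omit [Finite D] in
theorem planar_one : Planar (1 : Perm D) 1 := by
  unfold Planar
  rw [comp_eq, sup_idem, mul_one, ← cyc_eq]
  have : cyc (1 : Perm D) = Nat.card D := by
    refine (Nat.card_congr (Equiv.ofBijective (Quotient.mk _) ⟨fun x y h => ?_,
      Quotient.mk_surjective⟩)).symm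
    exact sameCycle_one.1 (Quotient.exact h)
  omega

section moves
variable [DecidableEq D] {a b : Perm D} {x y : D}

/-- splitting a cycle of `a` -/
theorem Planar.split (h : Planar a b) (hs : a.SameCycle x y) : Planar (swap x y * a) b := by
  by_cases hxy : x = y
  · subst hxy; rw [swap_self]; exact (show Planar (1 * a) b by rwa [one_mul])
  unfold Planar at *
  rw [cyc_split hxy hs, mul_assoc]
  have k1 : S a ⊔ S b ≤ link (S (swap x y * a) ⊔ S b) x y :=
    sup_le ((S_le_swap a x y).trans (link_mono le_sup_left x y)) (le_sup_right.trans (le_link _ x y))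
  by_cases h2 : (a * b).SameCycle x y
  · rw [cyc_split hxy h2]
    have := nc_le_succ k1
    simp only [comp_eq] at *
    omega
  · have h3 := cyc_merge h2
    have h4 : (swap x y * a * b).SameCycle x y := by
      rw [mul_assoc]; exact (sameCycle_swap_iff _ hxy).2 h2
    have := nc_mono (k1.trans (link_le (S_mul_le _ _ h4)))
    simp only [comp_eq] at *
    omega

/-- merging two components -/
theorem Planar.merge (h : Planar a b) (hs : ¬ (S a ⊔ S b) x y) : Planar (swap x y * a) b := by
  have hxy : x ≠ y := fun e => hs (e ▸ (S a ⊔ S b).refl x)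
  have h1 : ¬ a.SameCycle x y := fun k => hs ((le_sup_left : S a ≤ _) k)
  have h2 : ¬ (a * b).SameCycle x y := fun k => hs (S_mul_le _ _ k)
  have h3 : S (swap x y * a) x y := (sameCycle_swap_iff _ hxy).2 h1
  have h4 : S a ⊔ S b ≤ S (swap x y * a) ⊔ S b :=
    sup_le_sup_right ((S_le_swap a x y).trans (link_le h3)) _
  have h5 := nc_lt h4 ((le_sup_left : S (swap x y * a) ≤ _) h3) hs
  have h6 := cyc_merge h1
  have h7 := cyc_merge h2
  unfold Planar at *
  rw [mul_assoc]
  simp only [comp_eq] at *
  omega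

theorem Planar.split' (h : Planar a b) (hs : a.SameCycle x y) : Planar (a * swap x y) b := by
  rw [mul_swap_eq_swap_mul]
  exact h.split (by simpa using hs)

theorem Planar.merge' (h : Planar a b) (hs : ¬ (S a ⊔ S b) x y) : Planar (a * swap x y) b := by
  rw [mul_swap_eq_swap_mul]
  refine h.merge fun k => hs ?_
  exact (S a ⊔ S b).trans ((le_sup_left : S a ≤ _) (S_apply a x)) ((S a ⊔ S b).trans k
    ((S a ⊔ S b).symm ((le_sup_left : S a ≤ _) (S_apply a y))))

/-- splitting a cycle of `b` -/
theorem Planar.splitR (h : Planar a b) (hs : b.SameCycle x y) : Planar a (swap x y * b) :=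
  (h.symm.split hs).symm

theorem Planar.splitR' (h : Planar a b) (hs : b.SameCycle x y) : Planar a (b * swap x y) :=
  (h.symm.split' hs).symm

theorem Planar.mergeR (h : Planar a b) (hs : ¬ (S a ⊔ S b) x y) : Planar a (swap x y * b) :=
  (h.symm.merge (by rwa [sup_comm])).symm

theorem Planar.mergeR' (h : Planar a b) (hs : ¬ (S a ⊔ S b) x y) : Planar a (b * swap x y) :=
  (h.symm.merge' (by rwa [sup_comm])).symm

/-- splitting a cycle of `a * b` by changing `a` -/
theorem Planar.splitP (h : Planar a b) (hs : (a * b).SameCycle x y) : Planar (swap x y * a) b := by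
  have := h.rot.splitR' (x := x) (y := y) (sameCycle_inv.2 hs)
  refine Planar.unrot ?_
  rwa [mul_assoc, mul_inv_rev (swap x y), swap_inv]

/-- splitting a cycle of `a * b` by changing `b` -/
theorem Planar.splitP' (h : Planar a b) (hs : (a * b).SameCycle x y) : Planar a (b * swap x y) := by
  have := h.rot.rot.split (x := x) (y := y) (sameCycle_inv.2 hs)
  refine Planar.unrot (Planar.unrot ?_)
  rw [show (b * swap x y * (a * (b * swap x y))⁻¹)⁻¹ = a by group]
  rwa [show (b * (a * b)⁻¹)⁻¹ = a by group, show swap x y * (a * b)⁻¹ = (a * (b * swap x y))⁻¹ by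
    rw [← mul_assoc, mul_inv_rev (a * b), swap_inv]] at this

/-- cutting a cycle of `b`, keeping `a * b` -/
theorem Planar.cut (h : Planar a b) (hs : b.SameCycle x y) :
    Planar (a * swap x y) (swap x y * b) := by
  refine Planar.unrot ?_
  rw [mul_assoc, swap_mul_self_mul]
  exact h.rot.split hs

/-- cutting a cycle of `a`, keeping `a * b` -/
theorem Planar.cut' (h : Planar a b) (hs : a.SameCycle x y) :
    Planar (a * swap x y) (swap x y * b) := by
  have := h.rot.rot
  rw [show (b * (a * b)⁻¹)⁻¹ = a by group] at this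
  have := (this.splitR' hs).rot
  rwa [show ((a * b)⁻¹ * (a * swap x y))⁻¹ = (swap x y)⁻¹ * b by group, swap_inv] at this

end moves

/-! ### neutral points -/

/-- push a setoid along an injection -/
def push {D' : Type} (f : D ↪ D') (r : Setoid D) : Setoid D' where
  r y z := y = z ∨ ∃ x x', y = f x ∧ z = f x' ∧ r x x'
  iseqv := by
    refine ⟨fun _ => Or.inl rfl, ?_, ?_⟩
    · rintro y z (h | ⟨x, x', h1, h2, h3⟩)
      · exact Or.inl h.symm
      · exact Or.inr ⟨x', x, h2, h1, r.symm h3⟩
    · rintro y z w (h | ⟨x, x', h1, h2, h3⟩) (k | ⟨u, u', k1, k2, k3⟩)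
      · exact Or.inl (h.trans k)
      · exact Or.inr ⟨u, u', h.trans k1, k2, k3⟩
      · exact Or.inr ⟨x, x', h1, k ▸ h2, h3⟩
      · obtain rfl := f.injective (h2.symm.trans k1)
        exact Or.inr ⟨x, u', h1, k2, r.trans h3 k3⟩

omit [Finite D] in
theorem push_iff {D' : Type} (f : D ↪ D') (r : Setoid D) {x x' : D} :
    push f r (f x) (f x') ↔ r x x' := by
  constructor
  · rintro (h | ⟨u, u', h1, h2, h3⟩)
    · rw [f.injective h]
    · rw [f.injective h1, f.injective h2]; exact h3
  · exact fun h => Or.inr ⟨x, x', rfl, rfl, h⟩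

omit [Finite D] in
theorem push_sup {D' : Type} (f : D ↪ D') (r r' : Setoid D) :
    push f (r ⊔ r') = push f r ⊔ push f r' := by
  apply le_antisymm
  · rintro y z (rfl | ⟨x, x', rfl, rfl, h⟩)
    · exact (push f r ⊔ push f r').refl _
    · have : r ⊔ r' ≤ Setoid.comap f (push f r ⊔ push f r') :=
        sup_le (fun _ _ k => (le_sup_left : push f r ≤ _) ((push_iff f r).2 k))
          (fun _ _ k => (le_sup_right : push f r' ≤ _) ((push_iff f r').2 k))
      exact this h
  · refine sup_le ?_ ?_ <;> rintro y z (h | ⟨x, x', h1, h2, h3⟩)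
    · exact Or.inl h
    · exact Or.inr ⟨x, x', h1, h2, (le_sup_left : r ≤ _) h3⟩
    · exact Or.inl h
    · exact Or.inr ⟨x, x', h1, h2, (le_sup_right : r' ≤ _) h3⟩

theorem nc_push {D' : Type} [Finite D'] (f : D ↪ D') (r : Setoid D) :
    nc (push f r) = nc r + Nat.card {y // y ∉ Set.range f} := by
  classical
  let F : Quotient r ⊕ {y // y ∉ Set.range f} → Quotient (push f r) :=
    Sum.elim (Quotient.map' (s₁ := r) (s₂ := push f r) f fun _ _ k => (push_iff f r).2 k)
      fun y => Quotient.mk'' y.1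
  have hF : Function.Bijective F := by
    constructor
    · rintro (p | ⟨y, hy⟩) (q | ⟨z, hz⟩) h
      · induction p using Quotient.inductionOn' with | h a => ?_
        induction q using Quotient.inductionOn' with | h b => ?_
        exact congrArg _ (Quotient.sound' ((push_iff f r).1 (Quotient.exact' h)))
      · induction p using Quotient.inductionOn' with | h a => ?_
        rcases Quotient.exact' h with h | ⟨_, x', -, h, -⟩
        · exact absurd ⟨a, h⟩ hz
        · exact absurd ⟨x', h.symm⟩ hz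
      · induction q using Quotient.inductionOn' with | h a => ?_
        rcases Quotient.exact' h with h | ⟨x', _, h, -, -⟩
        · exact absurd ⟨a, h.symm⟩ hy
        · exact absurd ⟨x', h.symm⟩ hy
      · rcases Quotient.exact' h with h | ⟨x', _, h, -, -⟩
        · exact congrArg _ (Subtype.ext h)
        · exact absurd ⟨x', h.symm⟩ hy
    · intro q
      induction q using Quotient.inductionOn' with | h y => ?_
      by_cases hy : y ∈ Set.range f
      · obtain ⟨x, rfl⟩ := hy
        exact ⟨Sum.inl (Quotient.mk'' x), rfl⟩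
      · exact ⟨Sum.inr ⟨y, hy⟩, rfl⟩
  unfold nc
  rw [← Nat.card_congr (Equiv.ofBijective F hF), Nat.card_sum]

theorem S_push {D' : Type} [Finite D'] (f : D ↪ D') {a : Perm D} {a' : Perm D'}
    (h1 : ∀ x, a' (f x) = f (a x)) (h2 : ∀ y, y ∉ Set.range f → a' y = y) :
    S a' = push f (S a) := by
  apply le_antisymm
  · refine S_le fun y => ?_
    by_cases hy : y ∈ Set.range f
    · obtain ⟨x, rfl⟩ := hy
      rw [h1]; exact (push_iff f _).2 (S_apply a x)
    · rw [h2 y hy]
  · rintro y z (rfl | ⟨x, x', rfl, rfl, h⟩)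
    · exact (S a').refl _
    · have : S a ≤ Setoid.comap f (S a') := S_le fun u => by
        change S a' (f u) (f (a u))
        rw [← h1]; exact S_apply a' _
      exact this h

/-- adding or removing common fixed points does not change planarity -/
theorem planar_embed {D' : Type} [Finite D'] (f : D ↪ D') {a b : Perm D} {a' b' : Perm D'}
    (ha : ∀ x, a' (f x) = f (a x)) (ha' : ∀ y, y ∉ Set.range f → a' y = y)
    (hb : ∀ x, b' (f x) = f (b x)) (hb' : ∀ y, y ∉ Set.range f → b' y = y) :
    Planar a' b' ↔ Planar a b := by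
  have hab : S (a' * b') = push f (S (a * b)) :=
    S_push f (fun x => by simp [ha, hb]) (fun y hy => by simp [ha' y hy, hb' y hy])
  have hc : Nat.card D' = Nat.card D + Nat.card {y // y ∉ Set.range f} := by
    classical
    rw [← Nat.card_congr (Equiv.sumCompl (fun y => y ∈ Set.range f)), Nat.card_sum,
      Nat.card_congr (Equiv.ofInjective f f.injective)]
  unfold Planar
  simp only [cyc_eq, comp_eq]
  rw [hab, S_push f ha ha', S_push f hb hb', ← push_sup, nc_push, nc_push, nc_push, nc_push, hc]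
  omega

/-- restriction to an invariant set outside of which both permutations are trivial -/
theorem Planar.restrict {a b : Perm D} (h : Planar a b) (p : D → Prop)
    (ha : ∀ x, p (a x) ↔ p x) (hb : ∀ x, p (b x) ↔ p x) (ha' : ∀ x, ¬ p x → a x = x)
    (hb' : ∀ x, ¬ p x → b x = x) : Planar (a.subtypePerm ha) (b.subtypePerm hb) :=
  (planar_embed (Function.Embedding.subtype p) (fun _ => rfl)
    (fun y hy => ha' y fun k => hy ⟨⟨y, k⟩, rfl⟩) (fun _ => rfl)
    (fun y hy => hb' y fun k => hy ⟨⟨y, k⟩, rfl⟩)).1 h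

open Classical in
/-- counting classes by weights -/
theorem nc_le_sum {D : Type} [Fintype D] (r : Setoid D) (wt : D → ℝ)
    (h : ∀ x, 1 ≤ ∑ y ∈ Finset.univ.filter (fun y => r x y), wt y) : (nc r : ℝ) ≤ ∑ y, wt y := by
  have := Fintype.ofFinite (Quotient r)
  rw [← Finset.sum_fiberwise (s := Finset.univ) (g := fun y => (Quotient.mk'' y : Quotient r)),
    nc, Nat.card_eq_fintype_card, ← Finset.card_univ, Finset.card_eq_sum_ones, Nat.cast_sum]
  refine Finset.sum_le_sum fun q _ => ?_
  induction q using Quotient.inductionOn' with | h x => ?_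
  refine (by simpa using h x : ((1 : ℕ) : ℝ) ≤ _).trans (le_of_eq ?_)
  refine Finset.sum_congr ?_ fun _ _ => rfl
  ext y
  simp only [Finset.mem_filter, Finset.mem_univ, true_and]
  exact ⟨fun k => Quotient.sound' (r.symm k), fun k => r.symm (Quotient.exact' k)⟩

open Classical in
theorem cyc_le_sum {D : Type} [Fintype D] (f : Perm D) (wt : D → ℝ)
    (h : ∀ x, 1 ≤ ∑ y ∈ Finset.univ.filter (fun y => f.SameCycle x y), wt y) :
    (cyc f : ℝ) ≤ ∑ y, wt y := by
  refine nc_le_sum (S f) wt fun x => ?_
  convert h x using 3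
  exact Iff.rfl

theorem comp_pos [Nonempty D] (a b : Perm D) : 0 < comp a b := nc_pos _

end Crest.Agent.H9.ZD
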