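/-!
# Plan for S0267 / S0274 (statements T1..T5 are in `Crest.Agent.H9.ZD0`)

## T1 (ClaimA => finite classifying complex)
G = Grp rel, cells K = G x (Unit + S + R).  E = subset of (K -> R) (product topology): union of the
images of vert g, edge g s : [0,1], tri g r : stdSimplex; a point with barycentric weights t_i has value
t_i at its vertices (g, g a, g c; distinct because ht : G -> Z), t_i t_j at edges, t0 t1 t2 at the triangle.
Stars {w | w(g,vertex) > 0} are open and meet finitely many closed cells: locally finite compact cover,
so E is locally compact T2, G acts freely (heights) and properly discontinuously;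
X = orbit quotient, `isQuotientCoveringMap_quotientMk_of_properlyDiscontinuousSMul`,
`IsQuotientCoveringMap.fundamentalGroupEquiv`, `CWComplex.mkFinite` (2-cell: square -> triangle
(u,v) |-> (1-u, u(1-v), uv); inverse continuous on the open cell by the closed-map lemma).
Contraction.  Moore paths MP = {(L, gamma : C(R,E)) const on t<=0 and t>=L}: concatenation is strictly
associative/unital and continuous in families.  M = Moore paths from vertex 1 to some vertex g, monoid with
gamma * delta = gamma . (g • delta).  P = fundamental groupoid of M (Path.Homotopic.Quotient, Path.mul) is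
strict monoidal.  |w| : words -> M.  With r(x->y) the unit speed segment (sup norm, length dist x y):
eta+ : v |-> r(0->1-v) r(1-v->0), eta- : v |-> r(1->v) r(v->1), tau_r : v |-> r(z0->p_v) r(p_v->z2), p_v from z1 to z2.
Zigzag  eta+ (x) s = s (x) eta-  : family r(0->a) r(a->b) r(b->1), H(s,v) = (a,b) = (1-(1-s)v, s v).
Real w w' z f : f realises a derivation (same constructors as Der).  Choose words w_g (w_1 = []), k_g = |w_g|,
theta(g,s) : k_g |s| -> k_{gs} realising D(g,s); theta-(g,s) = (k (x) eta+) o (theta(g s^-1, s)^-1 (x) s^-1);
Theta_w : |w| -> k_{ev w} recursively.  A = Aut(1) is abelian, iota_k : A -> Aut(k), a |-> a (x) id_k is bijective for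
k = |w| and commutes with all morphisms (interchange).  kappa(g,r) in A = curvature of triangle (g,r).
Lemma: Real w w' z f -> Theta_w' o f = iota(kappa z) o Theta_w.  Applied to theta(g,s): kappa(D(g,s)) = beta_{gs} - beta_g
(Theta_{w_g} = iota beta_g).  ClaimA on the closed derivation around a triangle:
D(g,a) + D(ga,b) - D(g,c) = +- single (g,r), hence kappa(g,r) = 0.
Sections: for convex Z -> E, P_Z = {(z,gamma) : end gamma = chi z}, Phi(z,gamma) = gamma . r(z->z*) is bijective on
homs (slide s |-> (z_s, gamma . r(z->z_s)) has constant Phi).  Any G : A -> P_Z is corrected to a section over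
q : A -> Z by appending r(fst G a -> q a) (unchanged where fst G a = q a).  Edge: section with Phi-class theta.
Triangle: square (u,v) |-> K_a(u) r(z_u->p_v) r(p_v->z2) shows Phi K_a o (k (x) tau) = theta_a (x) b, so kappa = 0
gives K_a K_b ~ K_c in P_Z, fill, correct.  H(y,s) = K(y).gamma (s L(y)).

## T2
ev w = ev w' -> exists z, Der w w' z (normal closure induction).  D(g,s) as above gives s1 : Z[GxS] -> Z[GxR];
ClaimA: s1 d2 = +-id; induction on Der: d2 z = chain w - chain w'.  So 0->C2->C1->C0->Z exact.  h of order n>1,
N = sum h^i, T = 1-h; on finsupps over a free <h>-set ker T = im N, ker N = im T; chase from [1] in C0 gives n | 1.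

## Planar tools (ZD1, helper9): `Planar.split` (x != y same a-cycle: Planar (swap x y * a) b), symmetric versions,
`Planar.merge` (x,y in different components), neutral points (extendDomain / subtype), `cyc_le_sum`.

## T3
Gamma+ = Gamma plus cone point, labels I + V.  HD W z: planar (phi,alpha) with marker st, outer sides st,o1..ok
(IsChain phi, labels W), inner sides carry tl : Option V with St+; pos : D -> G with pos(phi d) = pos(alpha d) = pos d * lab d;
z = sum over inner I-sides +- single (pos d * y_(tl d)^-1, edge d); other points neutral (phi d = alpha d = d).
Moves: insert d d^-1, zip consecutive inverse sides (also = R2), insert a triangle.  Der w w' z gives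
HD (w++x) xi <-> HD (w'++x) (xi +- z).  Reduction by induction on active sides: R1 (alpha d is the reverse dart of d:
(phi,alpha) -> (phi s, s alpha), then split off d, alpha d), R2; both keep z, and tl(phi st), and the head of the side before st.
Reduced => no y-side => RD unless no active side.  ClaimC: outer word [y_r^-1, y_v] is a path r -> cone -> v.

## T4a  Plotkin-Rao-Smith: state (H, M, branch sets, L), l|M| <= |L|, no H-L edges; drop a branch set with no neighbour in H;
else either X in H, |X| <= |H|/2, |N(X)-X| <= |X|/l (move X to L, boundary to M) or all balls of radius R ((1+1/l)^R > n/2) have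
> |H|/2 points, so a union of <= 4 paths of length <= 2R is a new branch set; 5 sets contradict NoK5.  Stop at 3|H| <= 2n.
|S| <= n/l + 4(8R+1).  Descent: rho(W) = (cost+wt)/wt grows by <= 4 delta, delta = l|S|/(n-1) = O(n^(-1/3)), sizes shrink by 2/3.
## T4k  label faces by clusters; merge two faces of a cluster along a glued pair ((phi s, s alpha), cyc phi drops) until every
cluster is one face; cut all pairs but 10, split off all other sides; 20 sides, cyc <= 5, 10, 6: contradiction.
## T4  sigma = phi alpha has no fixed point except possibly st; Euler gives #{x | sigma^2 x != x} <= 6 cyc phi;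
faces of length < 2Lg stay whole (length >= g by girth), others are cut in segments of length in [Lg,2Lg); closing up the
segments is a sequence of splits; st belongs to the root segment (weight 0 = i0); c = lambda * (irregular corners), lambda ~ eta/100.
If only the root segment exists Euler fails (F = 1).

## Assembly (T6)
I = points of PG(2,64) = Fin 7 + Fin k x Bool, V t = Sigma (type) Fin (cnt), layers A, C; line vertices: 4t+1 (A), 4t (C) per line;
pair connectors 65 n each; simplex words 65t+16 (A), 65t (C); one full 7-link in A.  Adm.card = 4196 < 65^2, s = 64, c0 = 65.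
sum_{v,w lines} |link v ∩ link w| y_v y_w^-1 = sum_p ... = sum_{c,c'} |link c ∩ link c'| y_c y_c'^-1, so a a* = 1, c a* = 0.
-/
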