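import Crest.Agent.H9.ZD1

/-! Van Kampen diagrams, part 1: planar diagrams over a folded graph, moves and reduction. -/

namespace Crest.Agent.H9.ZD

open Equiv Finset

set_option linter.unusedSectionVars false

variable {X A G M : Type} [Group G] [AddCommGroup M] {D : Type} [Fintype D] [DecidableEq D]

/-- a planar diagram; fixed points of `α` are markers, all of them except `st` transparent -/
structure PD (St : X → A × Bool → X → Prop) (val : A × Bool → G) (st : D) (tl : D → X)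
    (lab : D → A × Bool) (pos : D → G) (φ α : Perm D) : Prop where
  α_α : ∀ d, α (α d) = d
  α_st : α st = st
  neu : ∀ d, d ≠ st → α d = d → tl (φ d) = tl d ∧ pos (φ d) = pos d
  step : ∀ d, α d ≠ d → St (tl d) (lab d) (tl (φ d))
  glue : ∀ d, α d ≠ d → lab (α d) = inv (lab d)
  posφ : ∀ d, α d ≠ d → pos (φ d) = pos d * val (lab d)
  posα : ∀ d, α d ≠ d → pos (α d) = pos d * val (lab d)
  planar : Planar φ α

/-- the count of a diagram -/
def cnt (c : G → X → A × Bool → X → M) (tl : D → X) (lab : D → A × Bool) (pos : D → G)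
    (φ α : Perm D) : M :=
  ∑ d, if α d = d then 0 else c (pos d) (tl d) (lab d) (tl (φ d))

/-- a folded graph with an antisymmetric cochain -/
structure Gr (St : X → A × Bool → X → Prop) (val : A × Bool → G)
    (c : G → X → A × Bool → X → M) : Prop where
  symm : ∀ x d y, St x d y → St y (inv d) x
  fold : ∀ x d y y', St x d y → St x d y' → y = y'
  val_inv : ∀ d, val (inv d) = (val d)⁻¹
  anti : ∀ g x d y, St x d y → c g x d y + c (g * val d) y (inv d) x = 0

theorem inv_ne (d : A × Bool) : inv d ≠ d := by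
  obtain ⟨a, b⟩ := d
  cases b <;> simp [inv]

variable {St : X → A × Bool → X → Prop} {val : A × Bool → G} {c : G → X → A × Bool → X → M}
  {st : D} {tl : D → X} {lab : D → A × Bool} {pos : D → G} {φ α : Perm D}

theorem PD.sw (h : PD St val st tl lab pos φ α) {u v : D} (htl : tl u = tl v) (hp : pos u = pos v)
    (hpl : Planar (swap u v * φ) α) : PD St val st tl lab pos (swap u v * φ) α := by
  have k1 := apply_swap_eq_self htl
  have k2 := apply_swap_eq_self hp
  refine ⟨h.α_α, h.α_st, fun d h1 h2 => ?_, fun d h1 => ?_, h.glue, fun d h1 => ?_, h.posα, hpl⟩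
  · simpa only [Perm.mul_apply, k1, k2] using h.neu d h1 h2
  · simpa only [Perm.mul_apply, k1] using h.step d h1
  · simpa only [Perm.mul_apply, k2] using h.posφ d h1

theorem cnt_sw {u v : D} (htl : tl u = tl v) :
    cnt c tl lab pos (swap u v * φ) α = cnt c tl lab pos φ α := by
  simp only [cnt, Perm.mul_apply, apply_swap_eq_self htl]

theorem PD.act (h : PD St val st tl lab pos φ α) {d : D} (hd : α d ≠ d) : α (α d) ≠ α d := by
  rw [h.α_α]; exact hd.symm

/-- re-gluing two consecutive inverse sides -/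
theorem PD.rg (h : PD St val st tl lab pos φ α) {d : D} (hd : α d ≠ d) (hd' : α (φ d) ≠ φ d)
    (hl : lab (φ d) = inv (lab d)) : ∃ β : Perm D, PD St val st tl lab pos φ β ∧ β d = φ d ∧
      ∀ x, β x = x ↔ α x = x := by
  set s := swap (α d) (φ d) with hs
  have hne : φ d ≠ d := fun e => inv_ne (lab d) (by rw [← hl, e])
  have sd : s d = d := swap_apply_of_ne_of_ne hd.symm hne.symm
  have k1 : ∀ x, lab (s x) = lab x := apply_swap_eq_self (by rw [hl, h.glue d hd])
  have k2 : ∀ x, pos (s x) = pos x := apply_swap_eq_self (by rw [h.posφ d hd, h.posα d hd])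
  have k3 : ∀ x, (α (s x) = s x) = (α x = x) :=
    apply_swap_eq_self (v := fun x => α x = x) (by simp only [h.act hd, hd'])
  have ss : ∀ x, s (s x) = x := swap_apply_self _ _
  have k4 : ∀ x, (s * (α * s)) x = x ↔ α x = x := by
    intro x
    rw [← k3, Perm.mul_apply, Perm.mul_apply, ← s.injective.eq_iff, ss]
  refine ⟨s * (α * s), ⟨fun x => ?_, (k4 _).2 h.α_st, fun x h1 h2 => h.neu x h1 ((k4 x).1 h2),
    fun x h1 => h.step x (mt (k4 x).2 h1), fun x h1 => ?_, fun x h1 => h.posφ x (mt (k4 x).2 h1),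
    fun x h1 => ?_, ?_⟩, ?_, k4⟩
  · simp only [Perm.mul_apply, ss, h.α_α]
  · have : α (s x) ≠ s x := by rw [Ne, k3]; exact mt (k4 x).2 h1
    simp only [Perm.mul_apply, k1, h.glue _ this]
  · have : α (s x) ≠ s x := by rw [Ne, k3]; exact mt (k4 x).2 h1
    simp only [Perm.mul_apply, k1, k2, h.posα _ this]
  · refine (h.planar.splitP' ⟨1, by simp [h.α_α]⟩).splitR (Perm.SameCycle.symm ⟨2, ?_⟩)
    have : s (φ d) = α d := swap_apply_right _ _
    simp only [zpow_two, Perm.mul_apply, ← hs, this, h.α_α, sd]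
  · simp only [Perm.mul_apply, sd]; exact swap_apply_left _ _

theorem cnt_congr {β : Perm D} (h : ∀ x, β x = x ↔ α x = x) :
    cnt c tl lab pos φ β = cnt c tl lab pos φ α := by
  simp only [cnt, h]

theorem PD.cut_iff (h : PD St val st tl lab pos φ α) (d x : D) :
    (swap d (α d) * α) x = x ↔ α x = x ∨ x = d ∨ x = α d := by
  rw [Perm.mul_apply]
  by_cases h1 : x = d
  · subst h1; simp
  by_cases h2 : x = α d
  · subst h2; simp [h.α_α]
  rw [swap_apply_of_ne_of_ne (fun e => h2 (by rw [← e, h.α_α])) (fun e => h1 (α.injective e))]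
  simp [h1, h2]

theorem PD.back (hG : Gr St val c) (h : PD St val st tl lab pos φ α) {d : D} (hd : α d ≠ d)
    (ht : tl (α d) = tl (φ d)) : tl (φ (α d)) = tl d := by
  have h1 := h.step _ (h.act hd)
  rw [h.glue d hd, ht] at h1
  exact hG.fold _ _ _ _ h1 (hG.symm _ _ _ (h.step d hd))

/-- removing a glued pair of sides that carry the same edge -/
theorem PD.cut (hG : Gr St val c) (h : PD St val st tl lab pos φ α) {d : D} (hd : α d ≠ d)
    (ht : tl (α d) = tl (φ d)) :
    PD St val st tl lab pos (φ * swap d (α d)) (swap d (α d) * α) := by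
  have k : ∀ x, (swap d (α d) * α) x ≠ x → α x ≠ x ∧ (swap d (α d) * α) x = α x ∧
      (φ * swap d (α d)) x = φ x := by
    intro x hx
    rw [Ne, h.cut_iff] at hx
    push Not at hx
    refine ⟨hx.1, ?_, ?_⟩
    · rw [Perm.mul_apply, swap_apply_of_ne_of_ne (fun e => hx.2.2 (by rw [← e, h.α_α]))
        (fun e => hx.2.1 (α.injective e))]
    · rw [Perm.mul_apply, swap_apply_of_ne_of_ne hx.2.1 hx.2.2]
  refine ⟨fun x => ?_, (h.cut_iff _ _).2 (Or.inl h.α_st), fun x h1 h2 => ?_, fun x h1 => ?_,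
    fun x h1 => ?_, fun x h1 => ?_, fun x h1 => ?_, h.planar.cut ⟨1, by simp⟩⟩
  · by_cases hx : (swap d (α d) * α) x = x
    · rw [hx, hx]
    · obtain ⟨k1, k2, -⟩ := k x hx
      rw [h.cut_iff] at hx
      push Not at hx
      rw [k2, Perm.mul_apply, h.α_α, swap_apply_of_ne_of_ne hx.2.1 hx.2.2]
  · rw [Perm.mul_apply]
    rcases (h.cut_iff _ _).1 h2 with h3 | rfl | rfl
    · rw [swap_apply_of_ne_of_ne (fun e : x = d => hd (e ▸ h3))
        (fun e : x = α d => h.act hd (e ▸ h3))]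
      exact h.neu x h1 h3
    · rw [swap_apply_left]
      refine ⟨h.back hG hd ht, ?_⟩
      rw [h.posφ _ (h.act hd), h.posα _ hd, h.glue _ hd, hG.val_inv, mul_inv_cancel_right]
    · rw [swap_apply_right]
      exact ⟨ht.symm, by rw [h.posφ _ hd, h.posα _ hd]⟩
  · obtain ⟨k1, -, k3⟩ := k x h1; rw [k3]; exact h.step x k1
  · obtain ⟨k1, k2, -⟩ := k x h1; rw [k2]; exact h.glue x k1
  · obtain ⟨k1, -, k3⟩ := k x h1; rw [k3]; exact h.posφ x k1
  · obtain ⟨k1, k2, -⟩ := k x h1; rw [k2]; exact h.posα x k1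

theorem PD.cnt_cut (hG : Gr St val c) (h : PD St val st tl lab pos φ α) {d : D} (hd : α d ≠ d)
    (ht : tl (α d) = tl (φ d)) :
    cnt c tl lab pos (φ * swap d (α d)) (swap d (α d) * α) = cnt c tl lab pos φ α := by
  rw [eq_comm, ← sub_eq_zero, cnt, cnt, ← sum_sub_distrib,
    sum_eq_add_of_mem d (α d) (mem_univ _) (mem_univ _) hd.symm]
  · rw [if_neg hd, if_neg (h.act hd), if_pos ((h.cut_iff _ _).2 (by simp)),
      if_pos ((h.cut_iff _ _).2 (by simp)), sub_zero, sub_zero, h.back hG hd ht, ht, h.posα _ hd,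
      h.glue _ hd]
    exact hG.anti _ _ _ _ (h.step d hd)
  · rintro x - ⟨h1, h2⟩
    simp only [h.cut_iff, h1, h2, or_false]
    rw [Perm.mul_apply, swap_apply_of_ne_of_ne h1 h2, sub_self]

/-- the measure for the reduction -/
def meas (φ α : Perm D) : ℕ :=
  (univ.filter fun x => α x ≠ x).card + (univ.filter fun x => φ x ≠ x ∨ α x ≠ x).card

theorem PD.meas_cut (h : PD St val st tl lab pos φ α) {d : D} (hd : α d ≠ d) :
    meas (φ * swap d (α d)) (swap d (α d) * α) < meas φ α := by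
  refine Nat.add_lt_add_of_lt_of_le (card_lt_card ⟨fun x => ?_, fun k => ?_⟩)
    (card_le_card fun x => ?_)
  · simp only [mem_filter, mem_univ, true_and, Ne, h.cut_iff]; tauto
  · have := k (mem_filter.2 ⟨mem_univ d, hd⟩)
    simp only [mem_filter, mem_univ, true_and, Ne, h.cut_iff] at this; tauto
  · simp only [mem_filter, mem_univ, true_and, Ne, h.cut_iff]
    by_cases h1 : x = d
    · subst h1; tauto
    by_cases h2 : x = α d
    · subst h2; have := h.act hd; tauto
    rw [Perm.mul_apply, swap_apply_of_ne_of_ne h1 h2]; tauto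

theorem meas_drop {m : D} (h1 : α m = m) (h2 : φ m ≠ m) : meas (swap m (φ m) * φ) α < meas φ α := by
  refine Nat.add_lt_add_left (card_lt_card ⟨fun x => ?_, fun k => ?_⟩) _
  · simp only [mem_filter, mem_univ, true_and, Perm.mul_apply]
    refine Or.imp_left fun k e => k ?_
    rw [e, swap_apply_of_ne_of_ne (fun e' : x = m => h2 (e' ▸ e)) (fun e' => ?_)]
    have : x = m := φ.injective (e.trans e')
    exact h2 (this ▸ e)
  · have := k (mem_filter.2 ⟨mem_univ m, Or.inl h2⟩)
    simp [h1] at this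

/-- reduction of a diagram -/
theorem PD.reduce (hG : Gr St val c) (h : PD St val st tl lab pos φ α) :
    ∃ φ' α' : Perm D, PD St val st tl lab pos φ' α' ∧
      cnt c tl lab pos φ' α' = cnt c tl lab pos φ α ∧ tl (φ' st) = tl (φ st) ∧
      (∀ d, d ≠ st → α' d = d → φ' d = d) ∧ (∀ d, α' d ≠ d → tl (α' d) ≠ tl (φ' d)) ∧
      ∀ d, α' d ≠ d → α' (φ' d) ≠ φ' d → lab (φ' d) ≠ inv (lab d) := by
  induction hn : meas φ α using Nat.strong_induction_on generalizing φ α with
  | _ n ih =>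
  subst hn
  have key : ∀ β : Perm D, PD St val st tl lab pos φ β → (∀ x, β x = x ↔ α x = x) → ∀ d, β d ≠ d →
      tl (β d) = tl (φ d) → ∃ φ' α' : Perm D, PD St val st tl lab pos φ' α' ∧
      cnt c tl lab pos φ' α' = cnt c tl lab pos φ α ∧ tl (φ' st) = tl (φ st) ∧
      (∀ d, d ≠ st → α' d = d → φ' d = d) ∧ (∀ d, α' d ≠ d → tl (α' d) ≠ tl (φ' d)) ∧
      ∀ d, α' d ≠ d → α' (φ' d) ≠ φ' d → lab (φ' d) ≠ inv (lab d) := by
    intro β hβ e d hd ht
    have hm : meas φ β = meas φ α := by simp only [meas, Ne, e]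
    obtain ⟨φ', α', k1, k2, k3, k4⟩ := ih _ (hm ▸ hβ.meas_cut hd) (hβ.cut hG hd ht) rfl
    refine ⟨φ', α', k1, by rw [k2, hβ.cnt_cut hG hd ht, cnt_congr e], ?_, k4⟩
    rw [k3, Perm.mul_apply, swap_apply_of_ne_of_ne (fun e : st = d => hd (e ▸ hβ.α_st))
      (fun e : st = β d => hβ.act hd (e ▸ hβ.α_st))]
  by_cases h1 : ∃ d, d ≠ st ∧ α d = d ∧ φ d ≠ d
  · obtain ⟨m, m1, m2, m3⟩ := h1
    obtain ⟨t1, t2⟩ := h.neu m m1 m2
    obtain ⟨φ', α', k1, k2, k3, k4⟩ := ih _ (meas_drop m2 m3)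
      (h.sw t1.symm t2.symm (h.planar.split ⟨1, by simp⟩)) rfl
    exact ⟨φ', α', k1, by rw [k2, cnt_sw t1.symm],
      by rw [k3, Perm.mul_apply, apply_swap_eq_self t1.symm], k4⟩
  by_cases h2 : ∃ d, α d ≠ d ∧ tl (α d) = tl (φ d)
  · obtain ⟨d, d1, d2⟩ := h2
    exact key α h (fun _ => Iff.rfl) d d1 d2
  by_cases h3 : ∃ d, α d ≠ d ∧ α (φ d) ≠ φ d ∧ lab (φ d) = inv (lab d)
  · obtain ⟨d, d1, d2, d3⟩ := h3
    obtain ⟨β, b1, b2, b3⟩ := h.rg d1 d2 d3
    exact key β b1 b3 d (mt (b3 d).1 d1) (by rw [b2])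
  push Not at h1 h2 h3
  exact ⟨φ, α, h, rfl, rfl, h1, h2, h3⟩

end Crest.Agent.H9.ZD
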