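import Crest.Agent.H9.ZV1

/-! Van Kampen diagrams, part 2: the outer face and the three moves on it. -/

namespace Crest.Agent.H9.ZD

open Equiv Finset

set_option linter.unusedSectionVars false

/-- `l` is the list of points met from `a` until `b` -/
def Pth {D : Type} (f : D → D) : D → List D → D → Prop
  | a, [], b => a = b
  | a, x :: l, b => a = x ∧ Pth f (f x) l b

section pth
variable {D D' : Type} {f : D → D} {f' : D' → D'}

theorem Pth_append {l l' : List D} : ∀ {a b : D},
    Pth f a (l ++ l') b ↔ ∃ c, Pth f a l c ∧ Pth f c l' b := by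
  induction l with
  | nil => intro a b; simp [Pth]
  | cons x l ih => intro a b; simp [Pth, ih, and_assoc]

theorem Pth.map (j : D → D') {l : List D} (h : ∀ x ∈ l, f' (j x) = j (f x)) : ∀ {a b : D},
    Pth f a l b → Pth f' (j a) (l.map j) (j b) := by
  induction l with
  | nil => intro a b k; exact congrArg j k
  | cons x l ih =>
    rintro a b ⟨rfl, k⟩
    exact ⟨rfl, by rw [h a (by simp)]; exact ih (fun y hy => h y (by simp [hy])) k⟩

theorem Pth.head {l : List D} {a b : D} (h : Pth f a l b) : a ∈ l ∨ a = b := by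
  cases l with
  | nil => exact Or.inr h
  | cons x l => exact Or.inl (by simp [h.1])

theorem Pth.pred {l : List D} : ∀ {s a : D}, (s :: l).Nodup → Pth f (f s) l a →
    ∃ p ∈ s :: l, f p = a ∧ ∀ (D' : Type) (j : D → D') (f' : D' → D'),
      (∀ x ∈ s :: l, x ≠ p → f' (j x) = j (f x)) → Pth f' (f' (j s)) (l.map j) (f' (j p)) := by
  induction l with
  | nil => intro s a _ h; exact ⟨s, by simp, h, fun _ _ _ _ => rfl⟩
  | cons x l ih =>
    rintro s a hn ⟨h1, h2⟩
    obtain ⟨p, p1, p2, p3⟩ := ih (List.nodup_cons.1 hn).2 h2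
    refine ⟨p, List.mem_cons_of_mem _ p1, p2, fun D' j f' k => ⟨?_, p3 D' j f' fun y hy =>
      k y (List.mem_cons_of_mem _ hy)⟩⟩
    rw [k s (by simp) (fun e => (List.nodup_cons.1 hn).1 (e ▸ p1)), h1]

theorem Pth.surg {l1 m l2 : List D} {s a q : D} (hn : (s :: (l1 ++ m ++ l2)).Nodup)
    (h1 : Pth f (f s) l1 a) (h2 : Pth f q l2 s) : ∃ p ∈ s :: l1, f p = a ∧
      ∀ (D' : Type) (j : D → D') (f' : D' → D') (m' : List D'),
        (∀ x, x ≠ p → x ∉ m → f' (j x) = j (f x)) → Pth f' (f' (j p)) m' (j q) →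
          Pth f' (f' (j s)) (l1.map j ++ m' ++ l2.map j) (j s) := by
  have hn' : ((s :: l1) ++ m ++ l2).Nodup := hn
  rw [List.nodup_append, List.nodup_append] at hn'
  obtain ⟨⟨n1, -, n2⟩, -, n3⟩ := hn'
  obtain ⟨p, p1, p2, p3⟩ := h1.pred n1
  refine ⟨p, p1, p2, fun D' j f' m' k k' => Pth_append.2 ⟨_, Pth_append.2 ⟨_, p3 D' j f'
    fun x hx hp => k x hp fun hm => n2 x hx x hm rfl, k'⟩, h2.map j fun x hx => k x
      (fun e => n3 p (List.mem_append_left _ p1) x hx e.symm)
      fun hm => n3 x (List.mem_append_right _ hm) x hx rfl⟩⟩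

end pth

theorem not_conn {D Z : Type} [Finite D] {a b : Perm D} (p : D → Z) (ha : ∀ x, p (a x) = p x)
    (hb : ∀ x, p (b x) = p x) {x y : D} (h : p x ≠ p y) : ¬ (S a ⊔ S b) x y := fun k =>
  h ((sup_le (S_le (r := Setoid.ker p) fun x => (ha x).symm)
    (S_le (r := Setoid.ker p) fun x => (hb x).symm) : S a ⊔ S b ≤ Setoid.ker p) k)

variable {X A G M : Type} [Group G] [AddCommGroup M]

section
variable {D : Type} [Fintype D] [DecidableEq D]
  {St St' : X → A × Bool → X → Prop} {val : A × Bool → G} {c : G → X → A × Bool → X → M}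
  {st : D} {tl : D → X} {lab : D → A × Bool} {pos : D → G} {φ α : Perm D}

theorem PD.pos_pth (h : PD St val st tl lab pos φ α) {l : List D} : ∀ {x y : D}, Pth φ x l y →
    (∀ d ∈ l, α d ≠ d) → pos y = pos x * ((l.map lab).map val).prod := by
  induction l with
  | nil => intro x y k _; rw [show x = y from k]; simp
  | cons z l ih =>
    rintro x y ⟨rfl, k⟩ hl
    rw [ih k fun d hd => hl d (by simp [hd]), h.posφ _ (hl _ (by simp))]
    simp [mul_assoc]

/-- relabelling a face with three sides -/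
theorem PD.tri3 (h : PD St val st tl lab pos φ α) {o : X} (hc : ∀ g d y, c g o d y = 0)
    {a b e : D} (ab : a ≠ b) (ae : a ≠ e) (be : b ≠ e) (ha : φ a = b) (hb : φ b = e) (he : φ e = a)
    (ta : tl a = o) (tb : tl b = o) (te : tl e = o) (aa : α a ≠ a) (ba : α b ≠ b)
    (ea : e ≠ st → α e ≠ e) (x y z : X) (s1 : St' x (lab a) y) (s2 : St' y (lab b) z)
    (s3 : α e ≠ e → St' z (lab e) x)
    (s4 : ∀ d w, d ≠ a → d ≠ b → d ≠ e → α d ≠ d → St (tl d) (lab d) w → St' (tl d) (lab d) w) :
    ∃ tl' : D → X, PD St' val st tl' lab pos φ α ∧ tl' a = x ∧ tl' b = y ∧ tl' e = z ∧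
      (∀ d, d ≠ a → d ≠ b → d ≠ e → tl' d = tl d) ∧ cnt c tl' lab pos φ α = cnt c tl lab pos φ α +
        (c (pos a) x (lab a) y + (c (pos b) y (lab b) z +
          if α e = e then 0 else c (pos e) z (lab e) x)) := by
  obtain ⟨tl', t1, t2, t3, t4⟩ : ∃ tl' : D → X, tl' a = x ∧ tl' b = y ∧ tl' e = z ∧
      ∀ d, d ≠ a → d ≠ b → d ≠ e → tl' d = tl d :=
    ⟨fun d => if d = a then x else if d = b then y else if d = e then z else tl d, by simp,
      by simp [ab.symm], by simp [ae.symm, be.symm], fun d h1 h2 h3 => by simp [h1, h2, h3]⟩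
  have t5 : ∀ d, d ≠ a → d ≠ b → d ≠ e → tl' (φ d) = tl (φ d) := fun d h1 h2 h3 =>
    t4 _ (fun k => h3 (φ.injective (k.trans he.symm))) (fun k => h1 (φ.injective (k.trans ha.symm)))
      (fun k => h2 (φ.injective (k.trans hb.symm)))
  refine ⟨tl', ⟨h.α_α, h.α_st, fun d h1 h2 => ?_, fun d h1 => ?_, h.glue, h.posφ, h.posα, h.planar⟩,
    t1, t2, t3, t4, ?_⟩
  · have k1 : d ≠ a := fun k => aa (k ▸ h2)
    have k2 : d ≠ b := fun k => ba (k ▸ h2)
    have k3 : d ≠ e := fun k => ea (k ▸ h1) (k ▸ h2)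
    rw [t5 d k1 k2 k3, t4 d k1 k2 k3]
    exact h.neu d h1 h2
  · by_cases k1 : d = a
    · rw [k1, ha, t1, t2]; exact s1
    by_cases k2 : d = b
    · rw [k2, hb, t2, t3]; exact s2
    by_cases k3 : d = e
    · rw [k3, he, t3, t1]; exact s3 (k3 ▸ h1)
    rw [t5 d k1 k2 k3, t4 d k1 k2 k3]
    exact s4 d _ k1 k2 k3 h1 (h.step d h1)
  · rw [← sub_eq_iff_eq_add', cnt, cnt, ← sum_sub_distrib,
      ← sum_subset (subset_univ ({a, b, e} : Finset D)), sum_insert (by simp [ab, ae]),
      sum_pair be]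
    · simp only [ha, hb, he, t1, t2, t3, ta, tb, te, hc, ite_self, sub_zero, if_neg aa, if_neg ba]
    · intro d _ hd
      simp only [mem_insert, mem_singleton, not_or] at hd
      rw [t5 d hd.1 hd.2.1 hd.2.2, t4 d hd.1 hd.2.1 hd.2.2, sub_self]

/-- adding a two-sided sphere -/
theorem PD.add (hG : Gr St val c) (h : PD St val st tl lab pos φ α) {x y : X} {d : A × Bool}
    (hs : St x d y) (g : G) :
    PD St val (Sum.inl st) (Sum.elim tl fun b => bif b then y else x)
      (Sum.elim lab fun b => bif b then inv d else d)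
      (Sum.elim pos fun b => bif b then g * val d else g)
      (φ.sumCongr (swap false true)) (α.sumCongr (swap false true)) := by
  refine ⟨?_, by simp [h.α_st], ?_, ?_, ?_, ?_, ?_, ?_⟩
  · rintro (z | _ | _) <;> simp [h.α_α]
  · rintro (z | _ | _)
    · simpa using h.neu z
    · simp
    · simp
  · rintro (z | _ | _)
    · simpa using h.step z
    · simpa using hs
    · simpa using hG.symm _ _ _ hs
  · rintro (z | _ | _)
    · simpa using h.glue z
    · simp
    · simp
  · rintro (z | _ | _)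
    · simpa using h.posφ z
    · simp
    · simp [hG.val_inv]
  · rintro (z | _ | _)
    · simpa using h.posα z
    · simp
    · simp [hG.val_inv]
  · have h1 : Planar (φ.sumCongr (1 : Perm Bool)) (α.sumCongr (1 : Perm Bool)) := by
      refine (planar_embed Function.Embedding.inl (fun _ => rfl) ?_ (fun _ => rfl) ?_).2 h.planar
      · rintro (z | z) hz
        · exact absurd ⟨z, rfl⟩ hz
        · rfl
      · rintro (z | z) hz
        · exact absurd ⟨z, rfl⟩ hz
        · rfl
    have h2 := (h1.merge (x := Sum.inr false) (y := Sum.inr true) (not_conn Sum.getRight?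
      (by rintro (z | z) <;> rfl) (by rintro (z | z) <;> rfl) (by simp))).splitP'
        (x := Sum.inr false) (y := Sum.inr true) ⟨1, by simp⟩
    rwa [← Perm.sumCongr_one_swap, Perm.sumCongr_mul, Perm.sumCongr_mul, one_mul, mul_one, one_mul,
      mul_one] at h2

theorem cnt_add (hG : Gr St val c) {x y : X} {d : A × Bool} (hs : St x d y) (g : G) :
    cnt c (Sum.elim tl fun b => bif b then y else x)
      (Sum.elim lab fun b => bif b then inv d else d)
      (Sum.elim pos fun b => bif b then g * val d else g)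
      (φ.sumCongr (swap false true)) (α.sumCongr (swap false true)) = cnt c tl lab pos φ α := by
  have := hG.anti g _ _ _ hs
  rw [add_comm] at this
  simp [cnt, Fintype.sum_sum_type, this]

/-- the outer face -/
structure OD (o : X) (st : D) (tl : D → X) (pos : D → G) (φ α : Perm D) (out : List D) : Prop where
  pth : Pth φ (φ st) out st
  nd : (st :: out).Nodup
  act : ∀ d ∈ out, α d ≠ d
  tlo : ∀ d ∈ out, tl d = o
  only : ∀ d, α d ≠ d → tl d = o → d ∈ out
  tst : tl st = o
  pos1 : pos (φ st) = 1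

end

/-- there is a diagram with outer word `W` and count `ξ` -/
def HD (St : X → A × Bool → X → Prop) (val : A × Bool → G) (c : G → X → A × Bool → X → M) (o : X)
    (W : List (A × Bool)) (ξ : M) : Prop :=
  ∃ (D : Type) (_ : Fintype D) (_ : DecidableEq D) (st : D) (tl : D → X) (lab : D → A × Bool)
    (pos : D → G) (φ α : Perm D) (out : List D), PD St val st tl lab pos φ α ∧
      OD o st tl pos φ α out ∧ out.map lab = W ∧ cnt c tl lab pos φ α = ξ

variable {St : X → A × Bool → X → Prop} {val : A × Bool → G} {c : G → X → A × Bool → X → M}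
  {o : X} {u v : List (A × Bool)} {ξ : M}

theorem HD.nil (d : A × Bool) : HD St val c o [] 0 :=
  ⟨Unit, inferInstance, inferInstance, (), fun _ => o, fun _ => d, fun _ => 1, 1, 1, [],
    ⟨by simp, by simp, by simp, by simp, by simp, by simp, by simp, planar_one⟩,
    ⟨rfl, by simp, by simp, by simp, by simp, rfl, rfl⟩, rfl, by simp [cnt]⟩

theorem HD.ins (hG : Gr St val c) (ho : ∀ d, St o d o) (d : A × Bool)
    (h : HD St val c o (u ++ v) ξ) : HD St val c o (u ++ d :: inv d :: v) ξ := by
  obtain ⟨D, _, _, st, tl, lab, pos, φ, α, out, hP, hO, hW, rfl⟩ := h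
  obtain ⟨l1, l2, rfl, rfl, rfl⟩ := List.map_eq_append_iff.1 hW
  obtain ⟨q, q1, q2⟩ := Pth_append.1 hO.pth
  have tq : tl q = o := q2.head.elim (fun k => hO.tlo q (by simp [k])) fun k => k ▸ hO.tst
  obtain ⟨p, -, p2, p3⟩ := Pth.surg (m := []) (by simpa using hO.nd) q1 q2
  have h1 := hP.add hG (ho d) (pos q)
  have htl : (Sum.elim tl fun b => bif b then o else o) (Sum.inl q) =
      (Sum.elim tl fun b => bif b then o else o) (Sum.inr false) := tq
  have hpos : (Sum.elim pos fun b => bif b then pos q * val d else pos q) (Sum.inl q) =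
      (Sum.elim pos fun b => bif b then pos q * val d else pos q) (Sum.inr false) := rfl
  have h2 := h1.sw htl hpos (h1.planar.merge (not_conn Sum.isLeft
      (by rintro (z | z) <;> rfl) (by rintro (z | z) <;> rfl) (by simp)))
  refine ⟨_, inferInstance, inferInstance, _, _, _, _, _, _, l1.map Sum.inl ++ [Sum.inr false, Sum.inr true] ++
    l2.map Sum.inl, h2, ⟨p3 _ _ _ _ (fun x hx _ => ?_) ?_, ?_, ?_, ?_, ?_, hO.tst, ?_⟩, ?_, ?_⟩
  · have : φ x ≠ q := fun e => hx (φ.injective (e.trans p2.symm))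
    simp [swap_apply_def, this]
  · simp [Pth, p2, swap_apply_def]
  · have := hO.nd
    simp only [List.nodup_cons, List.nodup_append, List.mem_append, List.mem_map, List.mem_cons,
      List.nodup_map_iff Sum.inl_injective] at this ⊢
    grind
  · have := hO.act
    simp only [List.mem_append, List.mem_map, List.mem_cons] at this ⊢
    rintro x ((⟨y, hy, rfl⟩ | rfl | rfl | h) | ⟨y, hy, rfl⟩)
    · simpa using this y (Or.inl hy)
    · simp
    · simp
    · simp at h
    · simpa using this y (Or.inr hy)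
  · have := hO.tlo
    simp only [List.mem_append, List.mem_map, List.mem_cons] at this ⊢
    rintro x ((⟨y, hy, rfl⟩ | rfl | rfl | h) | ⟨y, hy, rfl⟩)
    · exact this y (Or.inl hy)
    · rfl
    · rfl
    · simp at h
    · exact this y (Or.inr hy)
  · rintro (z | _ | _)
    · simpa using hO.only z
    · simp
    · simp
  · rw [Perm.mul_apply, apply_swap_eq_self hpos]; exact hO.pos1
  · simp
  · rw [cnt_sw htl, cnt_add hG (ho d)]

theorem HD.zip (hG : Gr St val c) (d : A × Bool)
    (h : HD St val c o (u ++ d :: inv d :: v) ξ) : HD St val c o (u ++ v) ξ := by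
  obtain ⟨D, _, _, st, tl, lab, pos, φ, α, out, hP, hO, hW, rfl⟩ := h
  obtain ⟨l1, l, rfl, rfl, hW1⟩ := List.map_eq_append_iff.1 hW
  obtain ⟨a0, l', rfl, rfl, hW2⟩ := List.map_eq_cons_iff.1 hW1
  obtain ⟨b, l2, rfl, hb, rfl⟩ := List.map_eq_cons_iff.1 hW2
  obtain ⟨a, q1, rfl, rfl, q2⟩ := Pth_append.1 hO.pth
  obtain ⟨p, p1, p2, p3⟩ := Pth.surg (m := [a, φ a]) (by simpa using hO.nd) q1 q2
  have hnd := hO.nd
  simp only [List.nodup_cons, List.nodup_append, List.mem_append, List.mem_cons] at hnd p1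
  obtain ⟨β, b1, b2, b3⟩ := hP.rg (hO.act a (by simp)) (hO.act (φ a) (by simp)) hb
  have ha : β a ≠ a := mt (b3 a).1 (hO.act a (by simp))
  have h1 := b1.cut hG ha (by rw [b2])
  have c1 := b1.cnt_cut hG ha (by rw [b2])
  have c2 := b1.cut_iff a
  rw [b2] at h1 c1 c2
  obtain ⟨t1, t2⟩ := h1.neu a (by grind) ((c2 a).2 (by simp))
  have h2 := h1.sw t1.symm t2.symm (h1.planar.split ⟨1, by simp⟩)
  refine ⟨_, inferInstance, inferInstance, _, _, _, _, _, _, l1 ++ l2, h2, ⟨?_, ?_, fun x hx => ?_, fun x hx => ?_,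
    fun x hx hx' => ?_, hO.tst, ?_⟩, by simp, ?_⟩
  · have := p3 D id (swap a ((φ * swap a (φ a)) a) * (φ * swap a (φ a)) : Perm D) []
      (fun x h1 h2 => ?_) ?_
    · simpa using this
    · simp only [List.mem_cons, List.not_mem_nil, or_false, not_or] at h2
      simp only [id, Perm.mul_apply, swap_apply_left, swap_apply_of_ne_of_ne h2.1 h2.2]
      exact swap_apply_of_ne_of_ne (fun e => h1 (φ.injective (e.trans p2.symm)))
        fun e => h2.2 (φ.injective e)
    · have k1 : p ≠ a := by grind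
      have k2 : p ≠ φ a := by grind
      simp only [Pth, id, Perm.mul_apply, swap_apply_left, swap_apply_of_ne_of_ne k1 k2, p2]
  · simp only [List.nodup_cons, List.nodup_append, List.mem_append]
    grind
  · rw [Ne, c2, b3]
    have := hO.act x
    simp only [List.mem_append, List.mem_cons] at this hx
    grind
  · refine hO.tlo x ?_
    simp only [List.mem_append, List.mem_cons] at hx ⊢
    tauto
  · rw [Ne, c2, b3] at hx
    have := hO.only x (by tauto) hx'
    simp only [List.mem_append, List.mem_cons] at this ⊢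
    tauto
  · rw [Perm.mul_apply, apply_swap_eq_self t2.symm, Perm.mul_apply,
      swap_apply_of_ne_of_ne (by grind) (by grind)]
    exact hO.pos1
  · rw [cnt_sw t1.symm, c1, cnt_congr b3]

theorem HD.cutoff (hc : ∀ g d y, c g o d y = 0) {d1 d2 d3 : A × Bool} {x y z : X} (hx : x ≠ o)
    (hy : y ≠ o) (hz : z ≠ o) (s1 : St x d1 y) (s2 : St y d2 z) (s3 : St z d3 x)
    (hv : val d1 * val d2 * val d3 = 1) (h : HD St val c o (u ++ d1 :: d2 :: d3 :: v) ξ) :
    HD St val c o (u ++ v) (ξ + (c (u.map val).prod x d1 y + (c ((u.map val).prod * val d1) y d2 z +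
      c ((u.map val).prod * val d1 * val d2) z d3 x))) := by
  obtain ⟨D, _, _, st, tl, lab, pos, φ, α, out, hP, hO, hW, rfl⟩ := h
  obtain ⟨l1, l, rfl, rfl, hW1⟩ := List.map_eq_append_iff.1 hW
  obtain ⟨a0, l', rfl, rfl, hW2⟩ := List.map_eq_cons_iff.1 hW1
  obtain ⟨b, l'', rfl, rfl, hW3⟩ := List.map_eq_cons_iff.1 hW2
  obtain ⟨e, l2, rfl, rfl, rfl⟩ := List.map_eq_cons_iff.1 hW3
  obtain ⟨a, q1, rfl, ab, be, q2⟩ := Pth_append.1 hO.pth
  obtain ⟨p, p1, p2, p3⟩ := Pth.surg (m := [a, b, e]) (by simpa using hO.nd) q1 q2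
  have hnd := hO.nd
  have hq := q2.head
  simp only [List.nodup_cons, List.nodup_append, List.mem_append, List.mem_cons] at hnd p1
  have aa := hO.act a (by simp)
  have ba := hO.act b (by simp)
  have ea := hO.act e (by simp)
  have pa : pos a = ((l1.map lab).map val).prod := by
    rw [hP.pos_pth q1 fun d hd => hO.act d (by simp [hd]), hO.pos1, one_mul]
  have pb : pos b = pos a * val (lab a) := by rw [← ab, hP.posφ a aa]
  have pe : pos e = pos a * val (lab a) * val (lab b) := by rw [← be, hP.posφ b ba, pb]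
  have t1 : tl a = tl (φ e) := by
    rw [hO.tlo a (by simp)]
    exact (hq.elim (fun k => hO.tlo _ (by simp [k])) fun k => k ▸ hO.tst).symm
  have t2 : pos a = pos (φ e) := by
    rw [hP.posφ e ea, pe, mul_assoc, mul_assoc, ← mul_assoc (val _), hv, mul_one]
  have h1 := hP.sw t1 t2 (hP.planar.split ⟨3, by
    rw [← be, ← ab, zpow_ofNat]; simp [pow_succ]⟩)
  obtain ⟨tl', h2, u1, u2, u3, u4, u5⟩ := h1.tri3 (St' := St) hc (a := a) (b := b) (e := e)
    (by grind) (by grind) (by grind)
    (by rw [Perm.mul_apply, ab]; exact swap_apply_of_ne_of_ne (by grind) (by grind))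
    (by rw [Perm.mul_apply, be]; exact swap_apply_of_ne_of_ne (by grind) (by grind))
    (by rw [Perm.mul_apply, swap_apply_right]) (hO.tlo a (by simp)) (hO.tlo b (by simp))
    (hO.tlo e (by simp)) aa ba (fun _ => ea) x y z s1 s2 (fun _ => s3) (fun _ _ _ _ _ _ k => k)
  refine ⟨_, inferInstance, inferInstance, _, _, _, _, _, _, l1 ++ l2, h2, ⟨?_, ?_, fun w hw => ?_, fun w hw => ?_,
    fun w hw hw' => ?_, ?_, ?_⟩, by simp, ?_⟩
  · have := p3 D id (swap a (φ e) * φ : Perm D) [] (fun w h1 h2 => ?_) ?_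
    · simpa using this
    · simp only [List.mem_cons, List.not_mem_nil, or_false, not_or] at h2
      exact swap_apply_of_ne_of_ne (fun k => h1 (φ.injective (k.trans p2.symm)))
        fun k => h2.2.2 (φ.injective k)
    · simp only [Pth, id, Perm.mul_apply, swap_apply_left, p2]
  · simp only [List.nodup_cons, List.nodup_append, List.mem_append]
    grind
  · refine hO.act w ?_
    simp only [List.mem_append, List.mem_cons] at hw ⊢
    tauto
  · simp only [List.mem_append] at hw
    rw [u4 w (by grind) (by grind) (by grind)]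
    refine hO.tlo w ?_
    simp only [List.mem_append, List.mem_cons]
    tauto
  · have k1 : w ≠ a := fun k => hx (by rw [← u1, ← k, hw'])
    have k2 : w ≠ b := fun k => hy (by rw [← u2, ← k, hw'])
    have k3 : w ≠ e := fun k => hz (by rw [← u3, ← k, hw'])
    have := hO.only w hw (by rw [← u4 w k1 k2 k3, hw'])
    simp only [List.mem_append, List.mem_cons] at this ⊢
    tauto
  · rw [u4 st (by grind) (by grind) (by grind), hO.tst]
  · rw [Perm.mul_apply, apply_swap_eq_self t2]; exact hO.pos1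
  · rw [u5, cnt_sw t1, if_neg ea, pe, pb, pa]

end Crest.Agent.H9.ZD
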