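import Crest.Agent.H9.ZV2
import Crest.Agent.Lead.ZT0

/-! Van Kampen diagrams, part 3: the coned-off graph; `T3`. -/

namespace Crest.Agent.H9.ZD

open Equiv Finset Crest.Agent.H6.SC Crest.Agent.Lead.ZT

variable {I V : Type} (E : Finset (V × I × V))

/-- the coned-off graph (`some none` is the cone point) -/
def SP : Option (Option V) → (I ⊕ V) × Bool → Option (Option V) → Prop
  | some (some v), (Sum.inl p, b), some (some w) => St E v (p, b) w
  | some none, (Sum.inr v, true), some (some w) => v = w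
  | some (some w), (Sum.inr v, false), some none => v = w
  | _, _, _ => False

/-- the coned-off graph together with a bouquet -/
def SQ (x : Option (Option V)) (d : (I ⊕ V) × Bool) (y : Option (Option V)) : Prop :=
  SP E x d y ∨ (x = none ∧ y = none)

/-- value of a letter -/
def vl (d : (I ⊕ V) × Bool) : Grp (relE E) := ev (relE E) [d]

open Classical in
/-- the cochain counting the triangles -/
noncomputable def cc (g : Grp (relE E)) : Option (Option V) → (I ⊕ V) × Bool → Option (Option V) →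
    (Grp (relE E) × {e // e ∈ E} →₀ ℤ)
  | some (some v), (Sum.inl p, b), some (some w) =>
    if h : edge v (p, b) w ∈ E then
      Finsupp.single (g * (vl E (Sum.inr v, true))⁻¹, ⟨_, h⟩) (bif b then 1 else -1) else 0
  | _, _, _ => 0

variable {E}

theorem vl_inv (d : (I ⊕ V) × Bool) : vl E (inv d) = (vl E d)⁻¹ := by
  rw [vl, vl, ← ev_invRev]; rfl

theorem vl_rel {v w : V} {p : I} (h : (v, p, w) ∈ E) :
    vl E (Sum.inr v, true) * vl E (Sum.inl p, true) = vl E (Sum.inr w, true) :=
  of_rel (rel := relE E) ⟨_, h⟩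

theorem prod_vl (u : List ((I ⊕ V) × Bool)) : (u.map (vl E)).prod = ev (relE E) u := by
  induction u with
  | nil => simp [ev_nil]
  | cons d u ih => rw [List.map_cons, List.prod_cons, ih, vl, ← ev_append]; rfl

theorem gr_SP (hF : Fold E) : Gr (SP E) (vl E) (cc E) := by
  refine ⟨?_, ?_, vl_inv, ?_⟩
  · rintro (_ | _ | v) ⟨p | p, _ | _⟩ (_ | _ | w) h <;> first | exact h
  · rintro (_ | _ | v) ⟨p | p, _ | _⟩ (_ | _ | w) (_ | _ | w') h h' <;>
      first | rfl | exact h.elim | exact h'.elim | rw [hF _ _ _ _ h h'] |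
        rw [← show p = w from h, show p = w' from h']
  · rintro g (_ | _ | v) ⟨p | p, _ | _⟩ (_ | _ | w) h <;> first | exact h.elim | exact add_zero _ | skip
    · have h' : (w, p, v) ∈ E := h
      have e := vl_inv (E := E) (Sum.inl p, true)
      simp only [inv, Bool.not_true] at e
      simp only [cc, inv, edge_true, edge_false, Bool.not_false, dif_pos h', cond_true, cond_false,
        ← vl_rel h', e, mul_inv_rev, mul_assoc, Finsupp.single_neg, neg_add_cancel]
    · have h' : (v, p, w) ∈ E := h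
      simp only [cc, inv, edge_true, edge_false, Bool.not_true, dif_pos h', cond_true, cond_false,
        ← vl_rel h', mul_inv_rev, mul_assoc, mul_inv_cancel_left, Finsupp.single_neg, add_neg_cancel]

theorem SP_none {d : (I ⊕ V) × Bool} {y : Option (Option V)} : ¬ SP E none d y := by
  simp [SP]

theorem cc_none (g : Grp (relE E)) (d : (I ⊕ V) × Bool) (y : Option (Option V)) :
    cc E g none d y = 0 := by
  simp [cc]

theorem gr_SQ (hF : Fold E) : Gr (SQ E) (vl E) (cc E) := by
  have h := gr_SP hF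
  refine ⟨?_, ?_, vl_inv, ?_⟩
  · rintro x d y (k | ⟨rfl, rfl⟩)
    · exact Or.inl (h.symm _ _ _ k)
    · exact Or.inr ⟨rfl, rfl⟩
  · rintro x d y y' (k | ⟨rfl, rfl⟩) (k' | ⟨k', rfl⟩)
    · exact h.fold _ _ _ _ k k'
    · exact (SP_none (k' ▸ k)).elim
    · exact (SP_none k').elim
    · rfl
  · rintro g x d y (k | ⟨rfl, rfl⟩)
    · exact h.anti _ _ _ _ k
    · rw [cc_none, cc_none, add_zero]

theorem HD.der (hF : Fold E) {w w' ζ} (h : Der (relE E) w w' ζ) : ∀ ξ,
    (HD (SQ E) (vl E) (cc E) none w ξ → HD (SQ E) (vl E) (cc E) none w' (ξ + ζ)) ∧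
    (HD (SQ E) (vl E) (cc E) none w' ξ → HD (SQ E) (vl E) (cc E) none w (ξ - ζ)) := by
  have hG := gr_SQ hF
  have ho : ∀ d, SQ E none d none := fun d => Or.inr ⟨rfl, rfl⟩
  induction h with
  | refl w => intro ξ; simp
  | ins u v d =>
    intro ξ
    rw [add_zero, sub_zero]
    exact ⟨HD.ins hG ho d, HD.zip hG d⟩
  | tri u v r =>
    obtain ⟨⟨x, p, y⟩, hr⟩ := r
    intro ξ
    simp only [relE]
    constructor
    · intro k
      have k1 := HD.ins (u := u ++ [(Sum.inr x, true), (Sum.inl p, true)]) (v := v) hG ho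
        (Sum.inr y, false) (by simpa using k)
      have k2 := HD.cutoff (St := SQ E) (val := vl E) (u := u) (v := (Sum.inr y, true) :: v)
        cc_none (d1 := (Sum.inr x, true))
        (d2 := (Sum.inl p, true)) (d3 := (Sum.inr y, false)) (x := some none) (y := some (some x))
        (z := some (some y)) (by simp) (by simp) (by simp) (Or.inl rfl) (Or.inl hr) (Or.inl rfl)
        (by rw [vl_rel hr]; exact mul_inv_eq_one.2 rfl) (by simpa [inv] using k1)
      simpa [cc, hr, prod_vl] using k2
    · intro k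
      have k1 := HD.ins (u := u ++ [(Sum.inr y, true)]) (v := v) hG ho
        (Sum.inl p, false) (by simpa using k)
      have k1' := HD.ins (u := u ++ [(Sum.inr y, true), (Sum.inl p, false)])
        (v := (Sum.inl p, true) :: v) hG ho (Sum.inr x, false) (by simpa [inv] using k1)
      have k2 := HD.cutoff (St := SQ E) (val := vl E) (u := u)
        (v := (Sum.inr x, true) :: (Sum.inl p, true) :: v) cc_none
        (d1 := (Sum.inr y, true)) (d2 := (Sum.inl p, false)) (d3 := (Sum.inr x, false))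
        (x := some none) (y := some (some y))
        (z := some (some x)) (by simp) (by simp) (by simp) (Or.inl rfl) (Or.inl hr) (Or.inl rfl)
        (by
          rw [← vl_rel hr, show vl E (Sum.inl p, false) = _ from vl_inv (Sum.inl p, true),
            show vl E (Sum.inr x, false) = _ from vl_inv (Sum.inr x, true)]
          group) (by simpa [inv] using k1')
      simpa [cc, hr, prod_vl, sub_eq_add_neg] using k2
  | symm _ ih =>
    intro ξ
    rw [← sub_eq_add_neg, sub_neg_eq_add]
    exact (ih ξ).symm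
  | trans _ _ ih ih' =>
    intro ξ
    rw [← add_assoc, add_comm _ _, ← sub_sub]
    refine ⟨fun k => ?_, fun k => ?_⟩
    · rw [add_comm]; exact (ih' _).1 ((ih _).1 k)
    · rw [sub_right_comm]; exact (ih _).2 ((ih' _).2 k)

theorem PD.final {r : V} (hF : Fold E) (hE : IsEmpty (RD E r)) {D : Type} [Fintype D]
    [DecidableEq D] {st : D} {tl lab pos} {φ α : Perm D} (h : PD (SP E) (vl E) st tl lab pos φ α)
    (hr : tl (φ st) = some (some r)) : cnt (cc E) tl lab pos φ α = 0 ∧ tl st = some (some r) := by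
  obtain ⟨φ, α, h, k1, k2, k3, k4, k5⟩ := h.reduce (gr_SP hF)
  rw [← k1]
  rw [← k2] at hr
  clear k1 k2
  by_cases hne : ∀ d, α d = d
  · refine ⟨by simp [cnt, hne], ?_⟩
    by_cases k : φ st = st
    · rw [← k, hr]
    · exact absurd (φ.injective (k3 _ k (hne _))) k
  exfalso
  have hy : ∀ d, α d ≠ d → ∀ v, lab d ≠ (Sum.inr v, true) := by
    intro d hd v e
    have s1 := h.step d hd
    have s2 := h.step _ (h.act hd)
    rw [h.glue d hd, e] at s2
    rw [e] at s1
    refine k4 d hd ?_
    generalize tl (α d) = x at *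
    generalize tl (φ d) = y at *
    generalize tl d = x' at *
    generalize tl (φ (α d)) = y' at *
    rcases x with _ | _ | x <;> rcases y with _ | _ | y <;> rcases x' with _ | _ | x' <;>
      rcases y' with _ | _ | y' <;>
        first | exact s1.elim | exact s2.elim | rw [← show v = x from s2, show v = y from s1]
  have hI : ∀ d, α d ≠ d → ∃ p b v w, lab d = (Sum.inl p, b) ∧ tl d = some (some v) ∧
      tl (φ d) = some (some w) ∧ St E v (p, b) w := by
    intro d hd
    have s1 := h.step d hd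
    have s2 := hy d hd
    have s3 := hy _ (h.act hd)
    rw [h.glue d hd] at s3
    generalize tl (φ d) = y at *
    generalize tl d = x at *
    generalize lab d = l at *
    obtain ⟨p | p, b⟩ := l
    · rcases x with _ | _ | x <;> rcases y with _ | _ | y <;>
        first | exact ⟨_, _, _, _, rfl, rfl, rfl, s1⟩ | (cases b <;> exact s1.elim)
    · cases b
      · exact (s3 p rfl).elim
      · exact (s2 p rfl).elim
  push Not at hne
  obtain ⟨d₀, hd₀⟩ := hne
  obtain ⟨p₀, -⟩ := hI d₀ hd₀
  have hφ : ∀ x, (φ x = st ∨ α (φ x) ≠ φ x) ↔ (x = st ∨ α x ≠ x) := by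
    intro x
    rw [← not_iff_not]
    push Not
    constructor
    · rintro ⟨a1, a2⟩
      have := φ.injective (k3 _ a1 a2)
      rw [this] at a1 a2
      exact ⟨a1, a2⟩
    · rintro ⟨a1, a2⟩
      rw [k3 _ a1 a2]; exact ⟨a1, a2⟩
  have hα : ∀ x, (α x = st ∨ α (α x) ≠ α x) ↔ (x = st ∨ α x ≠ x) := by
    intro x
    rw [h.α_α, ne_comm, ← α.injective.eq_iff, h.α_α, h.α_st]
  have ac : ∀ d : {x // x = st ∨ α x ≠ x}, d ≠ ⟨st, Or.inl rfl⟩ → α d ≠ d := fun d hd =>
    d.2.resolve_left fun e => hd (Subtype.ext e)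
  refine hE.false ⟨{x // x = st ∨ α x ≠ x}, inferInstance, φ.subtypePerm hφ, α.subtypePerm hα,
    ⟨st, Or.inl rfl⟩, fun d => ((tl d).getD none).getD r,
    fun d => ((lab d).1.getLeft?.getD p₀, (lab d).2), fun d => Subtype.ext (h.α_α d),
    Subtype.ext h.α_st, fun d hd e => ac d hd (congrArg Subtype.val e), fun d hd => ?_, fun _ => ?_,
    fun d hd => ?_, fun d hd => ?_, fun d hd hd' => ?_, h.planar.restrict _ hφ hα (fun x hx => ?_)
      (fun x hx => ?_), ⟨⟨d₀, Or.inr hd₀⟩, fun e => hd₀ ?_⟩⟩
  · obtain ⟨p, b, v, w, e1, e2, e3, e4⟩ := hI d (ac d hd)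
    simpa [e1, e2, e3] using e4
  · simp [hr]
  · simp [h.glue _ (ac d hd), inv]
  · obtain ⟨p, b, v, w, e1, e2, e3, e4⟩ := hI d (ac d hd)
    obtain ⟨p', b', v', w', e1', e2', e3', e4'⟩ := hI _ (h.act (ac d hd))
    simpa [e3, e2'] using k4 d (ac d hd)
  · obtain ⟨p, b, v, w, e1, e2, e3, e4⟩ := hI d (ac d hd)
    have := ac _ hd'
    obtain ⟨p', b', v', w', e1', e2', e3', e4'⟩ := hI (φ d) this
    simpa [e1, e1', inv] using k5 d (ac d hd) this
  · push Not at hx; exact k3 x hx.1 hx.2
  · push Not at hx; exact hx.2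
  · have : d₀ = st := congrArg Subtype.val e
    rw [this, h.α_st]

theorem HD.final {r v : V} (hF : Fold E) (hE : IsEmpty (RD E r)) {ξ}
    (h : HD (SQ E) (vl E) (cc E) none [(Sum.inr r, false), (Sum.inr v, true)] ξ) :
    ξ = 0 ∧ v = r := by
  obtain ⟨D, _, _, st, tl, lab, pos, φ, α, out, hP, hO, hW, rfl⟩ := h
  obtain ⟨a, l', rfl, la, hW2⟩ := List.map_eq_cons_iff.1 hW
  obtain ⟨b, l2, rfl, lb, hW3⟩ := List.map_eq_cons_iff.1 hW2
  obtain rfl := List.map_eq_nil_iff.1 hW3
  obtain ⟨e1, e2, e3⟩ := hO.pth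
  have hnd := hO.nd
  simp only [List.nodup_cons, List.mem_cons] at hnd
  obtain ⟨tl', h2, u1, u2, u3, -, u5⟩ := hP.tri3 (St' := SP E) cc_none (a := a) (b := b) (e := st)
    (by grind) (by grind) (by grind) e2 e3 e1 (hO.tlo a (by simp)) (hO.tlo b (by simp)) hO.tst
    (hO.act a (by simp)) (hO.act b (by simp)) (fun k => absurd rfl k) (some (some r)) (some none)
    (some (some v)) (by rw [la]; rfl) (by rw [lb]; rfl) (fun k => absurd hP.α_st k)
    (fun d w h1 h2 _ h4 k => k.resolve_right fun k' => by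
      have := hO.only d h4 k'.1
      simp [h1, h2] at this)
  obtain ⟨f1, f2⟩ := h2.final hF hE (by rw [e1, u1])
  rw [u3] at f2
  rw [f1, la, lb, if_pos hP.α_st] at u5
  exact ⟨by simpa [cc] using u5.symm, by simpa using f2⟩

theorem t3 : T3 := by
  intro I V E r hF hE
  have h0 : HD (SQ E) (vl E) (cc E) none [] 0 := HD.nil (Sum.inr r, true)
  constructor
  · intro ζ hζ
    have := ((HD.der hF (hζ.trans (Der.ins [] [] (Sum.inr r, false))) 0).1 h0).final hF hE
    simpa using this.1
  · intro v hv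
    obtain ⟨ζ, hζ⟩ := der_of_ev_eq (rel := relE E) (w := [])
      (w' := [(Sum.inr r, false), (Sum.inr v, true)]) (by
        rw [ev_nil, ← prod_vl, List.map_cons, List.prod_cons, prod_vl, ← hv,
          show vl E (Sum.inr r, false) = _ from vl_inv (Sum.inr r, true)]
        exact (inv_mul_cancel _).symm)
    exact (((HD.der hF hζ 0).1 h0).final hF hE).2

end Crest.Agent.H9.ZD
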